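import Vale.Agent.P032.Cases

/-!
Four classes at a point whose circle has one kind of two-coloured arc outside the fifth colour.
-/

namespace Vale.Agent.P032

open Metric Set Complex ComplexConjugate

lemma exists_zz {v : ℂ} (hv : ‖v‖ = 1) : v = zz v.arg := by
  have h0 : v ≠ 0 := fun e => by simp [e] at hv
  exact Complex.ext (by simp [zz, Complex.cos_arg h0, hv]) (by simp [zz, Complex.sin_arg, hv])

lemma zz_period (t : ℝ) (n : ℤ) : zz (t + n * (2 * Real.pi)) = zz t := by
  simp [zz, Real.cos_add_int_mul_two_pi, Real.sin_add_int_mul_two_pi]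

lemma conj_om : conj om = 1 - om := by
  apply Complex.ext <;> simp [om]; norm_num

/-- A sector lies on one side of a circle through its apex which is not tangent to it. -/
lemma sec_side {x u v : ℂ} (hu : ‖u‖ = 1) (hv : ‖v‖ = 1) (hc : (conj u * v).re ≠ 0) :
    ∃ δ > 0, ∀ z ∈ Sec x v δ, (dist z (x + u) - 1) * (conj u * v).re < 0 := by
  set c := (conj u * v).re with hcd
  have hc' : 0 < |c| := abs_pos.2 hc
  refine ⟨min (|c| / 4) 1, lt_min (by positivity) one_pos, fun z hz => ?_⟩
  set δ := min (|c| / 4) 1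
  have hδc : δ ≤ |c| / 4 := min_le_left _ _
  have hδ1 : δ ≤ 1 := min_le_right _ _
  have hδ0 : 0 < δ := lt_min (by positivity) one_pos
  set d := z - x with hd
  set r := (conj v * d).re with hr
  set m := (conj v * d).im with hm
  have hmr : |m| < δ * r := hz.2
  have hr0 : 0 < r := by
    by_contra h
    push Not at h
    nlinarith [abs_nonneg m]
  have hn : ‖conj v * d‖ = ‖d‖ := by simp [hv]
  have hdd : ‖d‖ < δ := by rw [hd, ← dist_eq_norm]; exact hz.1
  have hdr : ‖d‖ ≤ 2 * r := by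
    rw [← hn]
    refine (Complex.norm_le_abs_re_add_abs_im _).trans ?_
    rw [← hr, ← hm, abs_of_pos hr0]
    nlinarith
  have hq : (conj u * v).im ^ 2 ≤ 1 := by
    have : ‖conj u * v‖ ^ 2 = 1 := by simp [hu, hv]
    rw [Complex.sq_norm, Complex.normSq_apply] at this
    nlinarith [mul_self_nonneg (conj u * v).re]
  have hqa : |(conj u * v).im| ≤ 1 := by
    nlinarith [abs_nonneg (conj u * v).im, sq_abs (conj u * v).im]
  have e : dist z (x + u) ^ 2 = 1 + ‖d‖ ^ 2 - 2 * (c * r - (conj u * v).im * m) := by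
    have e1 := re_sq_add_im_sq hu
    have e2 := re_sq_add_im_sq hv
    rw [dist_eq_norm, show z - (x + u) = d - u by rw [hd]; ring, Complex.sq_norm, Complex.sq_norm,
      Complex.normSq_apply, Complex.normSq_apply, hcd, hr, hm]
    simp only [Complex.sub_re, Complex.sub_im, Complex.mul_re, Complex.mul_im, Complex.conj_re,
      Complex.conj_im]
    linear_combination e1 + 2 * (u.re * d.re + u.im * d.im) * e2
  have hnum : |‖d‖ ^ 2 + 2 * ((conj u * v).im * m)| < 2 * |c| * r := by
    have hb : |2 * ((conj u * v).im * m)| ≤ 2 * (δ * r) := by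
      rw [abs_mul, abs_two, abs_mul]
      nlinarith [mul_le_mul_of_nonneg_right hqa (abs_nonneg m), abs_nonneg m]
    refine (abs_add_le _ _).trans_lt ?_
    rw [abs_of_nonneg (sq_nonneg ‖d‖)]
    nlinarith [mul_le_mul hdd.le hdr (norm_nonneg d) hδ0.le, mul_pos hc' hr0,
      mul_le_mul_of_nonneg_right hδc hr0.le]
  have hn := abs_lt.1 hnum
  have h0 : (0 : ℝ) ≤ dist z (x + u) := dist_nonneg
  rcases lt_or_gt_of_ne hc with h | h
  · rw [abs_of_neg h] at hn
    refine mul_neg_of_pos_of_neg ?_ h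
    nlinarith
  · rw [abs_of_pos h] at hn
    refine mul_neg_of_neg_of_pos ?_ h
    nlinarith

variable (E : Fin 5 → Set ℂ) (hE : ∀ i, IsOpen (E i))
  (hB : ∀ i, ∀ y ∈ E i, ∀ z ∈ E i, dist y z ≠ 1)
  (hR : ∀ i, interior (closure (E i)) = E i)
  (hcl : ∀ x, ∃ i, x ∈ closure (E i))
  (hd : ∀ i j, i ≠ j → Disjoint (E i) (E j))

include hE hB in
/-- Half an arc through a point of the circle in one closure keeps it off one side of the circle
around that point. -/
lemma sweep_side {x u ω : ℂ} (hu : ‖u‖ = 1) (hω : ω.re = 1 / 2) (hω1 : ‖ω‖ = 1) {i : Fin 5}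
    {ε : ℝ} (hε : 0 < ε)
    (h : ∀ y ∈ sphere (x + ω * u) 1 ∩ ball (x + u) ε,
      0 < (conj (conj ω * u) * (y - ω * u - x)).im → y ∈ closure (E i)) :
    ∃ η > 0, ∀ z ∈ ball x η, (dist z (x + u) - 1) * ω.im < 0 → z ∉ closure (E i) := by
  have hω2 : ω.im * ω.im = 3 / 4 := by
    have := re_sq_add_im_sq hω1
    rw [hω] at this
    linarith
  have hωi : ω.im ≠ 0 := fun e => by rw [e] at hω2; norm_num at hω2
  set w' := x + ω * u with hw'
  have hsum : ω + conj ω = 1 := by
    apply Complex.ext <;> simp [hω]; norm_num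
  let y : ℝ → ℂ := fun s => w' + conj ω * zz s * u
  have hy : Continuous y := continuous_const.add ((continuous_const.mul zz_cont).mul continuous_const)
  have hy0 : y 0 = x + u := by
    simp only [y, hw', zz_zero, mul_one]; linear_combination u * hsum
  have hys : ∀ s, y s ∈ sphere w' 1 := fun s => by simp [y, norm_zz, hu, hω1]
  have hnco : IsOpen {zy : ℂ × ℂ | (conj (zy.2 - w') * (zy.1 - w')).im ≠ 0} :=
    isOpen_ne_fun (by fun_prop) continuous_const
  have hnc0 : (conj (x + u - w') * (x - w')).im ≠ 0 := by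
    rw [hw', show x + u - (x + ω * u) = (1 - ω) * u by ring,
      show x - (x + ω * u) = -(ω * u) by ring, map_mul,
      show conj (1 - ω) * conj u * -(ω * u) = -(conj (1 - ω) * ω * (u * conj u)) by ring,
      Complex.mul_conj, Complex.normSq_eq_norm_sq, hu]
    simp [hω]
    intro h
    exact hωi (by linarith)
  obtain ⟨δ₁, hδ₁, hnc⟩ := Metric.isOpen_iff.1 hnco (x, x + u) hnc0
  obtain ⟨δ₂, hδ₂, hball⟩ := Metric.continuousAt_iff.1 (hy.continuousAt (x := (0 : ℝ))) (min ε δ₁)
    (lt_min hε hδ₁)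
  set τ := min (δ₂ / 2) (1 / 2) with hτd
  have hτ : 0 < τ := lt_min (half_pos hδ₂) (by norm_num)
  have hτ1 : τ ≤ 1 / 2 := min_le_right _ _
  have hs2 : τ / 2 ≤ Real.sin τ := by
    nlinarith [Real.sin_gt_sub_cube hτ, pow_le_one₀ (n := 2) hτ.le (hτ1.trans (by norm_num))]
  have hc2 : 1 - Real.cos τ ≤ τ ^ 2 / 2 := by linarith [Real.one_sub_sq_div_two_le_cos (x := τ)]
  have eτ : dist x (y τ) ^ 2 = 1 + (1 - Real.cos τ) + 2 * ω.im * Real.sin τ := by
    rw [dist_comm, dist_eq_norm, show y τ - x = (ω + conj ω * zz τ) * u by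
      simp only [y, hw']; ring, norm_mul, hu, mul_one, Complex.sq_norm, Complex.normSq_apply]
    have := Real.sin_sq_add_cos_sq τ
    simp only [zz, Complex.add_re, Complex.add_im, Complex.mul_re, Complex.mul_im, Complex.conj_re,
      Complex.conj_im, hω]
    linear_combination (1 / 4 + ω.im * ω.im) * this + (2 - 2 * Real.cos τ) * hω2
  have hbig : 1 - Real.cos τ < |2 * ω.im * Real.sin τ| := by
    rw [abs_mul, abs_mul, abs_two, abs_of_nonneg (by linarith : 0 ≤ Real.sin τ)]
    have : 1 / 2 ≤ |ω.im| := by nlinarith [abs_nonneg ω.im, abs_mul_abs_self ω.im]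
    nlinarith
  have hsign : 0 < (dist x (y τ) - 1) * ω.im := by
    have hh : (0 : ℝ) ≤ dist x (y τ) := dist_nonneg
    rcases lt_or_gt_of_ne hωi with hlt | hgt
    · rw [abs_of_nonpos (by nlinarith)] at hbig
      exact mul_pos_of_neg_of_neg (by nlinarith) hlt
    · exact mul_pos (by nlinarith [Real.cos_le_one τ]) hgt
  obtain ⟨η, hη, hηs⟩ := Metric.isOpen_iff.1
    (isOpen_lt continuous_const (((continuous_id.dist continuous_const).sub continuous_const).mul
      continuous_const) : IsOpen {z | 0 < (dist z (y τ) - 1) * ω.im}) x hsign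
  refine ⟨min η δ₁, lt_min hη hδ₁, fun z hz hside => ?_⟩
  have hzτ : 0 < (dist z (y τ) - 1) * ω.im := hηs (ball_subset_ball (min_le_left _ _) hz)
  have hmem : (1 : ℝ) ∈ uIcc (dist z (y 0)) (dist z (y τ)) := by
    rw [hy0, mem_uIcc]
    rcases lt_or_gt_of_ne hωi with hlt | hgt
    · exact Or.inr ⟨le_of_not_gt fun h' => by nlinarith, le_of_not_gt fun h' => by nlinarith⟩
    · exact Or.inl ⟨le_of_not_gt fun h' => by nlinarith, le_of_not_gt fun h' => by nlinarith⟩
  obtain ⟨s, hs, hsd⟩ := intermediate_value_uIcc (f := fun s => dist z (y s))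
    (continuous_const.dist hy).continuousOn hmem
  rw [uIcc_of_le hτ.le] at hs
  have hs0 : 0 < s := by
    rcases hs.1.eq_or_lt with h' | h'
    · subst h'
      simp only [hy0] at hsd
      rw [hsd] at hside
      simp at hside
    · exact h'
  have hτδ : τ ≤ δ₂ / 2 := min_le_left _ _
  have hyb := hball (x := s) (by rw [Real.dist_eq, sub_zero, abs_of_pos hs0]; linarith [hs.2])
  rw [hy0, lt_min_iff] at hyb
  have hside' : 0 < (conj (conj ω * u) * (y s - ω * u - x)).im := by
    rw [show conj (conj ω * u) * (y s - ω * u - x) = zz s * ((ω * conj ω) * (u * conj u)) by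
      simp only [y, hw', map_mul, Complex.conj_conj]; ring, Complex.mul_conj, Complex.mul_conj,
      Complex.normSq_eq_norm_sq, Complex.normSq_eq_norm_sq, hω1, hu]
    have : 0 < Real.sin s := Real.sin_pos_of_pos_of_lt_pi hs0 (by linarith [Real.two_le_pi, hs.2])
    simpa [zz] using this
  obtain ⟨ρ, hρ, hρs⟩ := Metric.isOpen_iff.1 (isOpen_ball.inter (isOpen_lt continuous_const
    (Complex.continuous_im.comp (continuous_const.mul
      ((continuous_id.sub continuous_const).sub continuous_const))) :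
      IsOpen {y' : ℂ | 0 < (conj (conj ω * u) * (y' - ω * u - x)).im})) (y s)
    ⟨mem_ball.2 hyb.1, hside'⟩
  refine arc_sweep E hE hB (hys s) hρ (fun y' hy' => h y' ⟨hy'.1, (hρs hy'.2).1⟩ (hρs hy'.2).2)
    (by rw [dist_comm]; exact hsd) (hnc (show (z, y s) ∈ ball (x, x + u) δ₁ from ?_))
  rw [mem_ball, Prod.dist_eq, max_lt_iff]
  exact ⟨mem_ball.1 (ball_subset_ball (min_le_right _ _) hz), hyb.2⟩

include hE hB hR hcl in
/-- Beside a point of four possible colours, an arc in two of them and an endpoint of the third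
keep the last one off one side. -/
lemma half {x u ω : ℂ} (hu : ‖u‖ = 1) (hω : ω.re = 1 / 2) (hω1 : ‖ω‖ = 1) {p q r s : Fin 5}
    (hw : ∀ i, x + u ∈ closure (E i) → i = p ∨ i = q ∨ i = r ∨ i = s)
    (hw' : x + ω * u ∈ closure (E r)) {ε : ℝ} (hε : 0 < ε)
    (hside : ∀ t ∈ sphere x 1 ∩ ball (x + conj ω * u) ε,
      0 < (conj (conj ω * u) * (t - x)).im → t ∈ closure (E p) ∧ t ∈ closure (E q)) :
    ∃ η > 0, ∀ z ∈ ball x η, (dist z (x + u) - 1) * ω.im < 0 → z ∉ closure (E s) := by
  obtain ⟨ρ, hρ, hloc⟩ := local_colours E (x + u)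
  refine sweep_side E hE hB hu hω hω1 (lt_min (lt_min hρ (by norm_num : (0 : ℝ) < 1 / 4)) hε)
    fun y ⟨hys, hyb⟩ him => ?_
  rw [mem_ball, lt_min_iff, lt_min_iff] at hyb
  obtain ⟨⟨hyρ, hclose⟩, hyε⟩ := hyb
  set t := y - ω * u with ht
  have hts : t ∈ sphere x 1 := by
    rw [mem_sphere, dist_eq_norm, ht, show y - ω * u - x = y - (x + ω * u) by ring, ← dist_eq_norm]
    exact mem_sphere.1 hys
  have hsum : ω + conj ω = 1 := by
    apply Complex.ext <;> simp [hω]; norm_num
  have hyt : dist t y = 1 := by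
    rw [dist_eq_norm, ht, sub_sub_cancel_left, norm_neg, norm_mul, hω1, hu, one_mul]
  have htb : t ∈ ball (x + conj ω * u) ε := by
    rw [mem_ball, dist_eq_norm, show t - (x + conj ω * u) = y - (x + u) by
      rw [ht]; linear_combination -u * hsum, ← dist_eq_norm]
    exact hyε
  obtain ⟨ρ', hρ', hρs⟩ := Metric.isOpen_iff.1 (isOpen_ball.inter (isOpen_lt continuous_const
    (Complex.continuous_im.comp (continuous_const.mul (continuous_id.sub continuous_const))) :
      IsOpen {t' : ℂ | 0 < (conj (conj ω * u) * (t' - x)).im})) t ⟨htb, him⟩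
  have hnot : ∀ i, i = p ∨ i = q → ∀ ρ₁ > 0, ∀ y', dist t y' = 1 →
      (conj (t - x) * (y' - x)).im ≠ 0 → ρ₁ ≤ ρ' → y' ∉ closure (E i) := by
    intro i hi ρ₁ hρ₁ y' h1 h2 hle
    refine arc_sweep E hE hB hts hρ₁ (fun t' ht' => ?_) h1 h2
    have := hρs (ball_subset_ball hle ht'.2)
    have := hside t' ⟨ht'.1, this.1⟩ this.2
    rcases hi with rfl | rfl
    exacts [this.1, this.2]
  -- the translate is off the line through the centre
  have hnc : (conj (t - x) * (y - x)).im ≠ 0 := by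
    intro hz
    rw [show y - x = (t - x) + ω * u by rw [ht]; ring] at hz
    have e1 : (t - x).re * (t - x).re + (t - x).im * (t - x).im = 1 :=
      re_sq_add_im_sq (by rw [← dist_eq_norm]; exact mem_sphere.1 hts)
    have hP : 0 < (conj (conj ω * u) * (t - x)).im := him
    have hn1 : ‖conj (t - x) * (ω * u)‖ = 1 := by
      rw [norm_mul, RCLike.norm_conj, norm_mul, hω1, hu, mul_one, mul_one, ← dist_eq_norm]
      exact mem_sphere.1 hts
    have hz' : (conj (t - x) * (ω * u)).im = 0 := by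
      simp only [Complex.mul_im, Complex.add_re, Complex.add_im, Complex.conj_re, Complex.conj_im]
        at hz ⊢
      linarith
    -- then the translate is the centre or two steps away from it
    have hre := Complex.abs_re_eq_norm.2 hz'
    rw [hn1] at hre
    have hyx : dist y x ^ 2 = 2 + 2 * (conj (t - x) * (ω * u)).re := by
      have e2 : (ω * u).re * (ω * u).re + (ω * u).im * (ω * u).im = 1 :=
        re_sq_add_im_sq (by rw [norm_mul, hω1, hu, one_mul])
      rw [dist_eq_norm, show y - x = (t - x) + ω * u by rw [ht]; ring, Complex.sq_norm,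
        Complex.normSq_apply]
      simp only [Complex.add_re, Complex.add_im, Complex.mul_re, Complex.conj_re,
        Complex.conj_im] at e1 e2 ⊢
      linear_combination e1 + e2
    have hlo : (1 : ℝ) - dist y (x + u) ≤ dist y x := by
      have : dist x (x + u) = 1 := by simp [hu]
      linarith [dist_triangle_left x (x + u) y, dist_comm y (x + u)]
    have hhi : dist y x ≤ 1 + dist y (x + u) := by
      have : dist (x + u) x = 1 := by simp [hu]
      linarith [dist_triangle y (x + u) x]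
    have hsmall : dist y (x + u) < 1 / 4 := hclose
    rcases abs_eq zero_le_one |>.1 hre with h' | h' <;> rw [h'] at hyx <;>
      nlinarith [dist_nonneg (x := y) (y := x)]
  have hyp : y ∉ closure (E p) := hnot p (Or.inl rfl) ρ' hρ' y hyt hnc le_rfl
  have hyq : y ∉ closure (E q) := hnot q (Or.inr rfl) ρ' hρ' y hyt hnc le_rfl
  by_contra hys'
  have hyE : y ∈ E r := single E hR hcl fun j hj => by
    rcases hw j (hloc y (mem_ball.2 hyρ) j hj) with rfl | rfl | rfl | rfl
    exacts [absurd hj hyp, absurd hj hyq, rfl, absurd hj hys']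
  exact not_closure E hE hB hyE (mem_sphere.1 hys) hw'

variable {x : ℂ} {a b c d e : Fin 5}

include hE hB hR hcl in
/-- Beside a point of the other pair, an arc in `a` and `d` forces `c` off one side. -/
lemma strip (h4 : Four E x a b c d e) {u ω : ℂ} (hu : ‖u‖ = 1) (hω : ω.re = 1 / 2)
    (hω1 : ‖ω‖ = 1) (hwb : x + u ∉ closure (E b)) (hwe : x + ω * u ∈ closure (E e)) {ε : ℝ}
    (hε : 0 < ε)
    (hside : ∀ t ∈ sphere x 1 ∩ ball (x + conj ω * u) ε,
      0 < (conj (conj ω * u) * (t - x)).im → t ∈ closure (E a) ∧ t ∈ closure (E d)) :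
    ∃ η > 0, ∀ z ∈ ball x η, (dist z (x + u) - 1) * ω.im < 0 → z ∉ closure (E c) :=
  half E hE hB hR hcl hu hω hω1 (fun i hi => by
    rcases h4.hall i with h | h | h | h | h
    exacts [Or.inl h, absurd (h ▸ hi) hwb, Or.inr (Or.inr (Or.inr h)), Or.inr (Or.inl h),
      Or.inr (Or.inr (Or.inl h))]) hwe hε hside

omit E in
lemma om_add_six (n : ℕ) : om ^ (n + 6) = om ^ n := by
  rw [pow_add, show (6 : ℕ) = 3 + 3 from rfl, pow_add, om_cube]; ring

omit E in
lemma om_mod (n : ℕ) : om ^ n = om ^ (n % 6) := by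
  conv_lhs => rw [← Nat.mod_add_div n 6]
  rw [pow_add, pow_mul, show om ^ 6 = 1 by simpa using om_add_six 0]
  simp

omit E in
lemma conj_om_pow (n : ℕ) : conj (om ^ n) = om ^ (5 * n) := by
  rw [map_pow, pow_mul]
  congr 1
  rw [conj_om, show (5 : ℕ) = 3 + 2 from rfl, pow_add, om_cube, sq, om_sq]; ring

/-- The part of the circle just after a point. -/
def Slot (x u : ℂ) (ε : ℝ) : Set ℂ :=
  {t | t ∈ sphere x 1 ∩ ball (x + u) ε ∧ 0 < (conj u * (t - x)).im}

omit E in
lemma slot_nonempty {x u : ℂ} (hu : ‖u‖ = 1) {ε : ℝ} (hε : 0 < ε) : (Slot x u ε).Nonempty := by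
  have hc : Continuous fun s => x + u * zz s := continuous_const.add (continuous_const.mul zz_cont)
  obtain ⟨δ, hδ, hb⟩ := Metric.continuousAt_iff.1 (hc.continuousAt (x := (0 : ℝ))) ε hε
  set s := min (δ / 2) 1
  have hs : 0 < s := lt_min (half_pos hδ) one_pos
  refine ⟨x + u * zz s, ⟨by simp [norm_zz, hu], ?_⟩, ?_⟩
  · have := hb (x := s) (by
      rw [Real.dist_eq, sub_zero, abs_of_pos hs]; linarith [min_le_left (δ / 2) (1 : ℝ)])
    simpa [zz_zero] using this
  · rw [add_sub_cancel_left, ← mul_assoc, mul_comm (conj u) u, Complex.mul_conj,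
      Complex.normSq_eq_norm_sq, hu]
    have : 0 < Real.sin s := Real.sin_pos_of_pos_of_lt_pi hs
      (by linarith [Real.two_le_pi, min_le_right (δ / 2) (1 : ℝ)])
    simpa [zz] using this

omit E in
lemma slot_near {x u : ℂ} (hu : ‖u‖ = 1) {ε : ℝ} (hε : ε ≤ 1 / 4) {t : ℂ} (ht : t ∈ Slot x u ε) :
    3 / 4 ≤ (conj u * (t - x)).re ∧ 0 < (conj u * (t - x)).im ∧
      (conj u * (t - x)).im ≤ 1 / 4 := by
  set v := conj u * (t - x)
  have h1 : ‖v - 1‖ < 1 / 4 := by
    have hc : conj u * u = 1 := by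
      rw [mul_comm, Complex.mul_conj, Complex.normSq_eq_norm_sq, hu]; simp
    have : v - 1 = conj u * (t - (x + u)) := by
      simp only [v]; linear_combination hc
    rw [this, norm_mul, RCLike.norm_conj, hu, one_mul, ← dist_eq_norm]
    exact (mem_ball.1 ht.1.2).trans_le hε
  have a1 := (Complex.abs_re_le_norm (v - 1)).trans_lt h1
  have a2 := (Complex.abs_im_le_norm (v - 1)).trans_lt h1
  simp only [Complex.sub_re, Complex.sub_im, Complex.one_re, Complex.one_im, sub_zero] at a1 a2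
  exact ⟨by linarith [(abs_lt.1 a1).1], ht.2, by linarith [(abs_lt.1 a2).2]⟩

include hE hB hR hcl in
/-- A two-coloured arc whose perpendicular sectors avoid a third colour makes the fourth absent. -/
lemma kill (h4 : Four E x a b c d e) {p q i : Fin 5} (hi : ∀ j, x ∈ closure (E j) →
      j = p ∨ j = q ∨ j = c ∨ j = i) {v : ℂ} (hv : ‖v‖ = 1) {ε : ℝ} (hε : 0 < ε)
    (hp : sphere x 1 ∩ ball (x + v) ε ⊆ closure (E p))
    (hq : sphere x 1 ∩ ball (x + v) ε ⊆ closure (E q))
    {δ : ℝ} (hδ : 0 < δ) (hc : ∀ z, z ∈ Sec x (I * v) δ ∨ z ∈ Sec x (-(I * v)) δ →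
      z ∉ closure (E c)) : False := by
  obtain ⟨δ₁, hδ₁, hsp⟩ := sec_avoid E hE hB hv hε hp
  obtain ⟨δ₂, hδ₂, hsq⟩ := sec_avoid E hE hB hv hε hq
  obtain ⟨ρ, hρ, hloc⟩ := local_colours E x
  set δ' := min (min δ δ₁) (min δ₂ ρ)
  have hδ' : 0 < δ' := lt_min (lt_min hδ hδ₁) (lt_min hδ₂ hρ)
  have hsub : ∀ w, (w = I * v ∨ w = -(I * v)) → Sec x w δ' ⊆ E i := by
    intro w hw
    refine hR i ▸ interior_maximal (fun z hz => ?_) (isOpen_sec _ _ _)
    obtain ⟨j, hj⟩ := hcl z
    have hzx := hloc z (mem_ball.2 (hz.1.trans_le ((min_le_right _ _).trans (min_le_right _ _)))) j hj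
    rcases hi j hzx with rfl | rfl | rfl | rfl
    · exact absurd hj (hsp w hw z (sec_mono ((min_le_left _ _).trans (min_le_right _ _)) hz))
    · exact absurd hj (hsq w hw z (sec_mono ((min_le_right _ _).trans (min_le_left _ _)) hz))
    · refine absurd hj (hc z ?_)
      have := sec_mono ((min_le_left _ _).trans (min_le_left _ _)) hz
      rcases hw with rfl | rfl
      exacts [Or.inl this, Or.inr this]
    · exact hj
  obtain ⟨y, hy, hyi⟩ := h4.meets i
  exact absent E hE hB hδ' (hsub _ (Or.inl rfl)) (hsub _ (Or.inr rfl)) (by simp [hv])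
    (by rw [← dist_eq_norm]; exact mem_sphere.1 hy) hyi

include hE in
lemma not_thin {x w : ℂ} {i : Fin 5} {η : ℝ} (hη : 0 < η) (hxi : x ∈ closure (E i))
    (h : ∀ z ∈ ball x η, dist z w ≠ 1 → z ∉ closure (E i)) : False := by
  obtain ⟨z, hz, hzE⟩ := mem_closure_iff.1 hxi _ isOpen_ball (mem_ball_self hη)
  have hz1 : dist z w = 1 := by_contra fun hne => h z hz hne (subset_closure hzE)
  obtain ⟨r, hr, hsub⟩ := Metric.isOpen_iff.1 (isOpen_ball.inter (hE i)) z ⟨hz, hzE⟩
  have hmem : z + ((r / 2 : ℝ) : ℂ) * (z - w) ∈ ball z r := by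
    rw [mem_ball, dist_eq_norm, add_sub_cancel_left, norm_mul, Complex.norm_real, ← dist_eq_norm,
      hz1, mul_one, Real.norm_eq_abs, abs_of_pos (half_pos hr)]
    linarith
  refine h _ (hsub hmem).1 ?_ (subset_closure (hsub hmem).2)
  rw [dist_eq_norm, show z + ((r / 2 : ℝ) : ℂ) * (z - w) - w = ((1 + r / 2 : ℝ) : ℂ) * (z - w) by
    push_cast; ring, norm_mul, Complex.norm_real, ← dist_eq_norm, hz1, mul_one, Real.norm_eq_abs,
    abs_of_pos (by linarith)]
  linarith

/-- The index `m` steps after an even one. -/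
def ix (j : Fin 3) (m : ℕ) : Fin 6 := ⟨(2 * j.val + m) % 6, Nat.mod_lt _ (by norm_num)⟩

omit E in
lemma few_b : ∀ f : Fin 6 → Bool, (∀ i j k : Fin 6, i < j → j < k → ¬ (f i = true ∧ f j = true ∧
      f k = true)) → ∃ j : Fin 3,
    (f (ix j 0) = false ∧ f (ix j 1) = false ∧ f (ix j 2) = false) ∨
    (f (ix j 1) = false ∧ f (ix j 2) = false ∧ f (ix j 4) = false ∧ f (ix j 5) = false) ∨
    (f (ix j 1) = false ∧ f (ix j 2) = false ∧ f (ix j 3) = false) := by
  decide +kernel

include hE hB hR hcl hd in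
/-- Four classes at a point cannot have all arcs outside the fifth colour in `a` with `b` or `d`. -/
theorem alpha (h4 : Four E x a b c d e)
    (hA : ∀ p ∈ sphere x 1, p ∉ closure (E e) →
      p ∈ closure (E a) ∧ (p ∈ closure (E b) ∨ p ∈ closure (E d))) : False := by
  have hcov : ∀ p ∈ sphere x 1, p ∉ closure (E a) → p ∈ closure (E e) := fun p hp h =>
    by_contra fun he => h (hA p hp he).1
  -- the start of a stretch free of the fifth colour
  obtain ⟨p₁, hp₁, hp₁e⟩ : ∃ p ∈ sphere x 1, p ∉ closure (E e) := by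
    by_contra hn
    push Not at hn
    exact not_one E hE hB hn
  let T : ℝ → ℂ := fun t => x + zz t
  have hT : Continuous T := continuous_const.add zz_cont
  have hTs : ∀ t, T t ∈ sphere x 1 := fun t => by simp [T, norm_zz]
  have hTsurj : ∀ p ∈ sphere x 1, ∀ m : ℤ, T ((p - x).arg + m * (2 * Real.pi)) = p := fun p hp m => by
    simp only [T, zz_period, ← exists_zz (show ‖p - x‖ = 1 by
      rw [← dist_eq_norm]; exact mem_sphere.1 hp), add_sub_cancel]
  obtain ⟨t₁, ht₁⟩ : ∃ t₁, T t₁ = p₁ := ⟨_, hTsurj p₁ hp₁ 0⟩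
  set Z := {t | t ≤ t₁ ∧ T t ∈ closure (E e)} with hZ
  have hZne : Z.Nonempty := by
    obtain ⟨g, hg, hge⟩ := h4.meets e
    obtain ⟨m, hm⟩ := exists_int_lt ((t₁ - (g - x).arg) / (2 * Real.pi))
    refine ⟨(g - x).arg + m * (2 * Real.pi), ?_, by rwa [hTsurj g hg]⟩
    have := (lt_div_iff₀ Real.two_pi_pos).1 hm
    linarith
  have hZb : BddAbove Z := ⟨t₁, fun t ht => ht.1⟩
  have hZc : IsClosed Z := (isClosed_Iic).inter (isClosed_closure.preimage hT)
  obtain ⟨ht₀le, ht₀e⟩ := hZc.csSup_mem hZne hZb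
  set t₀ := sSup Z
  have ht₀lt : t₀ < t₁ := lt_of_le_of_ne ht₀le fun h => hp₁e (ht₁ ▸ h ▸ ht₀e)
  set u := zz t₀ with hu'
  have hu : ‖u‖ = 1 := norm_zz _
  have hwn : ∀ k : ℕ, ‖om ^ k * u‖ = 1 := fun k => by simp [norm_om, hu]
  have hws : ∀ k : ℕ, x + om ^ k * u ∈ sphere x 1 := fun k => by simp [norm_om, hu]
  obtain ⟨ε₀, hε₀, hε₀s, hε₀4⟩ : ∃ ε₀ > 0, (∀ p ∈ Slot x u ε₀, p ∉ closure (E e)) ∧ ε₀ ≤ 1 / 4 := by
    set L := min (t₁ - t₀) 1
    have hL : 0 < L := lt_min (sub_pos.2 ht₀lt) one_pos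
    have hc : ContinuousAt Complex.arg 1 := Complex.continuousAt_arg (by simp)
    obtain ⟨δ, hδ, hb⟩ := Metric.continuousAt_iff.1 hc L hL
    refine ⟨min δ (1 / 4), lt_min hδ (by norm_num), fun p hp hpe => ?_, min_le_right _ _⟩
    set v := conj u * (p - x) with hv
    have hv1 : ‖v‖ = 1 := by
      rw [hv, norm_mul, RCLike.norm_conj, hu, one_mul, ← dist_eq_norm]; exact mem_sphere.1 hp.1.1
    have hcu : conj u * u = 1 := by
      rw [mul_comm, Complex.mul_conj, Complex.normSq_eq_norm_sq, hu]; simp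
    have harg : |v.arg| < L := by
      have := hb (x := v) (by
        rw [dist_eq_norm, show v - 1 = conj u * (p - (x + u)) by rw [hv]; linear_combination hcu,
          norm_mul, RCLike.norm_conj, hu, one_mul, ← dist_eq_norm]
        exact (mem_ball.1 hp.1.2).trans_le (min_le_left _ _))
      rwa [Complex.arg_one, Real.dist_eq, sub_zero] at this
    have hpos : 0 < v.arg := by
      rcases lt_trichotomy v.arg 0 with h | h | h
      · exact absurd (Complex.arg_neg_iff.1 h) (not_lt.2 hp.2.le)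
      · exact absurd (Complex.arg_eq_zero_iff.1 h).2 hp.2.ne'
      · exact h
    have hpT : T (t₀ + v.arg) = p := by
      simp only [T, zz_add, ← exists_zz hv1, ← hu']
      rw [hv, ← mul_assoc, mul_comm u, hcu, one_mul, add_sub_cancel]
    have hle : t₀ + v.arg ≤ t₁ := by linarith [(abs_lt.1 harg).2, min_le_left (t₁ - t₀) 1]
    linarith [le_csSup hZb (show t₀ + v.arg ∈ Z from ⟨hle, hpT.symm ▸ hpe⟩)]
  have hw0e : x + u ∈ closure (E e) := ht₀e
  -- the flip along the six rotations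
  have step : ∀ p ∈ sphere x 1,
      (p ∉ closure (E e) → x + om * (p - x) ∉ closure (E a)) ∧
      (p ∉ closure (E a) → x + om * (p - x) ∉ closure (E e)) := by
    intro p hp
    obtain ⟨hr, h1, h2⟩ := rot_facts x p hp
    constructor <;> intro h <;>
      obtain ⟨ρ, hρ, hρs⟩ := Metric.isOpen_iff.1 isClosed_closure.isOpen_compl p h
    · exact arc_sweep E hE hB hp hρ (fun t ht => (hA t ht.1 (hρs ht.2)).1) h1 h2
    · exact arc_sweep E hE hB hp hρ (fun t ht => hcov t ht.1 (hρs ht.2)) h1 h2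
  have prop : ∀ p ∈ sphere x 1, ∀ n : ℕ,
      (p ∉ closure (E e) → (Even n → x + om ^ n * (p - x) ∉ closure (E e)) ∧
        (Odd n → x + om ^ n * (p - x) ∉ closure (E a))) := by
    intro p hp n hpe
    induction n with
    | zero => exact ⟨fun _ => by simpa using hpe, fun h => absurd h (by simp)⟩
    | succ n ih =>
      have hs : x + om ^ n * (p - x) ∈ sphere x 1 := by
        rw [mem_sphere, dist_eq_norm] at hp ⊢
        simp [norm_om, hp]
      have e' : x + om ^ (n + 1) * (p - x) = x + om * (x + om ^ n * (p - x) - x) := by ring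
      rw [e']
      exact ⟨fun h => (step _ hs).2 (ih.2 (by grind)), fun h => (step _ hs).1 (ih.1 (by grind))⟩
  have hwae : ∀ k : ℕ, x + om ^ k * u ∈ closure (E a) ∧ x + om ^ k * u ∈ closure (E e) := by
    have slot0 : x + u ∈ closure (E a) := by
      refine isClosed_closure.closure_subset (Metric.mem_closure_iff.2 fun η hη => ?_)
      obtain ⟨p, hp⟩ := slot_nonempty (x := x) hu (lt_min hη hε₀)
      exact ⟨p, (hA p hp.1.1 (hε₀s p ⟨⟨hp.1.1, ball_subset_ball (min_le_right _ _) hp.1.2⟩,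
        hp.2⟩)).1, mem_ball'.1 (ball_subset_ball (min_le_left _ _) hp.1.2)⟩
    intro k
    have back : ∀ n m : ℕ, (n + m) % 6 = 0 →
        x + om ^ m * (x + om ^ n * u - x) = x + u := fun n m h => by
      rw [add_sub_cancel_left, ← mul_assoc, ← pow_add, om_mod, show (m + n) % 6 = 0 by omega]
      simp
    constructor <;> by_contra h
    · rcases Nat.even_or_odd k with hk | hk
      · have := (step _ (hws k)).2 h
        have h' := ((prop _ (rot_facts x _ (hws k)).1 (5 * k + 5)) this).2 (by grind)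
        rw [show x + om ^ (5 * k + 5) * (x + om * (x + om ^ k * u - x) - x) = x + u by
          simp only [add_sub_cancel_left]
          rw [← mul_assoc, ← mul_assoc, ← pow_succ, ← pow_add, om_mod,
            show (5 * k + 5 + 1 + k) % 6 = 0 by omega]
          simp] at h'
        exact h' slot0
      · have := (step _ (hws k)).2 h
        have h' := ((prop _ (rot_facts x _ (hws k)).1 (5 * k + 5)) this).1 (by grind)
        rw [show x + om ^ (5 * k + 5) * (x + om * (x + om ^ k * u - x) - x) = x + u by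
          simp only [add_sub_cancel_left]
          rw [← mul_assoc, ← mul_assoc, ← pow_succ, ← pow_add, om_mod,
            show (5 * k + 5 + 1 + k) % 6 = 0 by omega]
          simp] at h'
        exact h' hw0e
    · have h' := prop _ (hws k) (5 * k) h
      have e0 := back k (5 * k) (by omega)
      rw [e0] at h'
      rcases Nat.even_or_odd k with hk | hk
      · exact h'.1 (by grind) hw0e
      · exact h'.2 (by grind) slot0
  have hslot : ∀ k : ℕ, Even k → ∀ t ∈ Slot x (om ^ k * u) ε₀, t ∉ closure (E e) := by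
    intro k hk t ht
    have hc : conj (om ^ k * u) = om ^ (5 * k) * conj u := by rw [map_mul, conj_om_pow]
    set p := x + om ^ (5 * k) * (t - x) with hp
    have hk1 : om ^ (5 * k) * om ^ k = 1 := by
      rw [← pow_add, om_mod, show (5 * k + k) % 6 = 0 by omega, pow_zero]
    have hps : p ∈ Slot x u ε₀ := by
      refine ⟨⟨?_, ?_⟩, ?_⟩
      · have := mem_sphere.1 ht.1.1
        rw [dist_eq_norm] at this
        rw [mem_sphere, dist_eq_norm]
        simp [hp, norm_om, this]
      · rw [mem_ball, show x + u = x + om ^ (5 * k) * (x + om ^ k * u - x) by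
          rw [add_sub_cancel_left, ← mul_assoc, hk1, one_mul], hp, rot_dist]
        exact mem_ball.1 ht.1.2
      · have := ht.2
        rw [hc] at this
        rwa [hp, add_sub_cancel_left, ← mul_assoc, mul_comm (conj u)]
    have := ((prop p hps.1.1 k) (hε₀s p hps)).1 hk
    rwa [hp, add_sub_cancel_left, ← mul_assoc, mul_comm (om ^ k), hk1, one_mul,
      add_sub_cancel] at this
  -- at most two corners meet b
  have hWW : ∀ k : ℕ, dist (x + om ^ (k + 1) * u) (x + om ^ k * u) = 1 := fun k => by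
    rw [dist_eq_norm, show x + om ^ (k + 1) * u - (x + om ^ k * u) = (om - 1) * (om ^ k * u) by ring,
      norm_mul, norm_om_sub_one, hwn, one_mul]
  have hcovae : sphere x 1 ⊆ closure (E a) ∪ closure (E e) := fun p hp =>
    (em (p ∈ closure (E a))).imp id (hcov p hp)
  have kind : ∀ k : ℕ, ∃ m : Bool, x + om ^ (k + 1) * u ∈ closure (E b) → ∃ ε > 0,
      sphere (x + om ^ k * u) 1 ∩ ball (x + om ^ (k + 1) * u) ε ⊆
        closure (E b) ∪ closure (E (if m then c else d)) := by
    intro k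
    obtain ⟨ρ, hρ, hother⟩ := other_colour E hE hB hR hcl (hwn k) hcovae (hwae k).1 (hwae k).2
    rw [show om * (om ^ k * u) = om ^ (k + 1) * u by ring] at hother
    obtain ⟨ρ', hρ', hloc⟩ := local_colours E (x + om ^ (k + 1) * u)
    have build : ∀ j i : Fin 5, (∀ m, m ≠ a → m ≠ e → m = b ∨ m = i ∨ m = j) →
        x + om ^ (k + 1) * u ∉ closure (E j) → ∃ ε > 0,
        sphere (x + om ^ k * u) 1 ∩ ball (x + om ^ (k + 1) * u) ε ⊆
          closure (E b) ∪ closure (E i) := by
      intro j i hm hj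
      refine ⟨min ρ ρ', lt_min hρ hρ', fun p hp => ?_⟩
      obtain ⟨m, hma, hme, hpm⟩ := hother p ⟨hp.1, ball_subset_ball (min_le_left _ _) hp.2⟩
      rcases hm m hma hme with rfl | rfl | rfl
      · exact Or.inl hpm
      · exact Or.inr hpm
      · exact absurd (hloc p (ball_subset_ball (min_le_right _ _) hp.2) _ hpm) hj
    by_cases hwd : x + om ^ (k + 1) * u ∈ closure (E d)
    · refine ⟨false, fun hwb => build c d (fun m h1 h2 => ?_) fun hwc => ?_⟩
      · have := h4.hall m; tauto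
      have hfull : ∀ i, x + om ^ (k + 1) * u ∈ closure (E i) := fun i => by
        rcases h4.hall i with rfl | rfl | rfl | rfl | rfl
        exacts [(hwae _).1, hwb, hwc, hwd, (hwae _).2]
      obtain ⟨g, hg⟩ := five_absent E hE hB hR hcl hd _ hfull
      have hxw : x ∈ sphere (x + om ^ (k + 1) * u) 1 := by simp [norm_om, hu]
      have hww : x + om ^ k * u ∈ sphere (x + om ^ (k + 1) * u) 1 := by
        rw [mem_sphere, dist_comm]; exact hWW k
      rcases h4.hall g with rfl | rfl | rfl | rfl | rfl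
      exacts [hg _ hxw h4.ha, hg _ hxw h4.hb, hg _ hxw h4.hc, hg _ hxw h4.hd, hg _ hww (hwae k).2]
    · refine ⟨true, fun _ => build d c (fun m h1 h2 => ?_) hwd⟩
      have := h4.hall m; tauto
  choose typ htyp using kind
  have once : ∀ i j : Fin 6, i < j → x + om ^ ((i : ℕ) + 1) * u ∈ closure (E b) →
      x + om ^ ((j : ℕ) + 1) * u ∈ closure (E b) → typ i ≠ typ j := by
    intro i j hij hi hj he
    obtain ⟨ε₁, hε₁, a₁⟩ := htyp i hi
    obtain ⟨ε₂, hε₂, a₂⟩ := htyp j hj
    have hne : x + om ^ ((i : ℕ) + 1) * u ≠ x + om ^ ((j : ℕ) + 1) * u := fun h => by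
      have h0 : u ≠ 0 := fun e => by simp [e] at hu
      have h' := mul_right_cancel₀ h0 (add_left_cancel h)
      have h'' : om ^ ((i : ℕ) + 1) * om ^ ((j : ℕ) - i) = om ^ ((i : ℕ) + 1) * 1 := by
        rw [← pow_add, mul_one, h']
        congr 1
        have := Fin.lt_def.1 hij
        omega
      have hom : om ^ ((i : ℕ) + 1) ≠ 0 := pow_ne_zero _ fun e => by simpa [e] using norm_om
      have h1 : om ^ ((j : ℕ) - i) = 1 := mul_left_cancel₀ hom h''
      have hm : (j : ℕ) - i ∈ [1, 2, 3, 4, 5] := by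
        have := j.isLt; have := Fin.lt_def.1 hij; simp; omega
      have e4 : om ^ 4 = -om := by rw [pow_succ, om_cube]; ring
      have e5 : om ^ 5 = -(om - 1) := by rw [pow_succ, e4]; linear_combination -om_sq
      simp only [List.mem_cons, List.not_mem_nil, or_false] at hm
      rcases hm with e | e | e | e | e <;> rw [e] at h1
      · simpa [om] using congrArg Complex.im h1
      · rw [sq, om_sq] at h1; simpa [om] using congrArg Complex.im h1
      · rw [om_cube] at h1; norm_num at h1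
      · rw [e4] at h1; simpa [om] using congrArg Complex.im h1
      · rw [e5] at h1; simpa [om] using congrArg Complex.im h1
    rw [← he] at a₂
    refine two_centres E hE hB hne ⟨mem_sphere.1 (hws _), mem_sphere.1 (hws _), hWW _⟩
      ⟨mem_sphere.1 (hws _), mem_sphere.1 (hws _), hWW _⟩ hε₁ hε₂ a₁ a₂ ?_
    cases typ i
    · exact h4.bd
    · exact linked_symm h4.cb
  classical
  let f : Fin 6 → Bool := fun i => decide (x + om ^ ((i : ℕ) + 6) * u ∈ closure (E b))
  have hf : ∀ i j k : Fin 6, i < j → j < k → ¬ (f i = true ∧ f j = true ∧ f k = true) := by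
    intro i j k hij hjk h
    simp only [f, decide_eq_true_eq] at h
    let g : Fin 6 → Fin 6 := fun i => i - 1
    have hg : ∀ i : Fin 6, x + om ^ (((g i : Fin 6) : ℕ) + 1) * u = x + om ^ ((i : ℕ) + 6) * u := by
      intro i; fin_cases i <;> simp [g, om_add_six, om_mod 6]
    have neq : ∀ i j : Fin 6, i ≠ j → f i = true → f j = true → typ (g i) ≠ typ (g j) := by
      intro i j hne hi hj
      simp only [f, decide_eq_true_eq] at hi hj
      rcases lt_or_gt_of_ne (show g i ≠ g j from fun e => hne (sub_left_inj.1 e)) with h | h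
      · exact once _ _ h (hg i ▸ hi) (hg j ▸ hj)
      · exact (once _ _ h (hg j ▸ hj) (hg i ▸ hi)).symm
    have n1 := neq i j hij.ne (by simpa [f] using h.1) (by simpa [f] using h.2.1)
    have n2 := neq j k hjk.ne (by simpa [f] using h.2.1) (by simpa [f] using h.2.2)
    have n3 := neq i k (hij.trans hjk).ne (by simpa [f] using h.1) (by simpa [f] using h.2.2)
    revert n1 n2 n3
    cases typ (g i) <;> cases typ (g j) <;> cases typ (g k) <;> simp
  obtain ⟨J, hJ⟩ := few_b f hf
  set v := om ^ (2 * (J : ℕ)) * u with hv'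
  have hv : ‖v‖ = 1 := hwn _
  clear_value v
  have hfb : ∀ m : ℕ, f (ix J m) = false → x + om ^ m * v ∉ closure (E b) := by
    intro m hm
    simp only [f, decide_eq_false_iff_not, ix] at hm
    rw [show x + om ^ m * v = x + om ^ (m + 2 * (J : ℕ)) * u by rw [hv', ← mul_assoc, pow_add],
      om_mod]
    rwa [om_mod, show ((2 * (J : ℕ) + m) % 6 + 6) % 6 = (m + 2 * (J : ℕ)) % 6 by omega] at hm
  have sl : ∀ m : ℕ, Even m → ∀ t ∈ Slot x (om ^ m * v) ε₀,
      t ∈ closure (E a) ∧ (t ∈ closure (E b) ∨ t ∈ closure (E d)) := fun m hm t ht =>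
    hA t ht.1.1 (hslot (m + 2 * (J : ℕ)) (by grind) t (by rwa [pow_add, mul_assoc, ← hv']))
  have we : ∀ m : ℕ, x + om ^ m * v ∈ closure (E e) := fun m => by
    rw [hv', ← mul_assoc, ← pow_add]; exact (hwae _).2
  -- slots avoiding b lie in d
  have slad : ∀ m : ℕ, Even m → x + om ^ m * v ∉ closure (E b) → ∃ ε > 0, ε ≤ ε₀ ∧
      ∀ t ∈ Slot x (om ^ m * v) ε, t ∈ closure (E a) ∧ t ∈ closure (E d) := by
    intro m hm hb
    obtain ⟨ρ, hρ, hloc⟩ := local_colours E (x + om ^ m * v)
    refine ⟨min ρ ε₀, lt_min hρ hε₀, min_le_right _ _, fun t ht => ?_⟩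
    have h := sl m hm t ⟨⟨ht.1.1, ball_subset_ball (min_le_right _ _) ht.1.2⟩, ht.2⟩
    exact ⟨h.1, h.2.resolve_left fun hb' =>
      hb (hloc t (ball_subset_ball (min_le_left _ _) ht.1.2) b hb')⟩
  have hco : conj om = om ^ 5 := by simpa using conj_om_pow 1
  have hom1 : ‖conj om‖ = 1 := by rw [RCLike.norm_conj, norm_om]
  have sweep_om : ∀ k : ℕ, x + om ^ k * v ∉ closure (E b) → ∀ ε > 0,
      (∀ t ∈ Slot x (om ^ (k + 5) * v) ε, t ∈ closure (E a) ∧ t ∈ closure (E d)) →
      ∃ η > 0, ∀ z ∈ ball x η, dist z (x + om ^ k * v) < 1 → z ∉ closure (E c) := by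
    intro k hk ε hε h
    obtain ⟨η, hη, hz⟩ := strip E hE hB hR hcl h4 (u := om ^ k * v) (ω := om)
      (by simp [norm_om, hv]) (by simp [om]) norm_om hk
      (by rw [← mul_assoc, ← pow_succ']; exact we _) hε (fun t ht him => by
        rw [hco, ← mul_assoc, ← pow_add, add_comm 5 k] at ht him
        exact h t ⟨ht, him⟩)
    refine ⟨η, hη, fun z hz' hlt => hz z hz' (mul_neg_of_neg_of_pos (by linarith) ?_)⟩
    simp [om]
  have sweep_co : ∀ k : ℕ, x + om ^ k * v ∉ closure (E b) → ∀ ε > 0,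
      (∀ t ∈ Slot x (om ^ (k + 1) * v) ε, t ∈ closure (E a) ∧ t ∈ closure (E d)) →
      ∃ η > 0, ∀ z ∈ ball x η, 1 < dist z (x + om ^ k * v) → z ∉ closure (E c) := by
    intro k hk ε hε h
    obtain ⟨η, hη, hz⟩ := strip E hE hB hR hcl h4 (u := om ^ k * v) (ω := conj om)
      (by simp [norm_om, hv]) (by simp [om]) hom1 hk
      (by rw [hco, ← mul_assoc, ← pow_add]; exact we _) hε (fun t ht him => by
        rw [Complex.conj_conj, ← mul_assoc, ← pow_succ'] at ht him
        exact h t ⟨ht, him⟩)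
    refine ⟨η, hη, fun z hz' hlt => hz z hz' (mul_neg_of_pos_of_neg (by linarith) ?_)⟩
    simp [om]
  have both : x + om ^ 1 * v ∉ closure (E b) → x + om ^ 2 * v ∉ closure (E b) → ∀ ε > 0,
      (∀ t ∈ Slot x (om ^ 0 * v) ε, t ∈ closure (E a) ∧ t ∈ closure (E d)) → False := by
    intro h1 h2 ε hε h
    obtain ⟨e2, he2, -, s2⟩ := slad 2 (by decide) h2
    obtain ⟨η₁, hη₁, z₁⟩ := sweep_om 1 h1 ε hε (by rw [show om ^ (1 + 5) = om ^ 0 from om_add_six 0]; exact h)
    obtain ⟨η₂, hη₂, z₂⟩ := sweep_co 1 h1 e2 he2 s2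
    refine not_thin E hE (w := x + om ^ 1 * v) (lt_min hη₁ hη₂) h4.hc fun z hz hne => ?_
    rcases lt_or_gt_of_ne hne with h' | h'
    · exact z₁ z (ball_subset_ball (min_le_left _ _) hz) h'
    · exact z₂ z (ball_subset_ball (min_le_right _ _) hz) h'
  have finish : ∀ (p q i : Fin 5), (∀ j, x ∈ closure (E j) → j = p ∨ j = q ∨ j = c ∨ j = i) →
      ∀ t ∈ sphere x 1, ∀ ρ > 0, sphere x 1 ∩ ball t ρ ⊆ closure (E p) →
      sphere x 1 ∩ ball t ρ ⊆ closure (E q) → ∀ k₁ k₂ : ℕ, ∀ η > 0,
      (∀ z ∈ ball x η, dist z (x + om ^ k₁ * v) < 1 → z ∉ closure (E c)) →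
      (∀ z ∈ ball x η, 1 < dist z (x + om ^ k₂ * v) → z ∉ closure (E c)) →
      0 < (conj (om ^ k₁ * v) * (I * (t - x))).re →
      (conj (om ^ k₂ * v) * -(I * (t - x))).re < 0 → False := by
    intro p q i hi t ht ρ hρ hp hq k₁ k₂ η hη z₁ z₂ c₁ c₂
    have ht1 : ‖t - x‖ = 1 := by rw [← dist_eq_norm]; exact mem_sphere.1 ht
    obtain ⟨δ₁, hδ₁, s₁⟩ := sec_side (x := x) (u := om ^ k₁ * v) (v := I * (t - x))
      (by simp [norm_om, hv]) (by simp [ht1]) c₁.ne'
    obtain ⟨δ₂, hδ₂, s₂⟩ := sec_side (x := x) (u := om ^ k₂ * v) (v := -(I * (t - x)))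
      (by simp [norm_om, hv]) (by simp [ht1]) c₂.ne
    set δ := min η (min δ₁ δ₂)
    refine kill E hE hB hR hcl h4 hi ht1 hρ (by rwa [add_sub_cancel]) (by rwa [add_sub_cancel])
      (lt_min hη (lt_min hδ₁ hδ₂)) fun z hz => ?_
    rcases hz with hz | hz
    · refine z₁ z (mem_ball.2 (hz.1.trans_le (min_le_left _ _))) ?_
      have := s₁ z (sec_mono ((min_le_right _ _).trans (min_le_left _ _)) hz)
      by_contra hh
      push Not at hh
      nlinarith
    · refine z₂ z (mem_ball.2 (hz.1.trans_le (min_le_left _ _))) ?_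
      have := s₂ z (sec_mono ((min_le_right _ _).trans (min_le_right _ _)) hz)
      by_contra hh
      push Not at hh
      nlinarith
  rcases hJ with ⟨f0, f1, f2⟩ | ⟨f1, f2, f4, f5⟩ | ⟨f1, f2, f3⟩
  · obtain ⟨e0, he0, -, s0⟩ := slad 0 (by decide) (hfb 0 f0)
    exact both (hfb 1 f1) (hfb 2 f2) e0 he0 s0
  · obtain ⟨e4, he4, he4', s4⟩ := slad 4 (by decide) (hfb 4 f4)
    obtain ⟨e2, he2, -, s2⟩ := slad 2 (by decide) (hfb 2 f2)
    obtain ⟨η₁, hη₁, z₁⟩ := sweep_om 5 (hfb 5 f5) e4 he4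
      (by rw [show om ^ (5 + 5) = om ^ 4 from om_add_six 4]; exact s4)
    obtain ⟨η₂, hη₂, z₂⟩ := sweep_co 1 (hfb 1 f1) e2 he2 s2
    have hv4 : ‖om ^ 4 * v‖ = 1 := by simp [norm_om, hv]
    obtain ⟨t, ht⟩ := slot_nonempty (x := x) hv4 he4
    obtain ⟨hre, him, him'⟩ := slot_near hv4 (he4'.trans hε₀4) ht
    obtain ⟨ρ, hρ, hρs⟩ := Metric.isOpen_iff.1 (isOpen_ball.inter (isOpen_lt continuous_const
      (Complex.continuous_im.comp (continuous_const.mul (continuous_id.sub continuous_const))) :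
        IsOpen {t' : ℂ | 0 < (conj (om ^ 4 * v) * (t' - x)).im})) t ⟨ht.1.2, ht.2⟩
    have arcs : ∀ y ∈ sphere x 1 ∩ ball t ρ, y ∈ Slot x (om ^ 4 * v) e4 := fun y hy =>
      ⟨⟨hy.1, (hρs hy.2).1⟩, (hρs hy.2).2⟩
    refine finish a d b (fun j hj => ?_) t ht.1.1 ρ hρ (fun y hy => (s4 y (arcs y hy)).1)
      (fun y hy => (s4 y (arcs y hy)).2) 5 1 _ (lt_min hη₁ hη₂)
      (fun z hz => z₁ z (ball_subset_ball (min_le_left _ _) hz))
      (fun z hz => z₂ z (ball_subset_ball (min_le_right _ _) hz)) ?_ ?_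
    · rcases h4.hall j with h | h | h | h | h
      exacts [Or.inl h, Or.inr (Or.inr (Or.inr h)), Or.inr (Or.inr (Or.inl h)), Or.inr (Or.inl h),
        absurd (h ▸ hj) h4.he]
    all_goals set ζ := conj (om ^ 4 * v) * (t - x) with hζ
    · have e : conj (om ^ 5 * v) * (I * (t - x)) = I * (conj om * ζ) := by
        simp only [hζ, map_mul, map_pow]; ring
      have h3 : 1 < Real.sqrt 3 := by
        nlinarith [Real.mul_self_sqrt (show (0 : ℝ) ≤ 3 by norm_num), Real.sqrt_nonneg 3]
      rw [e]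
      simp [om]
      nlinarith
    · have e : conj (om ^ 1 * v) * -(I * (t - x)) = I * ζ := by
        have h1 : conj om ^ 3 = -1 := by rw [← map_pow, om_cube]; simp
        simp only [hζ, map_mul, map_pow]
        linear_combination (-(I * conj om * conj v * (t - x))) * h1
      rw [e]
      simp
      linarith
  · obtain ⟨e2, he2, -, s2⟩ := slad 2 (by decide) (hfb 2 f2)
    obtain ⟨η₂, hη₂, z₂⟩ := sweep_co 1 (hfb 1 f1) e2 he2 s2
    obtain ⟨η₁, hη₁, z₁⟩ := sweep_om 3 (hfb 3 f3) e2 he2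
      (by rw [show om ^ (3 + 5) = om ^ 2 from om_add_six 2]; exact s2)
    have hv0 : ‖om ^ 0 * v‖ = 1 := by simp [hv]
    obtain ⟨t, ht, htd⟩ : ∃ t ∈ Slot x (om ^ 0 * v) ε₀, t ∉ closure (E d) := by
      by_contra hn
      push Not at hn
      exact both (hfb 1 f1) (hfb 2 f2) ε₀ hε₀
        fun t ht => ⟨(sl 0 (by decide) t ht).1, hn t ht⟩
    obtain ⟨hre, him, him'⟩ := slot_near hv0 hε₀4 ht
    obtain ⟨ρ, hρ, hρs⟩ := Metric.isOpen_iff.1 ((isOpen_ball.inter (isOpen_lt continuous_const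
      (Complex.continuous_im.comp (continuous_const.mul (continuous_id.sub continuous_const))) :
        IsOpen {t' : ℂ | 0 < (conj (om ^ 0 * v) * (t' - x)).im})).inter
      isClosed_closure.isOpen_compl) t ⟨⟨ht.1.2, ht.2⟩, htd⟩
    have arcs : ∀ y ∈ sphere x 1 ∩ ball t ρ, y ∈ closure (E a) ∧ y ∈ closure (E b) := fun y hy =>
      have h := sl 0 (by decide) y ⟨⟨hy.1, (hρs hy.2).1.1⟩, (hρs hy.2).1.2⟩
      ⟨h.1, h.2.resolve_right (hρs hy.2).2⟩
    refine finish a b d (fun j hj => ?_) t ht.1.1 ρ hρ (fun y hy => (arcs y hy).1)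
      (fun y hy => (arcs y hy).2) 3 1 _ (lt_min hη₁ hη₂)
      (fun z hz => z₁ z (ball_subset_ball (min_le_left _ _) hz))
      (fun z hz => z₂ z (ball_subset_ball (min_le_right _ _) hz)) ?_ ?_
    · rcases h4.hall j with h | h | h | h | h
      exacts [Or.inl h, Or.inr (Or.inl h), Or.inr (Or.inr (Or.inl h)), Or.inr (Or.inr (Or.inr h)),
        absurd (h ▸ hj) h4.he]
    all_goals set ζ := conj (om ^ 0 * v) * (t - x) with hζ
    · have e : conj (om ^ 3 * v) * (I * (t - x)) = -(I * ζ) := by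
        simp only [hζ, map_mul, ← map_pow, om_cube, pow_zero, map_neg, map_one]; ring
      rw [e]
      simp
      linarith
    · have e : conj (om ^ 1 * v) * -(I * (t - x)) = -(I * (conj om * ζ)) := by
        simp only [hζ, map_mul, map_pow]; ring
      have h3 : 1 < Real.sqrt 3 := by
        nlinarith [Real.mul_self_sqrt (show (0 : ℝ) ≤ 3 by norm_num), Real.sqrt_nonneg 3]
      rw [e]
      simp [om]
      nlinarith

end Vale.Agent.P032
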