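import Mathlib.Topology.Covering.AddCircle
import Mathlib.Topology.Homotopy.Lifting
import Mathlib.AlgebraicTopology.FundamentalGroupoid.SimplyConnected
import Mathlib.Topology.UrysohnsLemma
import Mathlib.Analysis.Normed.Module.Connected
import Mathlib.Analysis.Normed.Module.Convex
import Mathlib.Analysis.Normed.Module.Ball.Homeomorph
import Mathlib.Analysis.Complex.Basic
import Mathlib.LinearAlgebra.Complex.FiniteDimensional
import Mathlib.Analysis.Convex.Contractible
import Mathlib.Analysis.LocallyConvex.WithSeminorms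

/-!
Two closed sets covering a connected open set of the plane, neither containing it, share a
nontrivial connected set.
-/

namespace Vale.Agent.P032

open Metric Set

lemma int_valued_const {α : Type*} [TopologicalSpace α] {s : Set α} (hs : IsPreconnected s)
    {f : α → ℝ} (hf : ContinuousOn f s) (hint : ∀ x ∈ s, ∃ n : ℤ, f x = n)
    {x y : α} (hx : x ∈ s) (hy : y ∈ s) : f x = f y := by
  by_contra hne
  wlog hlt : f x < f y generalizing x y with H
  · exact H hy hx (Ne.symm hne) (lt_of_le_of_ne (not_lt.1 hlt) (Ne.symm hne))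
  obtain ⟨a, ha⟩ := hint x hx
  obtain ⟨b, hb⟩ := hint y hy
  rw [ha, hb] at hlt
  have hab : (a : ℝ) + 1 ≤ b := by
    have : a + 1 ≤ b := by exact_mod_cast hlt
    exact_mod_cast this
  obtain ⟨z, hz, hzv⟩ := hs.intermediate_value hx hy hf
    (show (a : ℝ) + 1 / 2 ∈ Icc (f x) (f y) by rw [ha, hb]; constructor <;> linarith)
  obtain ⟨n, hn⟩ := hint z hz
  rw [hn] at hzv
  have h1 : (a : ℝ) < n := by linarith
  have h2 : (n : ℝ) < a + 1 := by linarith
  norm_cast at h1 h2
  omega

/-- The plane is unicoherent. -/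
lemma unicoherent {A B : Set ℂ} (hA : IsClosed A) (hB : IsClosed B) (hcA : IsPreconnected A)
    (hcB : IsPreconnected B) (hun : A ∪ B = univ) : IsPreconnected (A ∩ B) := by
  classical
  rw [isPreconnected_iff_subset_of_disjoint_closed]
  intro P Q hP hQ hsub hdisj
  by_contra hcon
  rw [not_or, not_subset, not_subset] at hcon
  obtain ⟨⟨q, hqAB, hqP⟩, ⟨p, hpAB, hpQ⟩⟩ := hcon
  have hqQ : q ∈ Q := (hsub hqAB).resolve_left hqP
  have hpP : p ∈ P := (hsub hpAB).resolve_right hpQ
  obtain ⟨φ, hφ0, hφ1, -⟩ := exists_continuous_zero_one_of_isClosed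
    ((hA.inter hB).inter hP) ((hA.inter hB).inter hQ) (by
      rw [Set.disjoint_left]
      rintro z ⟨hz, hzP⟩ ⟨-, hzQ⟩
      exact (eq_empty_iff_forall_notMem.1 hdisj z) ⟨hz, hzP, hzQ⟩)
  let f : ℂ → AddCircle (1 : ℝ) := A.piecewise (fun z => ((φ z : ℝ) : AddCircle (1 : ℝ))) 0
  have honB : ∀ z ∈ B, f z = 0 := by
    intro z hz
    by_cases hzA : z ∈ A
    · rw [show f z = ((φ z : ℝ) : AddCircle (1 : ℝ)) from piecewise_eq_of_mem _ _ _ hzA]
      rcases hsub ⟨hzA, hz⟩ with h | h
      · rw [hφ0 ⟨⟨hzA, hz⟩, h⟩]; simp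
      · rw [hφ1 ⟨⟨hzA, hz⟩, h⟩]; simp
    · exact piecewise_eq_of_notMem _ _ _ hzA
  have hfA : ContinuousOn f A :=
    ((AddCircle.isCoveringMap_coe (1 : ℝ)).continuous.comp φ.continuous).continuousOn.congr
      fun z hz => piecewise_eq_of_mem _ _ _ hz
  have hfB : ContinuousOn f B := continuousOn_const.congr honB
  have hf : Continuous f :=
    continuousOn_univ.1 (hun ▸ hfA.union_of_isClosed hfB hA hB)
  obtain ⟨g, ⟨-, hg⟩, -⟩ := (AddCircle.isCoveringMap_coe (1 : ℝ)).existsUnique_continuousMap_lifts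
    ⟨f, hf⟩ p (0 : ℝ) (by simp [honB p hpAB.2])
  have hgf : ∀ z, ((g z : ℝ) : AddCircle (1 : ℝ)) = f z := fun z => congrFun hg z
  have e1 : g p = g q := int_valued_const hcB g.continuous.continuousOn (fun z hz => by
    have h := hgf z
    rw [honB z hz, AddCircle.coe_eq_zero_iff] at h
    obtain ⟨n, hn⟩ := h
    exact ⟨n, by rw [← hn]; simp⟩) hpAB.2 hqAB.2
  have e2 : g p - φ p = g q - φ q := int_valued_const hcA
    (g.continuous.sub φ.continuous).continuousOn (fun z hz => by
    have h : ((g z - φ z : ℝ) : AddCircle (1 : ℝ)) = 0 := by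
      rw [AddCircle.coe_sub, hgf z,
        show f z = ((φ z : ℝ) : AddCircle (1 : ℝ)) from piecewise_eq_of_mem _ _ _ hz, sub_self]
    obtain ⟨n, hn⟩ := AddCircle.coe_eq_zero_iff _ |>.1 h
    exact ⟨n, by show g z - φ z = n; rw [← hn]; simp⟩) hpAB.1 hqAB.1
  rw [hφ0 ⟨hpAB, hpP⟩, hφ1 ⟨hqAB, hqQ⟩, e1] at e2
  simp only [Pi.zero_apply, Pi.one_apply] at e2
  linarith

/-- The closure of a connected set meets the closure of each component of its complement. -/
lemma compl_component_preconnected {S U : Set ℂ} {b : ℂ} (hSc : IsClosed S)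
    (hSp : IsPreconnected S) (hSn : S.Nonempty) (hU : U = connectedComponentIn Sᶜ b) :
    IsPreconnected Uᶜ := by
  obtain ⟨s, hs⟩ := hSn
  have hSU : S ⊆ Uᶜ := fun z hz hzU => by
    rw [hU] at hzU
    exact connectedComponentIn_subset _ _ hzU hz
  refine isPreconnected_of_forall s fun z hz => ?_
  by_cases hzS : z ∈ S
  · exact ⟨S, hSU, hs, hzS, hSp⟩
  set V := connectedComponentIn Sᶜ z with hV
  have hzV : z ∈ V := mem_connectedComponentIn hzS
  have hVS : V ⊆ Sᶜ := connectedComponentIn_subset _ _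
  have hVo : IsOpen V := hSc.isOpen_compl.connectedComponentIn
  have hVU : closure V ⊆ Uᶜ := by
    have hUo : IsOpen U := hU ▸ hSc.isOpen_compl.connectedComponentIn
    refine closure_minimal (fun y hy hyU => hz ?_) hUo.isClosed_compl
    rw [hU] at hyU ⊢
    rw [connectedComponentIn_eq hyU, ← connectedComponentIn_eq hy]
    exact mem_connectedComponentIn hzS
  obtain ⟨y, hy1, hy2⟩ : (S ∩ closure V).Nonempty := by
    by_contra hn
    rw [not_nonempty_iff_eq_empty] at hn
    have hVc : IsClosed V := by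
      refine isClosed_of_closure_subset fun y hy => ?_
      have hyS : y ∉ S := fun h => (eq_empty_iff_forall_notMem.1 hn y) ⟨h, hy⟩
      exact (isPreconnected_connectedComponentIn.subset_closure (t := insert y V)
        (subset_insert _ _) (insert_subset hy subset_closure)).subset_connectedComponentIn
        (mem_insert_of_mem _ hzV) (insert_subset hyS hVS) (mem_insert _ _)
    rcases isClopen_iff.1 (⟨hVc, hVo⟩ : IsClopen V) with h | h
    · exact (eq_empty_iff_forall_notMem.1 h z) hzV
    · exact hVS (h ▸ mem_univ s) hs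
  exact ⟨S ∪ closure V, union_subset hSU hVU, Or.inl hs, Or.inr (subset_closure hzV),
    hSp.union' ⟨y, hy1, hy2⟩ isPreconnected_connectedComponentIn.closure⟩

/-- Two closed sets which cover the plane, neither of them all of it, share a nontrivial
connected set. -/
lemma plane_separation {A B : Set ℂ} (hA : IsClosed A) (hB : IsClosed B) (hun : A ∪ B = univ)
    {a b : ℂ} (ha : a ∉ B) (hb : b ∉ A) :
    ∃ C ⊆ A ∩ B, IsPreconnected C ∧ C.Nontrivial := by
  set K := A ∩ B with hK
  have haK : a ∈ Kᶜ := fun h => ha h.2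
  set O := connectedComponentIn Kᶜ a with hO
  have hOo : IsOpen O := (hA.inter hB).isOpen_compl.connectedComponentIn
  have hOA : O ⊆ A := by
    have h := isPreconnected_connectedComponentIn.subset_left_of_subset_union (s := O)
      hB.isOpen_compl hA.isOpen_compl ?_ ?_ ⟨a, mem_connectedComponentIn haK, ha⟩
    · exact fun z hz => ((hun ▸ mem_univ z : z ∈ A ∪ B)).resolve_right (h hz)
    · rw [Set.disjoint_left]
      exact fun z h1 h2 => ((hun ▸ mem_univ z : z ∈ A ∪ B)).elim h2 h1
    · intro z hz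
      have := connectedComponentIn_subset Kᶜ a hz
      by_cases hzB : z ∈ B
      · exact Or.inr fun hzA => this ⟨hzA, hzB⟩
      · exact Or.inl hzB
  set S := closure O with hS
  have hSA : S ⊆ A := closure_minimal hOA hA
  have hSp : IsPreconnected S := isPreconnected_connectedComponentIn.closure
  have haS : a ∈ S := subset_closure (mem_connectedComponentIn haK)
  set U := connectedComponentIn Sᶜ b with hU
  have hbS : b ∈ Sᶜ := fun h => hb (hSA h)
  have hUo : IsOpen U := isClosed_closure.isOpen_compl.connectedComponentIn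
  have hUS : U ⊆ Sᶜ := connectedComponentIn_subset _ _
  set C := closure U ∩ Uᶜ with hC
  have hCp : IsPreconnected C := unicoherent isClosed_closure hUo.isClosed_compl
    isPreconnected_connectedComponentIn.closure
    (compl_component_preconnected isClosed_closure hSp ⟨a, haS⟩ hU)
    (eq_univ_of_forall fun z => by
      by_cases h : z ∈ U
      · exact Or.inl (subset_closure h)
      · exact Or.inr h)
  have hCfr : C ⊆ S \ O := by
    rintro z ⟨hzU, hzn⟩
    refine ⟨?_, fun hzO => ?_⟩
    · by_contra hzS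
      refine hzn ?_
      exact (isPreconnected_connectedComponentIn.subset_closure (t := insert z U)
        (subset_insert _ _) (insert_subset hzU subset_closure)).subset_connectedComponentIn
        (mem_insert_of_mem _ (mem_connectedComponentIn hbS)) (insert_subset hzS hUS)
        (mem_insert _ _)
    · obtain ⟨y, hy1, hy2⟩ := mem_closure_iff.1 hzU O hOo hzO
      exact hUS hy2 (subset_closure hy1)
  have hCK : C ⊆ A ∩ B := fun z hz => by
    obtain ⟨hzS, hzO⟩ := hCfr hz
    by_contra hzK
    refine hzO ?_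
    exact (isPreconnected_connectedComponentIn.subset_closure (t := insert z O)
      (subset_insert _ _) (insert_subset hzS subset_closure)).subset_connectedComponentIn
      (mem_insert_of_mem _ (mem_connectedComponentIn haK))
      (insert_subset hzK (connectedComponentIn_subset _ _)) (mem_insert _ _)
  refine ⟨C, hCK, hCp, ?_⟩
  by_contra hnt
  rw [Set.not_nontrivial_iff] at hnt
  have haU : a ∉ closure U := fun h => by
    obtain ⟨y, hy1, hy2⟩ := mem_closure_iff.1 h O hOo (mem_connectedComponentIn haK)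
    exact hUS hy2 (subset_closure hy1)
  obtain ⟨k, hk, hak, hbk⟩ : ∃ k, C ⊆ {k} ∧ a ≠ k ∧ b ≠ k := by
    rcases C.eq_empty_or_nonempty with h | ⟨k, hk⟩
    · obtain ⟨k, hk⟩ := (Set.Finite.exists_notMem (s := ({a, b} : Set ℂ)) (Set.toFinite _))
      simp only [mem_insert_iff, mem_singleton_iff, not_or] at hk
      exact ⟨k, by simp [h], Ne.symm hk.1, Ne.symm hk.2⟩
    · exact ⟨k, fun z hz => hnt hz hk, fun e => haU (e ▸ hk.1),
        fun e => hk.2 (e ▸ mem_connectedComponentIn hbS)⟩
  have hpre : IsPreconnected ({k}ᶜ : Set ℂ) :=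
    (isConnected_compl_singleton_of_one_lt_rank
      (by rw [Complex.rank_real_complex]; norm_num) k).isPreconnected
  obtain ⟨z, -, hz1, hz2⟩ := hpre U (closure U)ᶜ hUo isClosed_closure.isOpen_compl
    (fun z hz => (em (z ∈ closure U)).imp
      (fun h1 => by_contra fun h2 => hz (hk ⟨h1, h2⟩)) (fun h1 => h1))
    ⟨b, hbk, mem_connectedComponentIn hbS⟩ ⟨a, hak, haU⟩
  exact hz2 (subset_closure hz1)

/-- The same in a ball. -/
lemma ball_separation {A B : Set ℂ} (hA : IsClosed A) (hB : IsClosed B) {c : ℂ} {r : ℝ}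
    (hr : 0 < r) (hun : ball c r ⊆ A ∪ B) :
    (∃ C ⊆ A ∩ B ∩ ball c r, IsPreconnected C ∧ C.Nontrivial) ∨ ball c r ⊆ A ∨ ball c r ⊆ B := by
  by_contra hcon
  push Not at hcon
  obtain ⟨hno, hnA, hnB⟩ := hcon
  obtain ⟨b, hb, hbA⟩ := not_subset.1 hnA
  obtain ⟨a, ha, haB⟩ := not_subset.1 hnB
  set φ := OpenPartialHomeomorph.univBall (P := ℂ) (E := ℂ) c r with hφ
  have hsrc : φ.source = univ := OpenPartialHomeomorph.univBall_source c r
  have htgt : φ.target = ball c r := OpenPartialHomeomorph.univBall_target c hr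
  have hc : Continuous φ := continuousOn_univ.1 (hsrc ▸ φ.continuousOn)
  have hin : ∀ z, φ z ∈ ball c r := fun z => htgt ▸ φ.map_source (by simp [hsrc])
  have hrt : ∀ z ∈ ball c r, φ (φ.symm z) = z := fun z hz => φ.right_inv (htgt ▸ hz)
  obtain ⟨C, hC, hCp, x, hx, y, hy, hne⟩ := plane_separation (hA.preimage hc) (hB.preimage hc)
    (eq_univ_of_forall fun z => hun (hin z)) (a := φ.symm a) (b := φ.symm b)
    (by rw [mem_preimage, hrt a ha]; exact haB) (by rw [mem_preimage, hrt b hb]; exact hbA)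
  refine (hne : x ≠ y) (φ.injOn (by simp [hsrc]) (by simp [hsrc]) (hno (φ '' C) ?_
    (hCp.image _ hc.continuousOn) (mem_image_of_mem _ hx) (mem_image_of_mem _ hy)))
  · rintro _ ⟨z, hz, rfl⟩
    exact ⟨⟨(hC hz).1, (hC hz).2⟩, hin z⟩

/-- Two closed sets covering a connected open set, neither containing it, share a nontrivial
connected subset of it. -/
theorem separation {A B U : Set ℂ} (hA : IsClosed A) (hB : IsClosed B) (hU : IsOpen U)
    (hUp : IsPreconnected U) (hun : U ⊆ A ∪ B) :
    (∃ C ⊆ A ∩ B ∩ U, IsPreconnected C ∧ C.Nontrivial) ∨ U ⊆ A ∨ U ⊆ B := by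
  by_contra hcon
  push Not at hcon
  obtain ⟨hno, hnA, hnB⟩ := hcon
  have hball : ∀ z ∈ U, ∃ r > 0, ball z r ⊆ U ∧ (ball z r ⊆ A ∨ ball z r ⊆ B) := by
    intro z hz
    obtain ⟨r, hr, hrU⟩ := Metric.isOpen_iff.1 hU z hz
    refine ⟨r, hr, hrU, ?_⟩
    rcases ball_separation hA hB hr (hrU.trans hun) with ⟨C, hC, hCp, hCn⟩ | h
    · exact absurd (hno C (hC.trans (inter_subset_inter_right _ hrU)) hCp) hCn.not_subsingleton
    · exact h
  obtain ⟨z, hzU, hzA, hzB⟩ : (U ∩ (interior (A ∩ U) ∩ interior (B ∩ U))).Nonempty := by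
    refine hUp _ _ isOpen_interior isOpen_interior ?_ ?_ ?_
    · intro z hz
      obtain ⟨r, hr, hrU, h⟩ := hball z hz
      rcases h with h | h
      · exact Or.inl (interior_maximal (subset_inter h hrU) isOpen_ball (mem_ball_self hr))
      · exact Or.inr (interior_maximal (subset_inter h hrU) isOpen_ball (mem_ball_self hr))
    · obtain ⟨b, hb, hbA⟩ := not_subset.1 hnB
      obtain ⟨r, hr, hrU, h⟩ := hball b hb
      rcases h with h | h
      · exact ⟨b, hb, interior_maximal (subset_inter h hrU) isOpen_ball (mem_ball_self hr)⟩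
      · exact absurd (h (mem_ball_self hr)) hbA
    · obtain ⟨b, hb, hbA⟩ := not_subset.1 hnA
      obtain ⟨r, hr, hrU, h⟩ := hball b hb
      rcases h with h | h
      · exact absurd (h (mem_ball_self hr)) hbA
      · exact ⟨b, hb, interior_maximal (subset_inter h hrU) isOpen_ball (mem_ball_self hr)⟩
  obtain ⟨r, hr, hsub⟩ := Metric.mem_nhds_iff.1 (Filter.inter_mem
    (mem_interior_iff_mem_nhds.1 hzA) (mem_interior_iff_mem_nhds.1 hzB))
  exact ((infinite_of_mem_nhds z (ball_mem_nhds z hr)).nontrivial).not_subsingleton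
    (hno (ball z r) (fun y hy => ⟨⟨(hsub hy).1.1, (hsub hy).2.1⟩, (hsub hy).1.2⟩)
    (convex_ball z r).isPreconnected)

end Vale.Agent.P032
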