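import Vale.Agent.P032.Wide
import Vale.Agent.P032.Topo
import Vale.Agent.P032.GoodStar

/-!
Sectors at a point forced by arcs of its unit circle, and the two sides of that circle.
-/

namespace Vale.Agent.P032

open Metric Set Complex ComplexConjugate

/-- An open sector at `x` around the direction `v`. -/
def Sec (x v : ℂ) (δ : ℝ) : Set ℂ :=
  {z | dist z x < δ ∧ |(conj v * (z - x)).im| < δ * (conj v * (z - x)).re}

lemma isOpen_sec (x v : ℂ) (δ : ℝ) : IsOpen (Sec x v δ) := by
  rw [Sec, ofPred_and]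
  exact (isOpen_lt (by fun_prop) continuous_const).inter (isOpen_lt (by fun_prop) (by fun_prop))

lemma convex_sec (x v : ℂ) (δ : ℝ) : Convex ℝ (Sec x v δ) := by
  intro a ha b hb s t hs ht hst
  refine ⟨convex_ball x δ ha.1 hb.1 hs ht hst, ?_⟩
  have e : conj v * (s • a + t • b - x) =
      (s : ℂ) * (conj v * (a - x)) + (t : ℂ) * (conj v * (b - x)) := by
    have h1 : (s : ℂ) + t = 1 := by exact_mod_cast hst
    rw [Complex.real_smul, Complex.real_smul]
    linear_combination (-(conj v * x)) * h1.symm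
  rw [e]
  simp only [Complex.add_re, Complex.add_im, Complex.re_ofReal_mul, Complex.im_ofReal_mul]
  have A := abs_lt.1 ha.2
  have B := abs_lt.1 hb.2
  rw [abs_lt]
  rcases hs.eq_or_lt with rfl | hs'
  · obtain rfl : t = 1 := by linarith
    constructor <;> linarith [B.1, B.2]
  · constructor <;>
      nlinarith [mul_le_mul_of_nonneg_left A.1.le hs, mul_le_mul_of_nonneg_left A.2.le hs,
        mul_le_mul_of_nonneg_left B.1.le ht, mul_le_mul_of_nonneg_left B.2.le ht,
        mul_pos hs' (sub_pos.2 A.1), mul_pos hs' (sub_pos.2 A.2)]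

lemma sec_mono {x v : ℂ} {δ δ' : ℝ} (h : δ' ≤ δ) : Sec x v δ' ⊆ Sec x v δ := fun z hz => by
  have h0 := abs_nonneg (conj v * (z - x)).im
  refine ⟨hz.1.trans_le h, hz.2.trans_le ?_⟩
  have hd : 0 < δ' := dist_nonneg.trans_lt hz.1
  exact mul_le_mul_of_nonneg_right h (by by_contra hh; push Not at hh; nlinarith [hz.2])

/-- Points on the ray lie in the sector. -/
lemma ray_mem {x v : ℂ} (hv : ‖v‖ = 1) {δ s : ℝ} (hs : 0 < s) (hsδ : s < δ) :
    x + (s : ℂ) * v ∈ Sec x v δ := by
  have e : conj v * (x + (s : ℂ) * v - x) = (s : ℂ) := by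
    rw [add_sub_cancel_left, mul_left_comm, mul_comm (conj v), Complex.mul_conj,
      Complex.normSq_eq_norm_sq, hv]
    simp
  refine ⟨?_, ?_⟩
  · simpa [dist_eq_norm, hv, abs_of_pos hs] using hsδ
  · rw [e]
    simp only [Complex.ofReal_im, abs_zero, Complex.ofReal_re]
    exact mul_pos (hs.trans hsδ) hs

lemma sec_nonempty (x : ℂ) {v : ℂ} (hv : ‖v‖ = 1) {δ : ℝ} (hδ : 0 < δ) :
    (Sec x v δ).Nonempty :=
  ⟨_, ray_mem hv (half_pos hδ) (half_lt_self hδ)⟩

lemma re_sq_add_im_sq {u : ℂ} (hu : ‖u‖ = 1) : u.re * u.re + u.im * u.im = 1 := by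
  rw [← Complex.normSq_apply, ← Complex.sq_norm, hu]; norm_num

variable (E : Fin 5 → Set ℂ) (hE : ∀ i, IsOpen (E i))
  (hB : ∀ i, ∀ y ∈ E i, ∀ z ∈ E i, dist y z ≠ 1)
  (hR : ∀ i, interior (closure (E i)) = E i)
  (hcl : ∀ x, ∃ i, x ∈ closure (E i))
  (hd : ∀ i j, i ≠ j → Disjoint (E i) (E j))

include hE hB in
/-- An arc in one closure keeps that closure out of the perpendicular sectors. -/
lemma flat_avoid {x u : ℂ} (hu : ‖u‖ = 1) {ε : ℝ} (hε : 0 < ε) {i : Fin 5}
    (harc : sphere x 1 ∩ ball (x + u) ε ⊆ closure (E i)) :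
    ∃ δ > 0, ∀ z, z ≠ x → dist z x < δ → |(conj u * (z - x)).re| ≤ δ * ‖z - x‖ →
      z ∉ closure (E i) := by
  have hc : Continuous fun t => x + zz t * u := continuous_const.add (zz_cont.mul continuous_const)
  obtain ⟨δ₀, hδ₀, hb⟩ := Metric.continuousAt_iff.1 (hc.continuousAt (x := (0 : ℝ))) ε hε
  set τ := min (δ₀ / 2) 1 with hτdef
  have hτ : 0 < τ := lt_min (half_pos hδ₀) one_pos
  have hτ1 : τ ≤ 1 := min_le_right _ _
  refine ⟨τ / 16, by positivity, fun z hzx hzd hflat => ?_⟩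
  set d := z - x with hdd
  have hd0 : 0 < ‖d‖ := norm_pos_iff.2 (sub_ne_zero.2 hzx)
  have hdn : ‖d‖ < τ / 16 := by rwa [hdd, ← dist_eq_norm]
  set R := (conj u * d).re with hR'
  set S := (conj u * d).im with hS
  have hRS : R ^ 2 + S ^ 2 = ‖d‖ ^ 2 := by
    rw [Complex.sq_norm, Complex.normSq_apply, hR', hS]
    have := re_sq_add_im_sq hu
    simp only [Complex.mul_re, Complex.mul_im, Complex.conj_re, Complex.conj_im]
    linear_combination (d.re * d.re + d.im * d.im) * this
  have hSbig : ‖d‖ / 2 ≤ |S| := by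
    have h1 : R ^ 2 ≤ (τ / 16 * ‖d‖) ^ 2 := by
      rw [← sq_abs R]; exact pow_le_pow_left₀ (abs_nonneg _) hflat 2
    have h2 : (‖d‖ / 2) ^ 2 ≤ |S| ^ 2 := by
      rw [sq_abs]
      nlinarith [pow_le_one₀ (n := 2) hτ.le hτ1, sq_nonneg ‖d‖, mul_le_mul_of_nonneg_right
        (pow_le_one₀ (n := 2) hτ.le hτ1) (sq_nonneg ‖d‖)]
    exact le_of_sq_le_sq h2 (abs_nonneg _)
  have f : ∀ t, dist (x + zz t * u) z ^ 2 =
      1 - 2 * (Real.cos t * R + Real.sin t * S) + ‖d‖ ^ 2 := by
    intro t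
    rw [dist_eq_norm, show x + zz t * u - z = zz t * u - d by rw [hdd]; ring, Complex.sq_norm,
      Complex.sq_norm, Complex.normSq_apply, Complex.normSq_apply]
    have := Real.sin_sq_add_cos_sq t
    have := re_sq_add_im_sq hu
    simp only [zz, hR', hS, Complex.sub_re, Complex.sub_im, Complex.mul_re, Complex.mul_im,
      Complex.conj_re, Complex.conj_im]
    linear_combination (u.re * u.re + u.im * u.im) * Real.sin_sq_add_cos_sq t + this
  have hs : τ / 2 ≤ Real.sin τ := by
    nlinarith [Real.sin_gt_sub_cube hτ, pow_le_one₀ (n := 2) hτ.le hτ1]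
  have hdom : |2 * (Real.cos τ * R)| + ‖d‖ ^ 2 < |2 * (Real.sin τ * S)| := by
    have h0 : 0 ≤ Real.sin τ := by linarith
    simp only [abs_mul, abs_of_nonneg h0, abs_of_nonneg (zero_le_two : (0 : ℝ) ≤ 2)]
    nlinarith [mul_le_mul_of_nonneg_right (Real.abs_cos_le_one τ) (abs_nonneg R),
      mul_le_mul hs hSbig (by positivity) (by linarith), mul_pos hτ hd0]
  have hmem : (1 : ℝ) ∈ uIcc (dist (x + zz (-τ) * u) z) (dist (x + zz τ * u) z) := by
    have h1 := f τ
    have h2 := f (-τ)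
    rw [Real.cos_neg, Real.sin_neg] at h2
    have ha : (0 : ℝ) ≤ dist (x + zz τ * u) z := dist_nonneg
    have hb' : (0 : ℝ) ≤ dist (x + zz (-τ) * u) z := dist_nonneg
    have hab := abs_lt.1 (lt_of_le_of_lt (le_add_of_nonneg_right (sq_nonneg ‖d‖)) hdom)
    rw [mem_uIcc]
    rcases le_total 0 (2 * (Real.sin τ * S)) with hp | hp
    · rw [abs_of_nonneg hp] at hdom
      refine Or.inr ⟨?_, ?_⟩ <;>
        nlinarith [le_abs_self (2 * (Real.cos τ * R)), neg_abs_le (2 * (Real.cos τ * R))]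
    · rw [abs_of_nonpos hp] at hdom
      refine Or.inl ⟨?_, ?_⟩ <;>
        nlinarith [le_abs_self (2 * (Real.cos τ * R)), neg_abs_le (2 * (Real.cos τ * R))]
  obtain ⟨t, ht, hdist⟩ := intermediate_value_uIcc (f := fun t => dist (x + zz t * u) z)
    (hc.dist continuous_const).continuousOn hmem
  rw [uIcc_of_le (by linarith : -τ ≤ τ)] at ht
  have htb : x + zz t * u ∈ ball (x + u) ε := by
    have := hb (x := t) (by
      rw [Real.dist_eq, sub_zero, abs_lt]
      have : τ ≤ δ₀ / 2 := min_le_left _ _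
      constructor <;> linarith [ht.1, ht.2])
    simpa [zz_zero] using this
  obtain ⟨ρ, hρ, hρs⟩ := Metric.isOpen_iff.1 isOpen_ball _ htb
  refine arc_sweep E hE hB (x := x) (by simp [norm_zz, hu]) hρ
    ((inter_subset_inter_right _ hρs).trans harc) hdist ?_
  intro him
  rw [add_sub_cancel_left] at him
  have hre : (conj (zz t * u) * d).re = ‖d‖ ^ 2 / 2 := by
    have e := f t
    simp only at hdist
    rw [hdist] at e
    simp only [zz, hR', hS, Complex.mul_re, Complex.mul_im, Complex.conj_re, Complex.conj_im] at e ⊢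
    linarith
  have hn : ‖conj (zz t * u) * d‖ = ‖d‖ := by simp [norm_zz, hu]
  have := (Complex.abs_re_eq_norm.2 (show (conj (zz t * u) * d).im = 0 from him))
  rw [hn, hre, abs_of_nonneg (by positivity)] at this
  nlinarith

include hE hB in
/-- An arc in one closure keeps that closure out of both perpendicular sectors. -/
lemma sec_avoid {x u : ℂ} (hu : ‖u‖ = 1) {ε : ℝ} (hε : 0 < ε) {i : Fin 5}
    (harc : sphere x 1 ∩ ball (x + u) ε ⊆ closure (E i)) :
    ∃ δ > 0, ∀ v, (v = I * u ∨ v = -(I * u)) → ∀ z ∈ Sec x v δ, z ∉ closure (E i) := by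
  obtain ⟨δ, hδ, h⟩ := flat_avoid E hE hB hu hε harc
  refine ⟨δ, hδ, fun v hv z hz => ?_⟩
  have hpos : 0 < (conj v * (z - x)).re := by
    by_contra hn
    push Not at hn
    nlinarith [hz.2, abs_nonneg (conj v * (z - x)).im]
  have hv1 : ‖v‖ = 1 := by rcases hv with rfl | rfl <;> simp [hu]
  have hle : (conj v * (z - x)).re ≤ ‖z - x‖ := by
    refine (Complex.re_le_norm _).trans ?_
    simp [hv1]
  refine h z (fun e => ?_) hz.1 ?_
  · rw [e] at hpos; simp at hpos
  · have : |(conj u * (z - x)).re| = |(conj v * (z - x)).im| := by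
      rcases hv with rfl | rfl
      · rw [show conj (I * u) * (z - x) = -(I * (conj u * (z - x))) by simp; ring, Complex.neg_im,
          abs_neg, Complex.I_mul_im]
      · rw [show conj (-(I * u)) * (z - x) = I * (conj u * (z - x)) by simp; ring, Complex.I_mul_im]
    rw [this]
    exact hz.2.le.trans (mul_le_mul_of_nonneg_left hle hδ.le)

include hE hB in
/-- A circle through the apex of a one-coloured sector, tangent to its direction, has its centre
outside that closure. -/
lemma perp_avoid {x p v : ℂ} {δ : ℝ} {i : Fin 5} (hδ : 0 < δ) (hS : Sec x v δ ⊆ E i)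
    (hv : ‖v‖ = 1) (hp : ‖p - x‖ = 1) (hperp : (conj v * (p - x)).re = 0) :
    p ∉ closure (E i) := by
  set u := p - x with hu
  set κ := (conj v * u).im with hκ
  have hκ2 : κ ^ 2 = 1 := by
    have : ‖conj v * u‖ ^ 2 = 1 := by simp [hv, hp]
    rw [Complex.sq_norm, Complex.normSq_apply, hperp] at this
    linarith [this, sq κ]
  have hco : conj v * u = (κ : ℂ) * I := by
    apply Complex.ext <;> simp [hperp, hκ]
  set τ := min (δ / 2) 1 with hτd
  have hτ : 0 < τ := lt_min (half_pos hδ) one_pos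
  have hτ1 : τ ≤ 1 := min_le_right _ _
  have hτδ : τ ≤ δ / 2 := min_le_left _ _
  set z := p + zz (κ * τ) * (x - p) with hz
  have hzx : conj v * (z - x) = (κ : ℂ) * I * (1 - zz (κ * τ)) := by
    rw [← hco, hz, hu]; ring
  have hκ' : κ = 1 ∨ κ = -1 := mul_self_eq_one_iff.1 (by rw [← sq]; exact hκ2)
  have hre : (conj v * (z - x)).re = Real.sin τ := by
    rw [hzx]
    rcases hκ' with h | h <;> simp [h, zz]
  have him : |(conj v * (z - x)).im| = 1 - Real.cos τ := by
    rw [hzx]
    rcases hκ' with h | h <;> simp [h, zz, abs_sub_comm, abs_of_nonneg (sub_nonneg.2 (Real.cos_le_one τ))]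
  have hs : τ / 2 ≤ Real.sin τ := by
    nlinarith [Real.sin_gt_sub_cube hτ, pow_le_one₀ (n := 2) hτ.le hτ1]
  have hc : 1 - Real.cos τ ≤ τ ^ 2 / 2 := by linarith [Real.one_sub_sq_div_two_le_cos (x := τ)]
  have hs' : Real.sin τ ≤ τ := Real.sin_le hτ.le
  have hnorm : dist z x < δ := by
    have hn : ‖conj v * (z - x)‖ = dist z x := by simp [hv, dist_eq_norm]
    rw [← hn]
    refine (Complex.norm_le_abs_re_add_abs_im _).trans_lt ?_
    rw [hre, him, abs_of_nonneg (by linarith : 0 ≤ Real.sin τ)]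
    nlinarith
  have hzS : z ∈ Sec x v δ := ⟨hnorm, by rw [hre, him]; nlinarith⟩
  refine not_closure E hE hB (hS hzS) ?_
  rw [hz, dist_eq_norm, add_sub_cancel_left, norm_mul, norm_zz, one_mul, norm_sub_rev, ← hu, hp]

include hB in
/-- A one-coloured sector keeps that colour on one side of the circle. -/
lemma one_sided {x p v : ℂ} {δ : ℝ} {i : Fin 5} (hδ : 0 < δ) (hS : Sec x v δ ⊆ E i)
    (hv : ‖v‖ = 1) (hp : ‖p - x‖ = 1) :
    ∃ ρ > 0, ∀ y ∈ ball p ρ, y ∈ E i →
      (0 < (conj v * (p - x)).re → dist y x ≤ 1) ∧ ((conj v * (p - x)).re < 0 → 1 ≤ dist y x) := by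
  rcases eq_or_ne (conj v * (p - x)).re 0 with h0 | h0
  · exact ⟨1, one_pos, fun y _ _ => ⟨fun h => absurd h0 h.ne', fun h => absurd h0 h.ne⟩⟩
  set c := (conj v * (p - x)).re with hc
  set s := min (δ / 2) (|c| / 2) with hs
  have hs0 : 0 < s := lt_min (half_pos hδ) (by positivity)
  have hsd : s ≤ δ / 2 := min_le_left _ _
  have hsc : s ≤ |c| / 2 := min_le_right _ _
  have e : dist p (x + (s : ℂ) * v) ^ 2 = 1 - 2 * s * c + s ^ 2 := by
    have e1 : (p - x).re * (p - x).re + (p - x).im * (p - x).im = 1 := re_sq_add_im_sq hp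
    have e2 := re_sq_add_im_sq hv
    rw [dist_eq_norm, show p - (x + (s : ℂ) * v) = (p - x) - (s : ℂ) * v by ring, Complex.sq_norm,
      Complex.normSq_apply, hc]
    simp only [Complex.sub_re, Complex.sub_im, Complex.mul_re, Complex.mul_im, Complex.conj_re,
      Complex.conj_im, Complex.ofReal_re, Complex.ofReal_im] at e1 ⊢
    linear_combination e1 + s ^ 2 * e2
  have hne : dist p (x + (s : ℂ) * v) ≠ 1 := fun h => by
    rw [h] at e
    have hs2 : s = 2 * c := by
      have h1 : s * (s - 2 * c) = 0 := by linear_combination e.symm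
      linarith [(mul_eq_zero.1 h1).resolve_left hs0.ne']
    have hcpos : 0 < c := by linarith
    rw [abs_of_pos hcpos] at hsc
    linarith
  refine ⟨|dist p (x + (s : ℂ) * v) - 1|, abs_pos.2 (sub_ne_zero.2 hne), fun y hy hyE => ?_⟩
  rw [mem_ball] at hy
  have hz0 : (0 : ℝ) ≤ dist p (x + (s : ℂ) * v) := dist_nonneg
  have htri1 := dist_triangle y p (x + (s : ℂ) * v)
  have htri2 := dist_triangle p y (x + (s : ℂ) * v)
  have hcross : ∀ hmem : (1 : ℝ) ∈ uIcc (dist y x) (dist y (x + (s : ℂ) * v)),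
      dist y x = 1 := by
    intro hmem
    obtain ⟨r, hr, hry⟩ := intermediate_value_uIcc (a := (0 : ℝ)) (b := s)
      (f := fun r => dist y (x + (r : ℂ) * v)) (by fun_prop) (by simpa using hmem)
    rw [uIcc_of_le hs0.le] at hr
    rcases hr.1.eq_or_lt with h | h
    · simpa [← h] using hry
    · exact absurd hry (hB i y hyE _ (hS (ray_mem hv h (by linarith [hr.2]))))
  constructor
  · intro hcpos
    have hlt : dist p (x + (s : ℂ) * v) < 1 := by
      rw [abs_of_pos hcpos] at hsc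
      nlinarith
    rw [abs_of_neg (by linarith)] at hy
    by_contra hgt
    push Not at hgt
    exact hgt.ne' (hcross (by rw [mem_uIcc]; exact Or.inr ⟨by linarith, hgt.le⟩))
  · intro hcneg
    have hgt : 1 < dist p (x + (s : ℂ) * v) := by
      nlinarith
    rw [abs_of_pos (by linarith)] at hy
    by_contra hlt
    push Not at hlt
    exact hlt.ne (hcross (by rw [mem_uIcc]; exact Or.inl ⟨hlt.le, by linarith [dist_comm y p]⟩))

include hE hB in
/-- A colour filling two opposite sectors is absent from the circle. -/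
lemma absent {x v : ℂ} {δ : ℝ} {i : Fin 5} (hδ : 0 < δ) (hS : Sec x v δ ⊆ E i)
    (hS' : Sec x (-v) δ ⊆ E i) (hv : ‖v‖ = 1) {p : ℂ} (hp : ‖p - x‖ = 1) :
    p ∉ closure (E i) := by
  intro hpi
  rcases eq_or_ne (conj v * (p - x)).re 0 with h0 | h0
  · exact perp_avoid E hE hB hδ hS hv hp h0 hpi
  obtain ⟨ρ, hρ, h1⟩ := one_sided E hB hδ hS hv hp
  obtain ⟨ρ', hρ', h2⟩ := one_sided E hB hδ hS' (by simpa using hv) hp
  obtain ⟨y, ⟨hy, hy'⟩, hyE⟩ := mem_closure_iff.1 hpi _ (isOpen_ball.inter isOpen_ball)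
    (show p ∈ ball p ρ ∩ ball p ρ' from ⟨mem_ball_self hρ, mem_ball_self hρ'⟩)
  have hon : ∀ w ∈ ball p ρ ∩ ball p ρ', w ∈ E i → dist w x = 1 := by
    rintro w ⟨hw, hw'⟩ hwE
    have a := h1 w hw hwE
    have b := h2 w hw' hwE
    simp only [map_neg, neg_mul, Complex.neg_re, neg_pos, neg_lt_zero] at b
    rcases lt_or_gt_of_ne h0 with h | h
    · exact le_antisymm (b.1 h) (a.2 h)
    · exact le_antisymm (a.1 h) (b.2 h)
  have hy1 := hon y ⟨hy, hy'⟩ hyE
  have hc : ContinuousAt (fun t : ℝ => y + (t : ℂ) * (y - x)) 0 := by fun_prop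
  obtain ⟨η, hη, hsub⟩ := Metric.isOpen_iff.1 ((isOpen_ball.inter isOpen_ball).inter (hE i)) y
    ⟨⟨hy, hy'⟩, hyE⟩
  have hmem : y + ((η / 2 : ℝ) : ℂ) * (y - x) ∈ ball y η := by
    rw [mem_ball, dist_eq_norm, add_sub_cancel_left, norm_mul, Complex.norm_real, ← dist_eq_norm,
      hy1, mul_one, Real.norm_eq_abs, abs_of_pos (half_pos hη)]
    linarith
  have := hon _ (hsub hmem).1 (hsub hmem).2
  rw [dist_eq_norm, show y + ((η / 2 : ℝ) : ℂ) * (y - x) - x = ((1 + η / 2 : ℝ) : ℂ) * (y - x) by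
    push_cast; ring, norm_mul, Complex.norm_real, ← dist_eq_norm, hy1, mul_one, Real.norm_eq_abs,
    abs_of_pos (by linarith)] at this
  linarith

include hR in
/-- An open connected set covered by two closures which are not linked there has one colour. -/
lemma mono {x : ℂ} {η : ℝ} {c d : Fin 5} {U : Set ℂ}
    (hno : ∀ C, IsPreconnected C → C ⊆ closure (E c) ∩ closure (E d) ∩ closedBall x η →
      C.Subsingleton)
    (hU : IsOpen U) (hUp : IsPreconnected U) (hUb : U ⊆ closedBall x η)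
    (hUc : U ⊆ closure (E c) ∪ closure (E d)) : U ⊆ E c ∨ U ⊆ E d := by
  rcases separation isClosed_closure isClosed_closure hU hUp hUc with
    ⟨C, hC, hCp, hCn⟩ | h | h
  · exact absurd (hno C hCp (hC.trans (inter_subset_inter_right _ hUb))) hCn.not_subsingleton
  · exact Or.inl (hR c ▸ interior_maximal h hU)
  · exact Or.inr (hR d ▸ interior_maximal h hU)

end Vale.Agent.P032
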