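import Vale.Agent.P032.Alpha

/-!
Where two opposite one-coloured sectors exist, the two colours lie on fixed sides of their arcs.
-/

namespace Vale.Agent.P032

open Metric Set Complex ComplexConjugate

lemma smul_ne {x y : ℂ} (h : dist y x = 1) {r : ℝ} (hr : 0 < r) :
    dist (y + (r : ℂ) * (y - x)) x ≠ 1 ∧ dist (y + (r : ℂ) * (y - x)) y = r := by
  constructor
  · rw [dist_eq_norm, show y + (r : ℂ) * (y - x) - x = ((1 + r : ℝ) : ℂ) * (y - x) by
      push_cast; ring, norm_mul, Complex.norm_real, ← dist_eq_norm, h, mul_one, Real.norm_eq_abs,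
      abs_of_pos (by linarith)]
    linarith
  · rw [dist_eq_norm, add_sub_cancel_left, norm_mul, Complex.norm_real, ← dist_eq_norm, h, mul_one,
      Real.norm_eq_abs, abs_of_pos hr]

/-- The outer side of a circle near one of its points is connected. -/
lemma outer_preconnected {x u : ℂ} (hu : ‖u‖ = 1) {η : ℝ} (hη : 0 < η) (hη' : η ≤ 1 / 4) :
    IsPreconnected (ball (x + u) η ∩ {y | 1 < dist y x}) := by
  set c := x + ((1 + η / 2 : ℝ) : ℂ) * u with hc
  have hcb : c ∈ ball (x + u) η := by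
    rw [mem_ball, dist_eq_norm, hc, show x + ((1 + η / 2 : ℝ) : ℂ) * u - (x + u) =
      ((η / 2 : ℝ) : ℂ) * u by push_cast; ring, norm_mul, Complex.norm_real, hu, mul_one,
      Real.norm_eq_abs, abs_of_pos (half_pos hη)]
    linarith
  have hcd : dist c x = 1 + η / 2 := by
    rw [dist_eq_norm, hc, add_sub_cancel_left, norm_mul, Complex.norm_real, hu, mul_one,
      Real.norm_eq_abs, abs_of_pos (by linarith)]
  have hcm : c ∈ ball (x + u) η ∩ {y | 1 < dist y x} := ⟨hcb, by
    rw [mem_ofPred_eq, hcd]; linarith⟩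
  refine ((?_ : StarConvex ℝ c _).isPathConnected hcm).isConnected.isPreconnected
  rintro y ⟨hyb, hy⟩ s t hs ht hst
  refine ⟨convex_ball _ _ hcb hyb hs ht hst, ?_⟩
  rw [mem_ofPred_eq] at hy ⊢
  set D := y - x with hD
  have e1 := re_sq_add_im_sq hu
  have hn : ‖D - u‖ < η := by
    rw [hD, sub_sub, ← dist_eq_norm]; exact mem_ball.1 hyb
  have hD1 : 1 < D.re * D.re + D.im * D.im := by
    rw [← Complex.normSq_apply, ← Complex.sq_norm, hD, ← dist_eq_norm]; nlinarith
  have hsq : (D.re - u.re) * (D.re - u.re) + (D.im - u.im) * (D.im - u.im) < η ^ 2 := by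
    have : ‖D - u‖ ^ 2 < η ^ 2 := pow_lt_pow_left₀ hn (norm_nonneg _) (by norm_num)
    rwa [Complex.sq_norm, Complex.normSq_apply, Complex.sub_re, Complex.sub_im] at this
  have hB' : 1 - η ^ 2 / 2 < D.re * u.re + D.im * u.im := by linarith
  have hk : 1 ≤ (1 + η / 2) * (D.re * u.re + D.im * u.im) := by
    nlinarith [mul_nonneg (sub_nonneg.2 hη') hη.le]
  have e : dist (s • c + t • y) x ^ 2 = s ^ 2 * (1 + η / 2) ^ 2 +
      2 * (s * t) * ((1 + η / 2) * (D.re * u.re + D.im * u.im)) +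
      t ^ 2 * (D.re * D.re + D.im * D.im) := by
    rw [dist_eq_norm, Complex.real_smul, Complex.real_smul,
      show (s : ℂ) * c + (t : ℂ) * y - x = (s : ℂ) * (c - x) + (t : ℂ) * D by
        have : (s : ℂ) + t = 1 := by exact_mod_cast hst
        rw [hD]; linear_combination x * this, hc, add_sub_cancel_left, Complex.sq_norm,
      Complex.normSq_apply]
    simp only [Complex.add_re, Complex.add_im, Complex.mul_re, Complex.mul_im, Complex.ofReal_re,
      Complex.ofReal_im]
    linear_combination s ^ 2 * (1 + η / 2) ^ 2 * e1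
  have h1 : 1 < dist (s • c + t • y) x ^ 2 := by
    rw [e]
    rcases hs.eq_or_lt with rfl | hs'
    · obtain rfl : t = 1 := by linarith
      linarith
    · nlinarith [mul_le_mul_of_nonneg_left hk (mul_nonneg hs ht),
        mul_le_mul_of_nonneg_left hD1.le (sq_nonneg t), mul_pos (mul_pos hs' hs') hη,
        mul_nonneg (sq_nonneg s) (sq_nonneg η)]
  nlinarith [dist_nonneg (x := s • c + t • y) (y := x)]

variable (E : Fin 5 → Set ℂ) (hE : ∀ i, IsOpen (E i))
  (hB : ∀ i, ∀ y ∈ E i, ∀ z ∈ E i, dist y z ≠ 1)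
  (hR : ∀ i, interior (closure (E i)) = E i)
  (hcl : ∀ x, ∃ i, x ∈ closure (E i))
  (hd : ∀ i j, i ≠ j → Disjoint (E i) (E j))

include hE hB in
/-- Sectors of two colours keep their closures strictly to the two sides near a circle point. -/
lemma sides {x v p : ℂ} {δ : ℝ} {i j : Fin 5} (hδ : 0 < δ) (hi : Sec x v δ ⊆ E i)
    (hj : Sec x (-v) δ ⊆ E j) (hv : ‖v‖ = 1) (hp : ‖p - x‖ = 1) :
    ∃ ρ > 0, ∀ y ∈ ball p ρ,
      ((dist y x - 1) * (conj v * (p - x)).re > 0 → y ∉ closure (E i)) ∧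
      ((dist y x - 1) * (conj v * (p - x)).re < 0 → y ∉ closure (E j)) := by
  obtain ⟨ρ₁, hρ₁, h1⟩ := one_sided E hB hδ hi hv hp
  obtain ⟨ρ₂, hρ₂, h2⟩ := one_sided E hB hδ hj (by simpa using hv) hp
  refine ⟨min ρ₁ ρ₂, lt_min hρ₁ hρ₂, fun y hy => ⟨fun hs hyi => ?_, fun hs hyj => ?_⟩⟩
  · obtain ⟨z, ⟨hz, hzs⟩, hzE⟩ := mem_closure_iff.1 hyi
      (ball p ρ₁ ∩ {z | 0 < (dist z x - 1) * (conj v * (p - x)).re})
      (isOpen_ball.inter (isOpen_lt continuous_const (by fun_prop)))
      ⟨ball_subset_ball (min_le_left _ _) hy, hs⟩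
    rw [mem_ofPred_eq] at hzs
    have := h1 z hz hzE
    rcases lt_trichotomy (conj v * (p - x)).re 0 with h | h | h
    · nlinarith [this.2 h]
    · rw [h] at hzs; simp at hzs
    · nlinarith [this.1 h]
  · obtain ⟨z, ⟨hz, hzs⟩, hzE⟩ := mem_closure_iff.1 hyj
      (ball p ρ₂ ∩ {z | (dist z x - 1) * (conj v * (p - x)).re < 0})
      (isOpen_ball.inter (isOpen_lt (by fun_prop) continuous_const))
      ⟨ball_subset_ball (min_le_right _ _) hy, hs⟩
    rw [mem_ofPred_eq] at hzs
    have := h2 z hz hzE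
    simp only [map_neg, neg_mul, Complex.neg_re, neg_pos, neg_lt_zero] at this
    rcases lt_trichotomy (conj v * (p - x)).re 0 with h | h | h
    · nlinarith [this.1 h]
    · rw [h] at hzs; simp at hzs
    · nlinarith [this.2 h]

include hE hB hR hcl in
/-- An arc with just those two colours keeps each of them on one side of its circle at the
centre. -/
lemma band {x v q : ℂ} {δ : ℝ} {i j : Fin 5} (hδ : 0 < δ) (hi : Sec x v δ ⊆ E i)
    (hj : Sec x (-v) δ ⊆ E j) (hv : ‖v‖ = 1) (hq : ‖q - x‖ = 1)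
    (honly : ∀ m, q ∈ closure (E m) → m = i ∨ m = j) :
    ∃ η > 0, ∀ z ∈ ball x η,
      ((dist z q - 1) * (conj v * (q - x)).re > 0 → z ∉ closure (E i)) ∧
      ((dist z q - 1) * (conj v * (q - x)).re < 0 → z ∉ closure (E j)) := by
  set c := (conj v * (q - x)).re with hc
  obtain ⟨ρ, hρ, hs⟩ := sides E hE hB hδ hi hj hv hq
  obtain ⟨ρ', hρ', hloc⟩ := local_colours E q
  set s₀ := min (min ρ ρ' / 2) (1 / 2) with hs₀
  have hs₀0 : 0 < s₀ := lt_min (half_pos (lt_min hρ hρ')) (by norm_num)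
  refine ⟨s₀ / 2, half_pos hs₀0, fun z hz => ?_⟩
  rw [mem_ball] at hz
  have hbig : min ρ ρ' / 2 < min ρ ρ' := half_lt_self (lt_min hρ hρ')
  -- the points just off the arc on either side
  have side : ∀ r : ℝ, r ≠ 0 → |r| ≤ s₀ → q + (r : ℂ) * (q - x) ∈ ball q (min ρ ρ') ∧
      dist (q + (r : ℂ) * (q - x)) x = 1 + r := by
    intro r _ hr
    constructor
    · rw [mem_ball, dist_eq_norm, add_sub_cancel_left, norm_mul, hq, mul_one, Complex.norm_real,
        Real.norm_eq_abs]
      exact (hr.trans (min_le_left _ _)).trans_lt hbig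
    · rw [dist_eq_norm, show q + (r : ℂ) * (q - x) - x = ((1 + r : ℝ) : ℂ) * (q - x) by
        push_cast; ring, norm_mul, Complex.norm_real, hq, mul_one, Real.norm_eq_abs, abs_of_pos]
      have : s₀ ≤ 1 / 2 := min_le_right _ _
      linarith [(abs_le.1 hr).1]
  have colour : ∀ r : ℝ, r ≠ 0 → |r| ≤ s₀ →
      (r * c < 0 → q + (r : ℂ) * (q - x) ∈ E i) ∧ (0 < r * c → q + (r : ℂ) * (q - x) ∈ E j) := by
    intro r hr0 hr
    obtain ⟨hb, hdist⟩ := side r hr0 hr
    have h := hs _ (ball_subset_ball (min_le_left _ _) hb)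
    rw [hdist, add_sub_cancel_left] at h
    constructor <;> intro hsg <;> refine single E hR hcl fun m hm => ?_ <;>
      rcases honly m (hloc _ (ball_subset_ball (min_le_right _ _) hb) m hm) with rfl | rfl
    exacts [rfl, absurd hm (h.2 hsg), absurd hm (h.1 hsg), rfl]
  -- the one of these points at distance one from `z`
  have find : dist z q ≠ 1 → ∃ r : ℝ, r ≠ 0 ∧ |r| ≤ s₀ ∧ 0 < r * (1 - dist z q) ∧
      dist z (q + (r : ℂ) * (q - x)) = 1 := by
    intro hne
    have hcont : Continuous fun r : ℝ => dist z (q + (r : ℂ) * (q - x)) := by fun_prop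
    have ex : ∀ r : ℝ, |1 + r| - dist z x ≤ dist z (q + (r : ℂ) * (q - x)) ∧
        dist z (q + (r : ℂ) * (q - x)) ≤ dist z x + |1 + r| := by
      intro r
      have hd : dist x (q + (r : ℂ) * (q - x)) = |1 + r| := by
        rw [dist_comm, dist_eq_norm, show q + (r : ℂ) * (q - x) - x = ((1 + r : ℝ) : ℂ) * (q - x) by
          push_cast; ring, norm_mul, Complex.norm_real, hq, mul_one, Real.norm_eq_abs]
      constructor
      · linarith [dist_triangle x z (q + (r : ℂ) * (q - x)), dist_comm x z]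
      · linarith [dist_triangle z x (q + (r : ℂ) * (q - x))]
    have hh : s₀ ≤ 1 / 2 := min_le_right _ _
    rcases lt_or_gt_of_ne hne with h | h
    · have hup : 1 ≤ dist z (q + (s₀ : ℂ) * (q - x)) := by
        have := (ex s₀).1; rw [abs_of_pos (by linarith)] at this; linarith
      obtain ⟨r, hr, hr1⟩ := intermediate_value_Icc hs₀0.le hcont.continuousOn
        (show (1 : ℝ) ∈ Icc _ _ from ⟨by simpa using h.le, hup⟩)
      have hr0 : r ≠ 0 := fun e => by subst e; simp at hr1; linarith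
      exact ⟨r, hr0, by rw [abs_of_nonneg hr.1]; exact hr.2,
        mul_pos (lt_of_le_of_ne hr.1 (Ne.symm hr0)) (by linarith), hr1⟩
    · have hlo : dist z (q + ((-s₀ : ℝ) : ℂ) * (q - x)) ≤ 1 := by
        have := (ex (-s₀)).2; rw [abs_of_pos (by linarith)] at this; linarith
      obtain ⟨r, hr, hr1⟩ := intermediate_value_Icc (show -s₀ ≤ 0 by linarith) hcont.continuousOn
        (show (1 : ℝ) ∈ Icc _ _ from ⟨hlo, by simpa using h.le⟩)
      have hr0 : r ≠ 0 := fun e => by subst e; simp at hr1; linarith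
      exact ⟨r, hr0, by rw [abs_of_nonpos hr.2]; linarith [hr.1],
        mul_pos_of_neg_of_neg (lt_of_le_of_ne hr.2 hr0) (by linarith), hr1⟩
  constructor <;> intro hsg hzm
  all_goals
    obtain ⟨r, hr0, hr, hrs, hr1⟩ := find (fun e => by rw [e] at hsg; simp at hsg)
  · refine not_closure E hE hB ((colour r hr0 hr).1 ?_) (by rw [dist_comm]; exact hr1) hzm
    by_contra h
    push Not at h
    nlinarith [mul_pos hrs hsg, mul_nonneg h (sq_nonneg (dist z q - 1))]
  · refine not_closure E hE hB ((colour r hr0 hr).2 ?_) (by rw [dist_comm]; exact hr1) hzm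
    by_contra h
    push Not at h
    nlinarith [mul_neg_of_pos_of_neg hrs hsg, mul_nonneg (neg_nonneg.2 h) (sq_nonneg (dist z q - 1))]

variable {x : ℂ} {a b c d e : Fin 5}

include hE hB hR hcl hd in
/-- An arc in two unlinked colours gives opposite sectors of the other two. -/
lemma two_sectors (h4 : Four E x a b c d e) {i j k l : Fin 5}
    (hperm : ∀ m, x ∈ closure (E m) → m = i ∨ m = j ∨ m = k ∨ m = l) (hkl : k ≠ l)
    (hk : x ∈ closure (E k)) (hl : x ∈ closure (E l))
    (hunl : ¬ Linked (fun i => closure (E i)) x k l) {u : ℂ} (hu : ‖u‖ = 1) {ε : ℝ} (hε : 0 < ε)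
    (hi : sphere x 1 ∩ ball (x + u) ε ⊆ closure (E i))
    (hj : sphere x 1 ∩ ball (x + u) ε ⊆ closure (E j)) :
    ∃ v, ‖v‖ = 1 ∧ (conj v * u).re = 0 ∧
      ∃ δ > 0, Sec x v δ ⊆ E k ∧ Sec x (-v) δ ⊆ E l := by
  obtain ⟨δ₁, hδ₁, hsi⟩ := sec_avoid E hE hB hu hε hi
  obtain ⟨δ₂, hδ₂, hsj⟩ := sec_avoid E hE hB hu hε hj
  obtain ⟨ρ, hρ, hloc⟩ := local_colours E x
  simp only [Linked, not_forall, not_exists, not_and] at hunl
  obtain ⟨η, hη, hno⟩ := hunl
  set δ := min (min δ₁ δ₂) (min ρ η)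
  have hδ : 0 < δ := lt_min (lt_min hδ₁ hδ₂) (lt_min hρ hη)
  have hv0 : ∀ v, (v = I * u ∨ v = -(I * u)) → Sec x v δ ⊆ E k ∨ Sec x v δ ⊆ E l := by
    intro v hv
    refine mono E hR (x := x) (η := η) (fun C h1 h2 => Set.not_nontrivial_iff.1 (hno C h1 h2))
      (isOpen_sec _ _ _) (convex_sec _ _ _).isPreconnected
      (fun z hz => mem_closedBall.2 (hz.1.le.trans ((min_le_right _ _).trans (min_le_right _ _))))
      fun z hz => ?_
    obtain ⟨m, hm⟩ := hcl z
    have hzx := hloc z (mem_ball.2 (hz.1.trans_le ((min_le_right _ _).trans (min_le_left _ _)))) m hm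
    rcases hperm m hzx with rfl | rfl | rfl | rfl
    · exact absurd hm (hsi v hv z (sec_mono ((min_le_left _ _).trans (min_le_left _ _)) hz))
    · exact absurd hm (hsj v hv z (sec_mono ((min_le_left _ _).trans (min_le_right _ _)) hz))
    · exact Or.inl hm
    · exact Or.inr hm
  have hperp : (conj (I * u) * u).re = 0 ∧ (conj (-(I * u)) * u).re = 0 := by
    constructor <;> simp <;> ring
  have hn : ‖I * u‖ = 1 := by simp [hu]
  have nosame : ∀ g, Sec x (I * u) δ ⊆ E g → Sec x (-(I * u)) δ ⊆ E g → False := by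
    intro g h1 h2
    obtain ⟨y, hy, hyg⟩ := h4.meets g
    exact absent E hE hB hδ h1 h2 hn (by rw [← dist_eq_norm]; exact mem_sphere.1 hy) hyg
  rcases hv0 _ (Or.inl rfl) with h1 | h1 <;> rcases hv0 _ (Or.inr rfl) with h2 | h2
  · exact (nosame k h1 h2).elim
  · exact ⟨I * u, hn, hperp.1, δ, hδ, h1, h2⟩
  · exact ⟨-(I * u), by simpa using hn, hperp.2, δ, hδ, h2, by rwa [neg_neg]⟩
  · exact (nosame l h1 h2).elim

end Vale.Agent.P032
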