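import Vale.Agent.P032.FiveClass

/-!
A point which is not a star has four classes, linked along a path, and every colour meets its circle.
-/

namespace Vale.Agent.P032

open Metric Set Complex

lemma linked_symm {F : Fin 5 → Set ℂ} {x : ℂ} {p q : Fin 5} (h : Linked F x p q) :
    Linked F x q p := by
  simpa only [Linked, inter_comm (F q) (F p)] using h

/-- Four classes at a point, linked along the path `a c b d` and without triangles, all colours
present on the circle. -/
structure Four (E : Fin 5 → Set ℂ) (x : ℂ) (a b c d e : Fin 5) : Prop where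
  hall : ∀ i, i = a ∨ i = b ∨ i = c ∨ i = d ∨ i = e
  hne : a ≠ b ∧ a ≠ c ∧ a ≠ d ∧ a ≠ e ∧ b ≠ c ∧ b ≠ d ∧ b ≠ e ∧ c ≠ d ∧ c ≠ e ∧ d ≠ e
  ha : x ∈ closure (E a)
  hb : x ∈ closure (E b)
  hc : x ∈ closure (E c)
  hd : x ∈ closure (E d)
  he : x ∉ closure (E e)
  ac : Linked (fun i => closure (E i)) x a c
  cb : Linked (fun i => closure (E i)) x c b
  bd : Linked (fun i => closure (E i)) x b d
  ab : ¬ Linked (fun i => closure (E i)) x a b
  cd : ¬ Linked (fun i => closure (E i)) x c d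
  meets : ∀ g, ∃ p ∈ sphere x 1, p ∈ closure (E g)

/-- The mirror image of the path. -/
lemma Four.mirror {E : Fin 5 → Set ℂ} {x : ℂ} {a b c d e : Fin 5} (h : Four E x a b c d e) :
    Four E x d c b a e where
  hall i := by have := h.hall i; tauto
  hne := by
    obtain ⟨h1, h2, h3, h4, h5, h6, h7, h8, h9, h10⟩ := h.hne
    exact ⟨h8.symm, h6.symm, h3.symm, h10, h5.symm, h2.symm, h9, h1.symm, h7, h4⟩
  ha := h.hd
  hb := h.hc
  hc := h.hb
  hd := h.ha
  he := h.he
  ac := linked_symm h.bd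
  cb := linked_symm h.cb
  bd := linked_symm h.ac
  ab := fun l => h.cd (linked_symm l)
  cd := fun l => h.ab (linked_symm l)
  meets := h.meets

variable (E : Fin 5 → Set ℂ) (hE : ∀ i, IsOpen (E i))
  (hB : ∀ i, ∀ y ∈ E i, ∀ z ∈ E i, dist y z ≠ 1)
  (hR : ∀ i, interior (closure (E i)) = E i)
  (hcl : ∀ x, ∃ i, x ∈ closure (E i))
  (hd : ∀ i j, i ≠ j → Disjoint (E i) (E j))

include hE hB hR hcl hd in
/-- A linked pair and a further colour absent from the circle do not occur together. -/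
lemma absent_linked {x : ℂ} {p q g : Fin 5} (hpq : p ≠ q) (hgp : g ≠ p) (hgq : g ≠ q)
    (hxp : x ∈ closure (E p)) (hxq : x ∈ closure (E q))
    (hl : Linked (fun i => closure (E i)) x p q)
    (hg : ∀ y ∈ sphere x 1, y ∉ closure (E g)) : False := by
  have split : ∀ a b c : Fin 5, a ≠ b → c ≠ a → c ≠ b → ∃ r s : Fin 5,
      ∀ i, i = r ∨ i = s ∨ i = a ∨ i = b ∨ i = c := by decide
  obtain ⟨r, s, hall⟩ := split p q g hpq hgp hgq
  have three : ∀ i, i ≠ r → i ≠ s → i = p ∨ i = q ∨ i = g := fun i h1 h2 =>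
    ((hall i).resolve_left h1).resolve_left h2
  have hcov : sphere x 1 ⊆ closure (E r) ∪ closure (E s) := by
    refine cover_two E hE hB hR hcl (r := r) (s := s) ?_ ?_ ?_
    · intro i h1 h2
      rcases three i h1 h2 with rfl | rfl | rfl
      exacts [Or.inl hxp, Or.inl hxq, Or.inr hg]
    · intro i j hij i1 i2 j1 j2 _ _ hi hj
      obtain ⟨y, hy, hyi⟩ := hi
      obtain ⟨y', hy', hyj⟩ := hj
      rcases three i i1 i2 with rfl | rfl | rfl <;> rcases three j j1 j2 with rfl | rfl | rfl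
      exacts [absurd rfl hij, hl, absurd hyj (hg _ hy'), linked_symm hl, absurd rfl hij,
        absurd hyj (hg _ hy'), absurd hyi (hg _ hy), absurd hyi (hg _ hy), absurd rfl hij]
    · intro y hy ε hε i j k hij hik hjk i1 i2 j1 j2 k1 k2 h
      have : i = g ∨ j = g ∨ k = g := by
        rcases three i i1 i2 with rfl | rfl | rfl <;> rcases three j j1 j2 with rfl | rfl | rfl <;>
          rcases three k k1 k2 with rfl | rfl | rfl <;> simp_all
      rcases this with rfl | rfl | rfl
      exacts [hg y hy (h _ (Or.inl rfl) ⟨hy, mem_ball_self hε⟩),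
        hg y hy (h _ (Or.inr (Or.inl rfl)) ⟨hy, mem_ball_self hε⟩),
        hg y hy (h _ (Or.inr (Or.inr rfl)) ⟨hy, mem_ball_self hε⟩)]
  exact pipe E hE hB hR hcl hall (five_absent E hE hB hR hcl hd) hcov hxp hxq hl (Or.inr hg)

include hE hB hR hcl hd in
/-- Three pairwise linked colours do not occur. -/
lemma no_triangle {x : ℂ} {a b c : Fin 5} (hab : a ≠ b) (hac : a ≠ c) (hbc : b ≠ c)
    (ha : x ∈ closure (E a)) (hb : x ∈ closure (E b)) (hc : x ∈ closure (E c))
    (lab : Linked (fun i => closure (E i)) x a b) (lac : Linked (fun i => closure (E i)) x a c)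
    (lbc : Linked (fun i => closure (E i)) x b c) : False := by
  have split : ∀ a b c : Fin 5, a ≠ b → a ≠ c → b ≠ c → ∃ d e : Fin 5, d ≠ a ∧ d ≠ b ∧ e ≠ a ∧
      e ≠ b ∧ ∀ i, i = d ∨ i = e ∨ i = a ∨ i = b ∨ i = c := by decide
  obtain ⟨d, e, hda, hdb, hea, heb, hall⟩ := split a b c hab hac hbc
  have noabs : ∀ g, (∀ y ∈ sphere x 1, y ∉ closure (E g)) → False := by
    intro g hg
    rcases eq_or_ne g a with rfl | h1
    · exact absent_linked E hE hB hR hcl hd hbc hab hac hb hc lbc hg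
    rcases eq_or_ne g b with rfl | h2
    · exact absent_linked E hE hB hR hcl hd hac hab.symm hbc ha hc lac hg
    exact absent_linked E hE hB hR hcl hd hab h1 h2 ha hb lab hg
  have hcov : sphere x 1 ⊆ closure (E d) ∪ closure (E e) := by
    have three : ∀ i, i ≠ d → i ≠ e → i = a ∨ i = b ∨ i = c := fun i h1 h2 =>
      ((hall i).resolve_left h1).resolve_left h2
    refine cover_two E hE hB hR hcl (r := d) (s := e) ?_ ?_ ?_
    · intro i h1 h2
      rcases three i h1 h2 with rfl | rfl | rfl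
      exacts [Or.inl ha, Or.inl hb, Or.inl hc]
    · intro i j hij i1 i2 j1 j2 _ _ _ _
      rcases three i i1 i2 with rfl | rfl | rfl <;> rcases three j j1 j2 with rfl | rfl | rfl
      exacts [absurd rfl hij, lab, lac, linked_symm lab, absurd rfl hij, lbc, linked_symm lac,
        linked_symm lbc, absurd rfl hij]
    · intro q hq ε hε i j k hij hik hjk i1 i2 j1 j2 k1 k2 h
      have hq' : ‖q - x‖ = 1 := by rw [← dist_eq_norm]; exact mem_sphere.1 hq
      have hm : ∀ m, m = a ∨ m = b ∨ m = c → sphere x 1 ∩ ball (x + (q - x)) ε ⊆ closure (E m) := by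
        intro m hm
        rw [add_sub_cancel]
        refine h m ?_
        rcases three i i1 i2 with rfl | rfl | rfl <;> rcases three j j1 j2 with rfl | rfl | rfl <;>
          rcases three k k1 k2 with rfl | rfl | rfl <;> tauto
      by_cases hd' : x ∈ closure (E d)
      · by_cases he' : x ∈ closure (E e)
        · obtain ⟨g, hg⟩ := five_absent E hE hB hR hcl hd x (fun i => by
            rcases hall i with rfl | rfl | rfl | rfl | rfl <;> assumption)
          exact noabs g hg
        · refine noabs d (union_absent E hE hB hR hcl hq' hε fun i hi hid => Or.inl (hm i ?_)).2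
          exact ((hall i).resolve_left hid).resolve_left fun e' => he' (e' ▸ hi)
      · refine noabs e (union_absent E hE hB hR hcl hq' hε fun i hi hie => Or.inl (hm i ?_)).2
        exact ((hall i).resolve_left fun e' => hd' (e' ▸ hi)).resolve_left hie
  exact pipe E hE hB hR hcl hall (five_absent E hE hB hR hcl hd) hcov ha hb lab
    (Or.inl ⟨hc, lac, lbc⟩)

include hE hB hR hcl hd in
/-- A point which is not a star has four classes linked along a path. -/
theorem four_of_nonstar {x : ℂ}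
    (h3 : ∃ a b c, a ≠ b ∧ b ≠ c ∧ a ≠ c ∧ x ∈ closure (E a) ∧ x ∈ closure (E b) ∧
      x ∈ closure (E c))
    (hs : ¬ Star (fun i => closure (E i)) x) : ∃ a b c d e, Four E x a b c d e := by
  simp only [Star, not_exists, not_forall] at hs
  have edge : ∀ g, ∃ p q, x ∈ closure (E p) ∧ x ∈ closure (E q) ∧ p ≠ q ∧
      Linked (fun i => closure (E i)) x p q ∧ p ≠ g ∧ q ≠ g := by
    intro g
    obtain ⟨p, q, hp, hq, hpq, hl, h⟩ := hs g
    rw [not_or] at h
    exact ⟨p, q, hp, hq, hpq, hl, h.1, h.2⟩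
  have meets : ∀ g, ∃ y ∈ sphere x 1, y ∈ closure (E g) := by
    intro g
    by_contra hn
    push Not at hn
    obtain ⟨p, q, hp, hq, hpq, hl, h1, h2⟩ := edge g
    exact absent_linked E hE hB hR hcl hd hpq h1.symm h2.symm hp hq hl hn
  obtain ⟨e, he⟩ : ∃ e, x ∉ closure (E e) := by
    by_contra hn
    push Not at hn
    obtain ⟨g, hg⟩ := five_absent E hE hB hR hcl hd x hn
    obtain ⟨y, hy, hyg⟩ := meets g
    exact hg y hy hyg
  have notri := fun (a b c : Fin 5) (h1 : a ≠ b) (h2 : a ≠ c) (h3 : b ≠ c) =>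
    no_triangle E hE hB hR hcl hd (x := x) h1 h2 h3
  -- a path of three, then one of four
  obtain ⟨p, q, hp, hq, hpq, lpq, -, -⟩ := edge e
  obtain ⟨k, hkp, hkq, hk⟩ : ∃ k, k ≠ p ∧ k ≠ q ∧ x ∈ closure (E k) := by
    obtain ⟨a, b, c, hab, hbc, hac, ha, hb, hc⟩ := h3
    by_contra hn
    push Not at hn
    rcases eq_or_ne a p with rfl | a1
    · rcases eq_or_ne b q with rfl | b1
      · exact hn c hac.symm hbc.symm hc
      · exact hn b hab.symm b1 hb
    rcases eq_or_ne a q with rfl | a2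
    · rcases eq_or_ne b p with rfl | b1
      · exact hn c hbc.symm hac.symm hc
      · exact hn b b1 hab.symm hb
    exact hn a a1 a2 ha
  obtain ⟨i, r, hi, hr, hxi, hxr, lir⟩ := linked_connected E hE hcl hd (x := x)
    (fun i => i = p ∨ i = q) (Or.inl rfl) (not_or.2 ⟨hkp, hkq⟩) hp hk
  rw [not_or] at hr
  obtain ⟨u, v, huv, hu, hv, huvr, luv, lvr⟩ : ∃ u v, u ≠ v ∧ x ∈ closure (E u) ∧
      x ∈ closure (E v) ∧ (r ≠ u ∧ r ≠ v) ∧ Linked (fun i => closure (E i)) x u v ∧
      Linked (fun i => closure (E i)) x v r := by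
    rcases hi with rfl | rfl
    · exact ⟨q, i, hpq.symm, hq, hxi, ⟨hr.2, hr.1⟩, linked_symm lpq, lir⟩
    · exact ⟨p, i, hpq, hp, hxi, hr, lpq, lir⟩
  obtain ⟨s, t, hxs, hxt, hst, lst, hsv, htv⟩ := edge v
  have five : ∀ u v r w e : Fin 5, u ≠ v → u ≠ r → v ≠ r → w ≠ u → w ≠ v → w ≠ r → e ≠ u → e ≠ v →
      e ≠ r → e ≠ w → ∀ i, i = u ∨ i = v ∨ i = r ∨ i = w ∨ i = e := by decide
  have step : ∀ w, x ∈ closure (E w) → w ≠ v → w ≠ u → w ≠ r →
      (Linked (fun i => closure (E i)) x u w ∨ Linked (fun i => closure (E i)) x r w) →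
      ∃ a b c d e, Four E x a b c d e := by
    intro w hw wv wu wr hl
    have ne : ∀ i, x ∈ closure (E i) → e ≠ i := fun i hi h => he (h ▸ hi)
    have hall := five u v r w e huv huvr.1.symm huvr.2.symm wu wv wr (ne u hu) (ne v hv) (ne r hxr)
      (ne w hw)
    rcases hl with l | l
    · exact ⟨w, v, u, r, e, fun i => by have := hall i; tauto,
        ⟨wv, wu, wr, (ne w hw).symm, huv.symm, huvr.2.symm, (ne v hv).symm, huvr.1.symm,
          (ne u hu).symm, (ne r hxr).symm⟩,
        hw, hv, hu, hxr, he, linked_symm l, luv, lvr,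
        fun h => notri w u v wu wv huv hw hu hv (linked_symm l) h luv,
        fun h => notri u v r huv huvr.1.symm huvr.2.symm hu hv hxr luv h lvr, meets⟩
    · exact ⟨u, r, v, w, e, fun i => by have := hall i; tauto,
        ⟨huvr.1.symm, huv, wu.symm, (ne u hu).symm, huvr.2, wr.symm, (ne r hxr).symm, wv.symm,
          (ne v hv).symm, (ne w hw).symm⟩,
        hu, hxr, hv, hw, he, luv, lvr, l,
        fun h => notri u v r huv huvr.1.symm huvr.2.symm hu hv hxr luv h lvr,
        fun h => notri v r w huvr.2.symm wv.symm wr.symm hv hxr hw lvr h l, meets⟩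
  rcases eq_or_ne s u with rfl | su
  · refine step t hxt htv hst.symm (fun h => ?_) (Or.inl lst)
    exact notri s v r huv huvr.1.symm huvr.2.symm hu hv hxr luv (h ▸ lst) lvr
  rcases eq_or_ne s r with rfl | sr
  · refine step t hxt htv (fun h => ?_) hst.symm (Or.inr lst)
    exact notri u v s huv huvr.1.symm huvr.2.symm hu hv hxr luv (linked_symm (h ▸ lst)) lvr
  refine step s hxs hsv su sr ?_
  rcases eq_or_ne t u with rfl | tu
  · exact Or.inl (linked_symm lst)
  rcases eq_or_ne t r with rfl | tr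
  · exact Or.inr (linked_symm lst)
  exfalso
  have ne : ∀ i, x ∈ closure (E i) → e ≠ i := fun i hi h => he (h ▸ hi)
  rcases five u v r s e huv huvr.1.symm huvr.2.symm su hsv sr (ne u hu) (ne v hv) (ne r hxr)
    (ne s hxs) t with h | h | h | h | h
  exacts [tu h, htv h, tr h, hst h.symm, ne t hxt h.symm]

variable {x : ℂ} {a b c d e : Fin 5}

include hE hB hR hcl in
/-- Opposite arcs carry at most two of the four colours. -/
lemma no_three (h4 : Four E x a b c d e) {u : ℂ} (hu : ‖u‖ = 1) {ε : ℝ} (hε : 0 < ε)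
    {i j k : Fin 5} (hij : i ≠ j) (hik : i ≠ k) (hjk : j ≠ k) (hie : i ≠ e) (hje : j ≠ e)
    (hke : k ≠ e)
    (h : ∀ m, m = i ∨ m = j ∨ m = k → sphere x 1 ∩ ball (x + u) ε ⊆ closure (E m) ∨
      sphere x 1 ∩ ball (x + -u) ε ⊆ closure (E m)) : False := by
  have five : ∀ i j k e : Fin 5, i ≠ j → i ≠ k → j ≠ k → i ≠ e → j ≠ e → k ≠ e →
      ∃ g, ∀ m, m = g ∨ m = e ∨ m = i ∨ m = j ∨ m = k := by decide
  obtain ⟨g, hg⟩ := five i j k e hij hik hjk hie hje hke
  obtain ⟨y, hy, hyg⟩ := h4.meets g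
  refine (union_absent E hE hB hR hcl hu hε fun m hm hmg => h m ?_).2 y hy hyg
  exact ((hg m).resolve_left hmg).resolve_left fun e' => h4.he (e' ▸ hm)

include hE hB hR hcl in
/-- The labels outside the fifth colour. -/
lemma label_cases (h4 : Four E x a b c d e) {p : ℂ} (hp : p ∈ sphere x 1)
    (hpe : p ∉ closure (E e)) : (p ∈ closure (E a) ∧ p ∈ closure (E b)) ∨
      (p ∈ closure (E c) ∧ p ∈ closure (E d)) ∨
      (¬ Linked (fun i => closure (E i)) x a d ∧ p ∈ closure (E a) ∧ p ∈ closure (E d)) := by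
  obtain ⟨ρ, hρ, hρe⟩ := Metric.isOpen_iff.1 isClosed_closure.isOpen_compl p hpe
  set T : Set ℂ := closure (E a) ∩ closure (E b) ∪ closure (E c) ∩ closure (E d) ∪
    {y | ¬ Linked (fun i => closure (E i)) x a d ∧ y ∈ closure (E a) ∧ y ∈ closure (E d)} with hT
  have hTc : IsClosed T := by
    refine ((isClosed_closure.inter isClosed_closure).union
      (isClosed_closure.inter isClosed_closure)).union ?_
    by_cases h : Linked (fun i => closure (E i)) x a d
    · simp [h]
    · simp only [h, not_false_eq_true, true_and]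
      exact isClosed_closure.inter isClosed_closure
  suffices p ∈ T by
    rcases this with (h | h) | h
    exacts [Or.inl h, Or.inr (Or.inl h), Or.inr (Or.inr h)]
  refine hTc.closure_subset (Metric.mem_closure_iff.2 fun η hη => ?_)
  obtain ⟨q, hq, ε', hε', hsub, hgen⟩ := generic E hp (lt_min hη hρ)
  refine ⟨q, ?_, mem_ball'.1 (ball_subset_ball (min_le_left _ _) hq.2)⟩
  have hqe : q ∉ closure (E e) := hρe (ball_subset_ball (min_le_right _ _) hq.2)
  obtain ⟨εq, hεq, hlocq⟩ := local_colours E q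
  have hxm : ∀ m, q ∈ closure (E m) → x ∈ closure (E m) ∧ m ≠ e := fun m hm => by
    have hme : m ≠ e := fun h => hqe (h ▸ hm)
    rcases h4.hall m with rfl | rfl | rfl | rfl | rfl
    exacts [⟨h4.ha, hme⟩, ⟨h4.hb, hme⟩, ⟨h4.hc, hme⟩, ⟨h4.hd, hme⟩, absurd rfl hme]
  obtain ⟨i, hi⟩ := hcl q
  obtain ⟨j, hji, hj⟩ : ∃ j, j ≠ i ∧ q ∈ closure (E j) := by
    by_contra hno
    push Not at hno
    exact label_two E hE hB hR hcl hq.1 (hxm i hi).1 fun j hj => by_contra fun h => hno j h hj
  have only : ∀ k, q ∈ closure (E k) → k = i ∨ k = j := by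
    intro k hk
    by_contra hh
    push Not at hh
    refine no_three E hE hB hR hcl h4 (u := q - x)
      (by rw [← dist_eq_norm]; exact mem_sphere.1 hq.1) hε' hji.symm hh.1.symm hh.2.symm
      (hxm i hi).2 (hxm j hj).2 (hxm k hk).2 fun m hm => Or.inl fun z hz => (hgen z ?_ m).2 ?_
    · rwa [add_sub_cancel] at hz
    · rcases hm with rfl | rfl | rfl <;> assumption
  have nl : ∀ k l, ((k = i ∧ l = j) ∨ (k = j ∧ l = i)) →
      ¬ Linked (fun i => closure (E i)) x k l := by
    rintro k l (⟨rfl, rfl⟩ | ⟨rfl, rfl⟩) hl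
    · exact no_pair_arc E hE hB hcl (mem_sphere.1 hq.1) hεq (i := k) (j := l)
        (fun z hz m hm => only m (hlocq z hz m hm)) hl
    · exact no_pair_arc E hE hB hcl (mem_sphere.1 hq.1) hεq (i := l) (j := k)
        (fun z hz m hm => only m (hlocq z hz m hm)) (linked_symm hl)
  have n1 := nl i j (Or.inl ⟨rfl, rfl⟩)
  have n2 := nl j i (Or.inr ⟨rfl, rfl⟩)
  have hie := (hxm i hi).2
  have hje := (hxm j hj).2
  clear nl only hgen hxm
  rcases h4.hall i with rfl | rfl | rfl | rfl | rfl <;>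
    rcases h4.hall j with rfl | rfl | rfl | rfl | rfl
  all_goals first
    | exact absurd rfl hji
    | exact absurd rfl hie
    | exact absurd rfl hje
    | exact absurd h4.ac n1
    | exact absurd h4.ac n2
    | exact absurd h4.cb n1
    | exact absurd h4.cb n2
    | exact absurd h4.bd n1
    | exact absurd h4.bd n2
    | exact Or.inl (Or.inl ⟨hi, hj⟩)
    | exact Or.inl (Or.inl ⟨hj, hi⟩)
    | exact Or.inl (Or.inr ⟨hi, hj⟩)
    | exact Or.inl (Or.inr ⟨hj, hi⟩)
    | exact Or.inr ⟨n1, hi, hj⟩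
    | exact Or.inr ⟨n2, hj, hi⟩

end Vale.Agent.P032
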