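import Mathlib.Topology.Separation.Profinite
import Mathlib.Topology.MetricSpace.Thickening
import Mathlib.Analysis.Complex.Basic
import Mathlib.Logic.Relation

/-!
Chains of short steps in totally disconnected compact sets of the plane stay short.
-/

namespace Vale.Agent.P032

open Metric Set Relation

/-- One step of length less than `η` inside `X`. -/
def Step (X : Set ℂ) (η : ℝ) (x y : ℂ) : Prop := x ∈ X ∧ y ∈ X ∧ dist x y < η

/-- Chains of sufficiently short steps in `X` are short. -/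
def Small (X : Set ℂ) : Prop :=
  ∀ δ > 0, ∃ η > 0, ∀ x y, ReflTransGen (Step X η) x y → dist x y < δ

lemma small_of_totallyDisconnected {X : Set ℂ} (hX : IsCompact X) (ht : IsTotallyDisconnected X) :
    Small X := by
  intro δ hδ
  have : CompactSpace X := isCompact_iff_compactSpace.1 hX
  have : TotallyDisconnectedSpace X := totallyDisconnectedSpace_subtype_iff.2 ht
  have hloc : ∀ x : X, ∃ V : Set X, IsClopen V ∧ x ∈ V ∧ V ⊆ ball x (δ / 2) := fun x =>
    compact_exists_isClopen_in_isOpen isOpen_ball (mem_ball_self (half_pos hδ))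
  choose V hV hxV hVb using hloc
  obtain ⟨s, hs⟩ := isCompact_univ.elim_finite_subcover V (fun x => (hV x).isOpen)
    fun x _ => mem_iUnion.2 ⟨x, hxV x⟩
  have gap : ∀ i : X, ∃ η : ℝ, 0 < η ∧ ∀ x ∈ V i, ∀ y : X, dist x y < η → y ∈ V i := by
    intro i
    obtain ⟨η, hη, hsub⟩ := IsCompact.exists_thickening_subset_open (hV i).isClosed.isCompact (hV i).isOpen
      subset_rfl
    exact ⟨η, hη, fun x hx y hy => hsub (mem_thickening_iff.2 ⟨x, hx, by rwa [dist_comm]⟩)⟩
  choose g hg0 hg using gap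
  obtain ⟨η, hη, hηg⟩ : ∃ η : ℝ, 0 < η ∧ ∀ i ∈ s, η ≤ g i := by
    rcases s.eq_empty_or_nonempty with rfl | hne
    · exact ⟨1, one_pos, by simp⟩
    · obtain ⟨i, hi, him⟩ := s.exists_min_image g hne
      exact ⟨g i, hg0 i, him⟩
  refine ⟨η, hη, fun x y hxy => ?_⟩
  rcases eq_or_ne x y with rfl | hne
  · simpa using hδ
  obtain ⟨_, ⟨hx, -, -⟩, -⟩ := (ReflTransGen.cases_head hxy).resolve_left hne
  obtain ⟨i, hi, hxi⟩ := mem_iUnion₂.1 (hs (mem_univ (⟨x, hx⟩ : X)))
  have stay : ∀ z, ReflTransGen (Step X η) x z → ∃ hz : z ∈ X, (⟨z, hz⟩ : X) ∈ V i := by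
    intro z hz
    induction hz with
    | refl => exact ⟨hx, hxi⟩
    | @tail b c _ hbc ih =>
      obtain ⟨hb, hbi⟩ := ih
      exact ⟨hbc.2.1, hg i _ hbi _ (lt_of_lt_of_le hbc.2.2 (hηg i hi))⟩
  obtain ⟨hy, hyi⟩ := stay y hxy
  have h1 := mem_ball.1 (hVb i hxi)
  have h2 := mem_ball.1 (hVb i hyi)
  rw [Subtype.dist_eq] at h1 h2
  linarith [dist_triangle_right x y (i : ℂ)]

lemma small_empty : Small (∅ : Set ℂ) := fun δ hδ => ⟨1, one_pos, fun x y h => by
  rcases ReflTransGen.cases_head h with rfl | ⟨_, ⟨hx, -, -⟩, -⟩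
  · simpa using hδ
  · exact absurd hx (notMem_empty x)⟩

lemma Small.union {X Y : Set ℂ} (hX : Small X) (hY : Small Y) : Small (X ∪ Y) := by
  intro δ hδ
  obtain ⟨η₁, hη₁, h₁⟩ := hX (δ / 4) (by linarith)
  set δ' := min (δ / 8) (η₁ / 4) with hδ'
  have hd' : 0 < δ' := lt_min (by linarith) (by linarith)
  obtain ⟨η₂, hη₂, h₂⟩ := hY δ' hd'
  set η := min η₂ δ' with hη
  refine ⟨η, lt_min hη₂ hd', fun x y hxy => ?_⟩
  -- either no point of `X` was met, or the chain is short up to a point of `X`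
  have inv : ∀ z, ReflTransGen (Step (X ∪ Y) η) x z →
      ((z ∈ Y ∨ z = x) ∧ x ∉ X ∧ ReflTransGen (Step Y η₂) x z) ∨
        ∃ a b, a ∈ X ∧ b ∈ X ∧ dist x a < δ' + η ∧ ReflTransGen (Step X η₁) a b ∧
          (z = b ∨ ∃ y', y' ∈ Y ∧ z ∈ Y ∧ dist b y' < η ∧ ReflTransGen (Step Y η₂) y' z) := by
    intro z hz
    induction hz with
    | refl =>
      by_cases hxX : x ∈ X
      · exact Or.inr ⟨x, x, hxX, hxX, by
          simp only [dist_self]
          linarith [lt_min hη₂ hd'], .refl, Or.inl rfl⟩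
      · exact Or.inl ⟨Or.inr rfl, hxX, .refl⟩
    | @tail z w _ hzw ih =>
      have hle : dist z w < η₂ := hzw.2.2.trans_le (min_le_left _ _)
      rcases ih with ⟨hzY, hxX, hch⟩ | ⟨a, b, ha, hb, hxa, hab, hbz⟩
      · have hzY' : z ∈ Y := by
          rcases hzY with h | rfl
          · exact h
          · exact hzw.1.resolve_left hxX
        by_cases hw : w ∈ X
        · refine Or.inr ⟨w, w, hw, hw, ?_, .refl, Or.inl rfl⟩
          linarith [dist_triangle x z w, h₂ x z hch, hzw.2.2]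
        · exact Or.inl ⟨Or.inl (hzw.2.1.resolve_left hw), hxX,
            hch.tail ⟨hzY', hzw.2.1.resolve_left hw, hle⟩⟩
      · refine Or.inr ?_
        by_cases hw : w ∈ X
        · refine ⟨a, w, ha, hw, hxa, hab.tail ⟨hb, hw, ?_⟩, Or.inl rfl⟩
          have hη' : η ≤ δ' := min_le_right _ _
          have hd4 : δ' ≤ η₁ / 4 := min_le_right _ _
          rcases hbz with rfl | ⟨y', -, -, hby, hyz⟩
          · linarith [hzw.2.2]
          · linarith [dist_triangle4 b y' z w, h₂ y' z hyz, hzw.2.2]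
        · have hwY : w ∈ Y := hzw.2.1.resolve_left hw
          refine ⟨a, b, ha, hb, hxa, hab, Or.inr ?_⟩
          rcases hbz with rfl | ⟨y', hy', hzY, hby, hyz⟩
          · exact ⟨w, hwY, hwY, hzw.2.2, .refl⟩
          · exact ⟨y', hy', hwY, hby, hyz.tail ⟨hzY, hwY, hle⟩⟩
  have hη' : η ≤ δ' := min_le_right _ _
  have hd8 : δ' ≤ δ / 8 := min_le_left _ _
  rcases inv y hxy with ⟨-, -, h⟩ | ⟨a, b, -, -, hxa, hab, rfl | ⟨y', -, -, hby, hyz⟩⟩
  · linarith [h₂ x y h]
  · linarith [dist_triangle x a y, h₁ a y hab]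
  · linarith [dist_triangle4 x a b y, dist_triangle b y' y, h₁ a b hab, h₂ y' y hyz]

lemma small_biUnion {ι : Type*} (s : Finset ι) (X : ι → Set ℂ) (h : ∀ i ∈ s, Small (X i)) :
    Small (⋃ i ∈ s, X i) := by
  classical
  induction s using Finset.induction with
  | empty => simpa using small_empty
  | insert a s _ ih =>
    rw [Finset.set_biUnion_insert]
    exact (h a (Finset.mem_insert_self a s)).union
      (ih fun i hi => h i (Finset.mem_insert_of_mem hi))

/-- Points close to three closed sets, two of which meet a compact set, are near a common point. -/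
lemma near_inter {K A B C : Set ℂ} (hK : IsCompact K) (hA : IsClosed A) (hB : IsClosed B)
    (hC : IsClosed C) {r : ℝ} (hr : 0 < r) :
    ∃ ρ > 0, ∀ p ∈ K, p ∈ A → ∀ q ∈ B, ∀ s ∈ C, dist p q < ρ → dist p s < ρ →
      ∃ z, z ∈ A ∧ z ∈ B ∧ z ∈ C ∧ dist p z < r := by
  set K' := (K ∩ A) ∩ {p | ∀ z, z ∈ A → z ∈ B → z ∈ C → r ≤ dist p z} with hK'
  have hcl : IsClosed {p : ℂ | ∀ z, z ∈ A → z ∈ B → z ∈ C → r ≤ dist p z} := by
    simp only [ofPred_forall]
    exact isClosed_iInter fun z => isClosed_iInter fun _ => isClosed_iInter fun _ =>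
      isClosed_iInter fun _ => isClosed_le continuous_const (by fun_prop)
  by_cases hne : K'.Nonempty ∧ B.Nonempty ∧ C.Nonempty
  · obtain ⟨hne, hnb, hnc⟩ := hne
    obtain ⟨p₀, hp₀, hmin⟩ := ((hK.inter_right hA).inter_right hcl).exists_isMinOn hne
      (f := fun p => infDist p B + infDist p C)
      ((continuous_infDist_pt _).add (continuous_infDist_pt _)).continuousOn
    have hpos : 0 < infDist p₀ B + infDist p₀ C := by
      by_contra hle
      have n1 := infDist_nonneg (x := p₀) (s := B)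
      have n2 := infDist_nonneg (x := p₀) (s := C)
      have := hp₀.2 p₀ hp₀.1.2 ((hB.mem_iff_infDist_zero hnb).2 (by linarith))
        ((hC.mem_iff_infDist_zero hnc).2 (by linarith))
      rw [dist_self] at this
      linarith
    refine ⟨(infDist p₀ B + infDist p₀ C) / 2, half_pos hpos,
      fun p hpK hpA q hq s hs h1 h2 => ?_⟩
    by_contra hcon
    push Not at hcon
    have := isMinOn_iff.1 hmin p ⟨⟨hpK, hpA⟩, hcon⟩
    linarith [infDist_le_dist_of_mem (x := p) hq, infDist_le_dist_of_mem (x := p) hs]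
  · refine ⟨1, one_pos, fun p hpK hpA q hq s hs _ _ => ?_⟩
    by_contra hcon
    push Not at hcon
    exact hne ⟨⟨p, ⟨hpK, hpA⟩, hcon⟩, ⟨q, hq⟩, ⟨s, hs⟩⟩

end Vale.Agent.P032
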