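import Vale.Agent.P032.Labels

/-!
A cluster of three-coloured triangles near a point where one pair of sets meets only in a totally
disconnected set is even.
-/

namespace Vale.Agent.P032

open Metric Set Relation

/-- The next triangle across a side with two given labels. -/
def Cross (l : GP → Fin 3) (P Q : Fin 3) (t t' : Tri) : Prop :=
  ∃ k, ind l P Q (t, k) ≠ 0 ∧ (flipSide (t, k)).1 = t'

theorem cluster_even (F : Fin 5 → Set ℂ) (v : ℂ) (r g h η μ ev : ℝ) (p q : Fin 5) (N : ℕ)
    (hh : 0 < h) (hN : (N : ℝ) * h = 10) (hr : r ≤ g / 8) (hηg : η ≤ g / 64) (hηr : η ≤ r / 8)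
    (hμη : μ ≤ η) (hμev : μ ≤ ev) (hhμ : 8 * h < μ / 16)
    (hev : ∀ x y, ReflTransGen (Step (F p ∩ F q ∩ closedBall v r) ev) x y → dist x y < η / 4)
    (col : GP → Fin 5) (l : GP → Fin 3) (hcol : ∀ a, pt h a ∈ F (col a))
    (hsame : ∀ a a', InP N a → InP N a' → dist (pt h a) (pt h a') < g → col a = col a' →
      l a = l a')
    (hloc : ∀ z i, dist z v ≤ r → z ∈ F i → v ∈ F i)
    (hfour : ∀ a b c d : Fin 5, a ≠ b → a ≠ c → a ≠ d → b ≠ c → b ≠ d → c ≠ d →
      v ∈ F a → v ∈ F b → v ∈ F c → v ∈ F d → False)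
    (hp : v ∈ F p) (hq : v ∈ F q) (hpq : p ≠ q)
    (hnear : ∀ a b, InP N a → InP N b → col a = p → col b = q → dist (pt h a) (pt h b) ≤ 2 * h →
      ∃ z, z ∈ F p ∧ z ∈ F q ∧ dist (pt h a) z < μ / 16)
    (hrain : ∀ t, InTri N t → rain l t ≠ 0 →
      (∀ k k', k ≠ k' → col (corner t k) ≠ col (corner t k') ∧
        l (corner t k) ≠ l (corner t k')) ∧
      ∀ m, g / 2 ≤ sd m (pt h (corner t 0)))
    (zt : Tri → ℂ) (S : Finset Tri) (hS : S.Nonempty)
    (hSr : ∀ t ∈ S, InTri N t ∧ rain l t ≠ 0 ∧ dist (zt t) v < 5 / 8 * r ∧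
      zt t ∈ F p ∩ F q ∩ closedBall v r ∧ dist (pt h (corner t 0)) (zt t) < μ / 16)
    (hcl : ∀ t ∈ S, ∀ t', InTri N t' → rain l t' ≠ 0 →
      dist (pt h (corner t' 0)) (zt t) < 3 / 8 * η → t' ∈ S) :
    ∑ t ∈ S, rain l t = 0 := by
  classical
  obtain ⟨ts, hts⟩ := hS
  obtain ⟨tsIn, tsR, ts58, -, tsd⟩ := hSr ts hts
  have tsball : ∀ k, dist (pt h (corner ts k)) v ≤ r := fun k => by
    linarith [dist_triangle4 (pt h (corner ts k)) (pt h (corner ts 0)) (zt ts) v,
      corner_close hh ts k 0]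
  have cover3 : ∀ i, v ∈ F i → ∃ k, col (corner ts k) = i := by
    intro i hi
    by_contra hno
    push Not at hno
    have hd := fun k k' hk => ((hrain ts tsIn tsR).1 k k' hk).1
    exact hfour _ _ _ i (hd 0 1 (by decide)) (hd 0 2 (by decide)) (hno 0) (hd 1 2 (by decide))
      (hno 1) (hno 2) (hloc _ _ (tsball 0) (hcol _)) (hloc _ _ (tsball 1) (hcol _))
      (hloc _ _ (tsball 2) (hcol _)) hi
  obtain ⟨kp, hkp⟩ := cover3 p hp
  obtain ⟨kq, hkq⟩ := cover3 q hq
  set LP := l (corner ts kp) with hLP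
  set LQ := l (corner ts kq) with hLQ
  have hLne : LP ≠ LQ :=
    ((hrain ts tsIn tsR).1 kp kq fun e => hpq (by rw [← hkp, e, hkq])).2
  have labcol : ∀ a, InP N a → dist (pt h a) v ≤ r →
      (l a = LP → col a = p) ∧ (l a = LQ → col a = q) := by
    intro a ha hd
    obtain ⟨k, hk⟩ := cover3 _ (hloc _ _ hd (hcol a))
    have he : l a = l (corner ts k) := hsame a _ ha (corner_in ts tsIn k) (by
      linarith [dist_triangle_right (pt h a) (pt h (corner ts k)) v, tsball k]) hk.symm
    refine ⟨fun e => ?_, fun e => ?_⟩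
    · by_contra hne
      refine ((hrain ts tsIn tsR).1 k kp fun e' => hne ?_).2 (he ▸ e)
      rw [← hk, e', hkp]
    · by_contra hne
      refine ((hrain ts tsIn tsR).1 k kq fun e' => hne ?_).2 (he ▸ e)
      rw [← hk, e', hkq]
  set X := F p ∩ F q ∩ closedBall v r with hX
  have inv : ∀ t₁ ∈ S, ∀ t, ReflTransGen (Cross l LP LQ) t₁ t → InTri N t ∧
      ∃ x, ReflTransGen (Step X ev) (zt t₁) x ∧ dist x (pt h (corner t 0)) < μ / 8 := by
    intro t₁ ht₁ t ht
    obtain ⟨h1In, h1R, h58, h1X, h1d⟩ := hSr t₁ ht₁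
    induction ht with
    | refl => exact ⟨h1In, zt t₁, .refl, by linarith [dist_comm (zt t₁) (pt h (corner t₁ 0))]⟩
    | @tail a b _ hab ih =>
      obtain ⟨haIn, x, hx, hxa⟩ := ih
      obtain ⟨k, hk, rfl⟩ := hab
      obtain ⟨m, m', hm, hm'⟩ := ends_corner a k
      have hxd := hev _ _ hx
      have hxX : x ∈ X := by
        rcases ReflTransGen.cases_tail hx with rfl | ⟨y, -, hy⟩
        · exact h1X
        · exact hy.2.1
      have aball : ∀ n, dist (pt h (corner a n)) v ≤ 3 / 4 * r := fun n => by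
        linarith [dist_triangle4 (pt h (corner a n)) (pt h (corner a 0)) x v,
          dist_triangle x (zt t₁) v, corner_close hh a n 0, dist_comm x (pt h (corner a 0)),
          dist_comm x (zt t₁)]
      have hlk : (l (corner a m) = LP ∧ l (corner a m') = LQ) ∨
          (l (corner a m) = LQ ∧ l (corner a m') = LP) := by
        by_contra hh'
        apply hk
        rw [ind, if_neg]
        rwa [hm, hm']
      have hr0 : 0 ≤ r := le_trans dist_nonneg (tsball 0)
      have lc := fun n => labcol _ (corner_in a haIn n) (by linarith [aball n])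
      obtain ⟨np, nq, hnp, hnq⟩ : ∃ np nq, col (corner a np) = p ∧ col (corner a nq) = q := by
        rcases hlk with ⟨e1, e2⟩ | ⟨e1, e2⟩
        · exact ⟨m, m', (lc m).1 e1, (lc m').2 e2⟩
        · exact ⟨m', m, (lc m').1 e2, (lc m).2 e1⟩
      obtain ⟨x', xp, xq, hx'⟩ := hnear _ _ (corner_in a haIn np) (corner_in a haIn nq) hnp hnq
        (corner_close hh a np nq)
      have hbd := flip_close hh a k
      have far : ∀ w, g / 4 ≤ sd w (pt h (corner (flipSide (a, k)).1 0)) := by
        intro w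
        have hl := sd_lip w (pt h (corner t₁ 0)) (pt h (corner (flipSide (a, k)).1 0))
        rw [abs_le] at hl
        linarith [(hrain t₁ h1In h1R).2 w, hl.2, dist_triangle4 (pt h (corner t₁ 0)) (zt t₁) x
          (pt h (corner a 0)), dist_triangle (pt h (corner t₁ 0)) (pt h (corner a 0))
          (pt h (corner (flipSide (a, k)).1 0))]
      refine ⟨inTri_of_far hh hN (by linarith) _ far, x',
        hx.tail ⟨hxX, ⟨⟨xp, xq⟩, mem_closedBall.2 ?_⟩, ?_⟩, ?_⟩
      · linarith [dist_triangle x' (pt h (corner a np)) v, aball np,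
          dist_comm x' (pt h (corner a np))]
      · linarith [dist_triangle4 x (pt h (corner a 0)) (pt h (corner a np)) x',
          corner_close hh a 0 np]
      · linarith [dist_triangle4 x' (pt h (corner a np)) (pt h (corner a 0))
          (pt h (corner (flipSide (a, k)).1 0)), corner_close hh a np 0,
          dist_comm x' (pt h (corner a np))]
  set R := (inside N).filter fun t => ∃ t₁ ∈ S, ReflTransGen (Cross l LP LQ) t₁ t with hR
  have hsum : ∑ t ∈ R, rain l t = ∑ t ∈ S, rain l t := by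
    symm
    refine Finset.sum_subset ?_ ?_
    · exact fun t ht => Finset.mem_filter.2 ⟨mem_inside.2 (hSr t ht).1, t, ht, .refl⟩
    · intro t ht hnot
      by_contra hrt
      rw [hR, Finset.mem_filter] at ht
      obtain ⟨htI, t₁, ht₁, hch⟩ := ht
      obtain ⟨htIn, x, hx, hxt⟩ := inv t₁ ht₁ t hch
      refine hnot (hcl t₁ ht₁ t htIn hrt ?_)
      linarith [dist_triangle_left (pt h (corner t 0)) (zt t₁) x, hev _ _ hx,
        dist_comm (zt t₁) x]
  rw [← hsum]
  refine closed_even l hLne R fun t ht k hk => ?_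
  rw [hR, Finset.mem_filter] at ht ⊢
  obtain ⟨-, t₁, ht₁, hch⟩ := ht
  have hch' := hch.tail (show Cross l LP LQ t _ from ⟨k, hk, rfl⟩)
  exact ⟨mem_inside.2 (inv t₁ ht₁ _ hch').1, t₁, ht₁, hch'⟩

end Vale.Agent.P032
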