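import Vale.Agent.P032.Cluster

/-!
A cluster of three-coloured triangles near a point where all pairs avoiding one of the sets meet
only in totally disconnected sets is even.
-/

namespace Vale.Agent.P032

open Metric Set Relation

theorem cluster_even_star (F : Fin 5 → Set ℂ) (v : ℂ) (r g h η μ ev : ℝ) (c : Fin 5) (X : Set ℂ)
    (N : ℕ)
    (hh : 0 < h) (hN : (N : ℝ) * h = 10) (hr : r ≤ g / 8) (hηg : η ≤ g / 64) (hηr : η ≤ r / 8)
    (hμη : μ ≤ η) (hμev : μ ≤ ev) (hhμ : 8 * h < μ / 16)
    (hev : ∀ x y, ReflTransGen (Step X ev) x y → dist x y < η / 4)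
    (hXdef : ∀ p q z, p ≠ c → q ≠ c → p ≠ q → z ∈ F p → z ∈ F q → dist z v ≤ r → z ∈ X)
    (col : GP → Fin 5) (l : GP → Fin 3)
    (hsame : ∀ a a', InP N a → InP N a' → dist (pt h a) (pt h a') < g → col a = col a' →
      l a = l a')
    (hnear : ∀ a b, InP N a → InP N b → col a ≠ col b → dist (pt h a) (pt h b) ≤ 2 * h →
      ∃ z, z ∈ F (col a) ∧ z ∈ F (col b) ∧ dist (pt h a) z < μ / 16)
    (hrain : ∀ t, InTri N t → rain l t ≠ 0 →
      (∀ k k', k ≠ k' → col (corner t k) ≠ col (corner t k') ∧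
        l (corner t k) ≠ l (corner t k')) ∧
      ∀ m, g / 2 ≤ sd m (pt h (corner t 0)))
    (zt : Tri → ℂ) (S : Finset Tri) (hS : S.Nonempty)
    (hSr : ∀ t ∈ S, InTri N t ∧ rain l t ≠ 0 ∧ dist (zt t) v < 5 / 8 * r ∧
      zt t ∈ X ∧ dist (pt h (corner t 0)) (zt t) < μ / 16)
    (hcl : ∀ t ∈ S, ∀ t', InTri N t' → rain l t' ≠ 0 →
      dist (pt h (corner t' 0)) (zt t) < 3 / 8 * η → t' ∈ S) :
    ∑ t ∈ S, rain l t = 0 := by
  classical
  obtain ⟨ts, hts⟩ := hS
  obtain ⟨tsIn, tsR, ts58, -, tsd⟩ := hSr ts hts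
  have tsball : ∀ k, dist (pt h (corner ts k)) v ≤ r := fun k => by
    linarith [dist_triangle4 (pt h (corner ts k)) (pt h (corner ts 0)) (zt ts) v,
      corner_close hh ts k 0]
  have two : ∀ L : Fin 3, ∃ P Q : Fin 3, P ≠ Q ∧ P ≠ L ∧ Q ≠ L := by decide
  obtain ⟨L0, hL0⟩ : ∃ L0, ∀ a, InP N a → dist (pt h a) v ≤ r → col a = c → l a = L0 := by
    by_cases hex : ∃ a0, InP N a0 ∧ dist (pt h a0) v ≤ r ∧ col a0 = c
    · obtain ⟨a0, h0, hd0, hc0⟩ := hex
      exact ⟨l a0, fun a ha hd hc => hsame a a0 ha h0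
        (by linarith [dist_triangle_right (pt h a) (pt h a0) v, dist_nonneg (x := pt h a) (y := v)])
        (hc.trans hc0.symm)⟩
    · exact ⟨0, fun a ha hd hc => (hex ⟨a, ha, hd, hc⟩).elim⟩
  obtain ⟨LP, LQ, hLne, hLP, hLQ⟩ := two L0
  have inv : ∀ t₁ ∈ S, ∀ t, ReflTransGen (Cross l LP LQ) t₁ t → InTri N t ∧
      ∃ x, ReflTransGen (Step X ev) (zt t₁) x ∧ dist x (pt h (corner t 0)) < μ / 8 := by
    intro t₁ ht₁ t ht
    obtain ⟨h1In, h1R, h58, h1X, h1d⟩ := hSr t₁ ht₁
    induction ht with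
    | refl => exact ⟨h1In, zt t₁, .refl, by linarith [dist_comm (zt t₁) (pt h (corner t₁ 0))]⟩
    | @tail a b _ hab ih =>
      obtain ⟨haIn, x, hx, hxa⟩ := ih
      obtain ⟨k, hk, rfl⟩ := hab
      obtain ⟨m, m', hm, hm'⟩ := ends_corner a k
      have hxd := hev _ _ hx
      have hxX : x ∈ X := by
        rcases ReflTransGen.cases_tail hx with rfl | ⟨y, -, hy⟩
        · exact h1X
        · exact hy.2.1
      have aball : ∀ n, dist (pt h (corner a n)) v ≤ 3 / 4 * r := fun n => by
        linarith [dist_triangle4 (pt h (corner a n)) (pt h (corner a 0)) x v,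
          dist_triangle x (zt t₁) v, corner_close hh a n 0, dist_comm x (pt h (corner a 0)),
          dist_comm x (zt t₁)]
      have hlk : (l (corner a m) = LP ∧ l (corner a m') = LQ) ∨
          (l (corner a m) = LQ ∧ l (corner a m') = LP) := by
        by_contra hh'
        apply hk
        rw [ind, if_neg]
        rwa [hm, hm']
      have hr0 : 0 ≤ r := le_trans dist_nonneg (tsball 0)
      have avoid : ∀ n, l (corner a n) = LP ∨ l (corner a n) = LQ → col (corner a n) ≠ c :=
        fun n hn hc => by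
          have e := hL0 _ (corner_in a haIn n) (by linarith [aball n]) hc
          rcases hn with hn | hn
          exacts [hLP (hn.symm.trans e), hLQ (hn.symm.trans e)]
      obtain ⟨np, nq, hnpc, hnqc, hne⟩ : ∃ np nq, col (corner a np) ≠ c ∧ col (corner a nq) ≠ c ∧
          col (corner a np) ≠ col (corner a nq) := by
        refine ⟨m, m', avoid m (hlk.imp And.left And.left), avoid m' (hlk.symm.imp And.right And.right),
          fun he => ?_⟩
        have := hsame _ _ (corner_in a haIn m) (corner_in a haIn m')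
          (by linarith [corner_close hh a m m']) he
        rcases hlk with ⟨e1, e2⟩ | ⟨e1, e2⟩
        · exact hLne (by rw [← e1, this, e2])
        · exact hLne (by rw [← e2, ← this, e1])
      obtain ⟨x', xp, xq, hx'⟩ := hnear _ _ (corner_in a haIn np) (corner_in a haIn nq) hne
        (corner_close hh a np nq)
      have hbd := flip_close hh a k
      have far : ∀ w, g / 4 ≤ sd w (pt h (corner (flipSide (a, k)).1 0)) := by
        intro w
        have hl := sd_lip w (pt h (corner t₁ 0)) (pt h (corner (flipSide (a, k)).1 0))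
        rw [abs_le] at hl
        linarith [(hrain t₁ h1In h1R).2 w, hl.2, dist_triangle4 (pt h (corner t₁ 0)) (zt t₁) x
          (pt h (corner a 0)), dist_triangle (pt h (corner t₁ 0)) (pt h (corner a 0))
          (pt h (corner (flipSide (a, k)).1 0))]
      refine ⟨inTri_of_far hh hN (by linarith) _ far, x',
        hx.tail ⟨hxX, hXdef _ _ _ hnpc hnqc hne xp xq ?_, ?_⟩, ?_⟩
      · linarith [dist_triangle x' (pt h (corner a np)) v, aball np,
          dist_comm x' (pt h (corner a np))]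
      · linarith [dist_triangle4 x (pt h (corner a 0)) (pt h (corner a np)) x',
          corner_close hh a 0 np]
      · linarith [dist_triangle4 x' (pt h (corner a np)) (pt h (corner a 0))
          (pt h (corner (flipSide (a, k)).1 0)), corner_close hh a np 0,
          dist_comm x' (pt h (corner a np))]
  set R := (inside N).filter fun t => ∃ t₁ ∈ S, ReflTransGen (Cross l LP LQ) t₁ t with hR
  have hsum : ∑ t ∈ R, rain l t = ∑ t ∈ S, rain l t := by
    symm
    refine Finset.sum_subset ?_ ?_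
    · exact fun t ht => Finset.mem_filter.2 ⟨mem_inside.2 (hSr t ht).1, t, ht, .refl⟩
    · intro t ht hnot
      by_contra hrt
      rw [hR, Finset.mem_filter] at ht
      obtain ⟨htI, t₁, ht₁, hch⟩ := ht
      obtain ⟨htIn, x, hx, hxt⟩ := inv t₁ ht₁ t hch
      refine hnot (hcl t₁ ht₁ t htIn hrt ?_)
      linarith [dist_triangle_left (pt h (corner t 0)) (zt t₁) x, hev _ _ hx,
        dist_comm (zt t₁) x]
  rw [← hsum]
  refine closed_even l hLne R fun t ht k hk => ?_
  rw [hR, Finset.mem_filter] at ht ⊢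
  obtain ⟨-, t₁, ht₁, hch⟩ := ht
  have hch' := hch.tail (show Cross l LP LQ t _ from ⟨k, hk, rfl⟩)
  exact ⟨mem_inside.2 (inv t₁ ht₁ _ hch').1, t₁, ht₁, hch'⟩

end Vale.Agent.P032
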