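import Mathlib.Analysis.Complex.Basic
import Mathlib.Tactic
import Mathlib.Analysis.Normed.Module.Connected
import Mathlib.Analysis.SpecialFunctions.Trigonometric.Bounds
import Mathlib.LinearAlgebra.Complex.FiniteDimensional

/-!
Open sets which avoid distance one: their closures and the colours met on a unit circle.
-/

namespace Vale.Agent.P032

open Metric Set Complex

/-- A rotation through a third of a half turn. -/
noncomputable def om : ℂ := ⟨1 / 2, Real.sqrt 3 / 2⟩

lemma norm_om : ‖om‖ = 1 := by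
  have h3 : Real.sqrt 3 * Real.sqrt 3 = 3 := Real.mul_self_sqrt (by norm_num)
  rw [Complex.norm_def, Complex.normSq_apply, Real.sqrt_eq_one]
  simp only [om]
  nlinarith

lemma norm_om_sub_one : ‖om - 1‖ = 1 := by
  have h3 : Real.sqrt 3 * Real.sqrt 3 = 3 := Real.mul_self_sqrt (by norm_num)
  rw [Complex.norm_def, Complex.normSq_apply, Real.sqrt_eq_one]
  simp only [om, Complex.sub_re, Complex.sub_im, Complex.one_re, Complex.one_im]
  nlinarith

variable (E : Fin 5 → Set ℂ) (hE : ∀ i, IsOpen (E i))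
  (hB : ∀ i, ∀ y ∈ E i, ∀ z ∈ E i, dist y z ≠ 1)
  (hD : ∀ x, sphere x 1 ⊆ closure (sphere x 1 ∩ ⋃ i, E i))

include hE hB in
lemma not_closure {i : Fin 5} {y z : ℂ} (hy : y ∈ E i) (hyz : dist y z = 1) :
    z ∉ closure (E i) := by
  intro hz
  have ho : IsOpen ((fun z' => y + (z' - z)) ⁻¹' E i) := (hE i).preimage (by fun_prop)
  obtain ⟨z', hz', hz''⟩ := mem_closure_iff.1 hz _ ho
    (by rw [mem_preimage, sub_self, add_zero]; exact hy)
  refine hB i _ hz' _ hz'' ?_
  rw [dist_eq_norm] at hyz ⊢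
  rwa [show y + (z' - z) - z' = y - z by ring]

include hE hB hD in
/-- The colours met on a unit circle are never just one. -/
lemma two_colours (x : ℂ) (e : Fin 5)
    (h : ∀ i, ∀ p ∈ sphere x 1 ∩ E i, i = e) : False := by
  obtain ⟨p, hp⟩ : (sphere x 1 ∩ ⋃ i, E i).Nonempty := by
    by_contra hn
    rw [not_nonempty_iff_eq_empty] at hn
    have hx : x + 1 ∈ sphere x 1 := by simp
    have := hD x hx
    rw [hn, closure_empty] at this
    exact this
  obtain ⟨i, hpi⟩ := mem_iUnion.1 hp.2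
  obtain rfl := h i p ⟨hp.1, hpi⟩
  have hp1 : ‖p - x‖ = 1 := by simpa [dist_eq_norm] using mem_sphere.1 hp.1
  have hr : x + om * (p - x) ∈ sphere x 1 := by simp [norm_om, hp1]
  have ho : IsOpen ((fun q => x + om⁻¹ * (q - x)) ⁻¹' E i) := (hE i).preimage (by fun_prop)
  have hom : om ≠ 0 := fun e => by simpa [e] using norm_om
  have hmem : x + om * (p - x) ∈ (fun q => x + om⁻¹ * (q - x)) ⁻¹' E i := by
    rw [mem_preimage, add_sub_cancel_left, ← mul_assoc, inv_mul_cancel₀ hom, one_mul,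
      add_sub_cancel]
    exact hpi
  obtain ⟨q, hq1, hq2, hq3⟩ := mem_closure_iff.1 (hD x hr) _ ho hmem
  obtain ⟨j, hqj⟩ := mem_iUnion.1 hq3
  obtain rfl := h j q ⟨hq2, hqj⟩
  refine hB j q hqj _ hq1 ?_
  have hq : ‖q - x‖ = 1 := by simpa [dist_eq_norm] using mem_sphere.1 hq2
  rw [dist_eq_norm]
  have : q - (x + om⁻¹ * (q - x)) = om⁻¹ * ((om - 1) * (q - x)) := by field_simp; ring
  rw [this, norm_mul, norm_inv, norm_om, norm_mul, norm_om_sub_one, hq]
  norm_num

include hE hB in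
lemma colour_ne {x p : ℂ} {i : Fin 5} (hp : p ∈ sphere x 1 ∩ E i) : x ∉ closure (E i) :=
  not_closure E hE hB hp.2 (mem_sphere.1 hp.1)

end Vale.Agent.P032
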