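import Vale.Agent.P032.Pipe

/-!
Linked pairs connect the colours at a point, and a point of five closures has one colour absent
from its unit circle.
-/

namespace Vale.Agent.P032

open Metric Set Complex ComplexConjugate Relation

lemma small_subsingleton {X C : Set ℂ} (hX : Small X) (hC : IsPreconnected C) (hCX : C ⊆ X) :
    C.Subsingleton := by
  intro a ha b hb
  by_contra hne
  obtain ⟨η, hη, hshort⟩ := hX (dist a b) (dist_pos.2 hne)
  set R : Set ℂ := {z | ReflTransGen (Step X η) a z} with hR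
  have hbR : b ∈ R := by
    by_contra hb'
    obtain ⟨y, hyC, hy1, hy2⟩ := hC (⋃ z ∈ C ∩ R, ball z (η / 2)) (⋃ z ∈ C \ R, ball z (η / 2))
      (isOpen_biUnion fun _ _ => isOpen_ball) (isOpen_biUnion fun _ _ => isOpen_ball)
      (fun z hz => (em (z ∈ R)).imp (fun h => mem_biUnion ⟨hz, h⟩ (mem_ball_self (half_pos hη)))
        (fun h => mem_biUnion ⟨hz, h⟩ (mem_ball_self (half_pos hη))))
      ⟨a, ha, mem_biUnion ⟨ha, ReflTransGen.refl⟩ (mem_ball_self (half_pos hη))⟩
      ⟨b, hb, mem_biUnion ⟨hb, hb'⟩ (mem_ball_self (half_pos hη))⟩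
    obtain ⟨z, ⟨hz, hzR⟩, hyz⟩ := mem_iUnion₂.1 hy1
    obtain ⟨z', ⟨hz', hz'R⟩, hyz'⟩ := mem_iUnion₂.1 hy2
    exact hz'R (ReflTransGen.tail hzR ⟨hCX hz, hCX hz', by
      linarith [dist_triangle_left z z' y, mem_ball.1 hyz, mem_ball.1 hyz']⟩)
  exact lt_irrefl _ (hshort a b hbR)

/-- The ten pairs of colours. -/
def PR : List (Fin 5 × Fin 5) :=
  [(0, 1), (0, 2), (0, 3), (0, 4), (1, 2), (1, 3), (1, 4), (2, 3), (2, 4), (3, 4)]

/-- Whether a colour is in a pair. -/
def has (p : Fin 5 × Fin 5) (i : Fin 5) : Bool := i == p.1 || i == p.2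

/-- Whether two pairs are disjoint. -/
def dj (p q : Fin 5 × Fin 5) : Bool := !(has p q.1 || has p q.2)

lemma pairs_mem : ∀ i j : Fin 5, i ≠ j → (i, j) ∈ PR ∨ (j, i) ∈ PR := by decide

/-- Opposite pairs among six miss at most one colour, or the six pairs are exact and split the
colours. -/
def Hexagon (a b c d e f : Fin 5 × Fin 5) : Bool :=
  (decide (∃ g : Fin 5, (∀ i, i = g ∨ has a i = true ∨ has d i = true) ∨
      (∀ i, i = g ∨ has b i = true ∨ has e i = true) ∨
      (∀ i, i = g ∨ has c i = true ∨ has f i = true))) ||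
  (PR.any (fun t => decide (∀ i j : Fin 5, has t i = true → has t j = false →
        ([a, b, c, d, e, f].any fun p => has p i && has p j) = true)) &&
      decide (∀ i : Fin 5, (has f i || has a i || has b i) = true ∧
        (has a i || has b i || has c i) = true ∧
        (has b i || has c i || has d i) = true ∧ (has c i || has d i || has e i) = true ∧
        (has d i || has e i || has f i) = true ∧ (has e i || has f i || has a i) = true))

lemma hexagon_all : (PR.all fun a => PR.all fun b => !dj a b || PR.all fun c => !dj b c ||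
    PR.all fun d => !dj c d || PR.all fun e => !dj d e || PR.all fun f => !dj e f || !dj f a ||
      Hexagon a b c d e f) = true := by
  decide +kernel

lemma walk {a b c d e f : Fin 5 × Fin 5} (ha : a ∈ PR) (hb : b ∈ PR) (hab : dj a b = true)
    (hc : c ∈ PR) (hbc : dj b c = true) (hd : d ∈ PR) (hcd : dj c d = true) (he : e ∈ PR)
    (hde : dj d e = true) (hf : f ∈ PR) (hef : dj e f = true) (hfa : dj f a = true) :
    (∃ g : Fin 5, (∀ i, i = g ∨ has a i = true ∨ has d i = true) ∨
      (∀ i, i = g ∨ has b i = true ∨ has e i = true) ∨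
      (∀ i, i = g ∨ has c i = true ∨ has f i = true)) ∨
    ((∃ t ∈ PR, ∀ i j : Fin 5, has t i = true → has t j = false →
        ([a, b, c, d, e, f].any fun p => has p i && has p j) = true) ∧
      ∀ i : Fin 5, (has f i || has a i || has b i) = true ∧ (has a i || has b i || has c i) = true ∧
        (has b i || has c i || has d i) = true ∧ (has c i || has d i || has e i) = true ∧
        (has d i || has e i || has f i) = true ∧ (has e i || has f i || has a i) = true) := by
  have h := List.all_eq_true.1 hexagon_all a ha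
  have h := List.all_eq_true.1 h b hb
  rw [hab, Bool.not_true, Bool.false_or] at h
  have h := List.all_eq_true.1 h c hc
  rw [hbc, Bool.not_true, Bool.false_or] at h
  have h := List.all_eq_true.1 h d hd
  rw [hcd, Bool.not_true, Bool.false_or] at h
  have h := List.all_eq_true.1 h e he
  rw [hde, Bool.not_true, Bool.false_or] at h
  have h := List.all_eq_true.1 h f hf
  rw [hef, hfa, Bool.not_true, Bool.false_or, Bool.false_or] at h
  rw [Hexagon, Bool.or_eq_true, Bool.and_eq_true, List.any_eq_true] at h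
  simpa only [decide_eq_true_eq] using h

variable (E : Fin 5 → Set ℂ) (hE : ∀ i, IsOpen (E i))
  (hB : ∀ i, ∀ y ∈ E i, ∀ z ∈ E i, dist y z ≠ 1)
  (hR : ∀ i, interior (closure (E i)) = E i)
  (hcl : ∀ x, ∃ i, x ∈ closure (E i))
  (hd : ∀ i j, i ≠ j → Disjoint (E i) (E j))

include hE hd in
lemma only_colour {z : ℂ} {i j : Fin 5} (hz : z ∈ E i) (hj : z ∈ closure (E j)) : j = i := by
  by_contra h
  obtain ⟨y, hy, hyj⟩ := mem_closure_iff.1 hj _ (hE i) hz
  exact (hd i j (Ne.symm h)).le_bot ⟨hy, hyj⟩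

include hE hcl hd in
/-- The linked pairs connect all the colours at a point. -/
lemma linked_connected {x : ℂ} (I : Fin 5 → Prop) {i₀ j₀ : Fin 5} (hi₀ : I i₀) (hj₀ : ¬ I j₀)
    (hxi : x ∈ closure (E i₀)) (hxj : x ∈ closure (E j₀)) :
    ∃ i j, I i ∧ ¬ I j ∧ x ∈ closure (E i) ∧ x ∈ closure (E j) ∧
      Linked (fun i => closure (E i)) x i j := by
  classical
  by_contra hcon
  push Not at hcon
  obtain ⟨ρ, hρ, hloc⟩ := local_colours E x
  have key : ∀ t : Fin 5 × Fin 5, ∃ ε > 0, I t.1 → ¬ I t.2 → ∀ C, IsPreconnected C →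
      C ⊆ closure (E t.1) ∩ closure (E t.2) ∩ closedBall x ε → C.Subsingleton := by
    rintro ⟨i, j⟩
    by_cases h : I i ∧ ¬ I j ∧ x ∈ closure (E i) ∧ x ∈ closure (E j)
    · have hn := hcon i j h.1 h.2.1 h.2.2.1 h.2.2.2
      simp only [Linked, not_forall, not_exists, not_and] at hn
      obtain ⟨ε, hε, hn⟩ := hn
      exact ⟨ε, hε, fun _ _ C h1 h2 => Set.not_nontrivial_iff.1 (hn C h1 h2)⟩
    · refine ⟨ρ / 2, half_pos hρ, fun hi hj C _ h2 z hz => ?_⟩
      have hzb : z ∈ ball x ρ :=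
        mem_ball.2 ((mem_closedBall.1 (h2 hz).2).trans_lt (half_lt_self hρ))
      exact absurd ⟨hi, hj, hloc z hzb _ (h2 hz).1.1, hloc z hzb _ (h2 hz).1.2⟩ h
  choose ε hε hεC using key
  obtain ⟨m, -, hm⟩ := Finset.univ.exists_min_image ε Finset.univ_nonempty
  set η := ε m with hη
  set A := ⋃ i ∈ {i | I i}, closure (E i) with hA
  set B := ⋃ i ∈ {i | ¬ I i}, closure (E i) with hB'
  have hsmall : Small (⋃ t ∈ (Finset.univ.filter fun t : Fin 5 × Fin 5 => I t.1 ∧ ¬ I t.2),
      closure (E t.1) ∩ closure (E t.2) ∩ closedBall x η) := by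
    refine small_biUnion _ _ fun t ht => small_of_totallyDisconnected
      ((isCompact_closedBall _ _).inter_left (isClosed_closure.inter isClosed_closure))
      fun C hC hCp => ?_
    obtain ⟨-, h1, h2⟩ := Finset.mem_filter.1 ht
    exact hεC t h1 h2 C hCp (hC.trans (inter_subset_inter_right _
      (closedBall_subset_closedBall (hm _ (Finset.mem_univ _)))))
  rcases separation (A := A) (B := B) (U := ball x η)
    ((Set.toFinite _).isClosed_biUnion fun i _ => isClosed_closure)
    ((Set.toFinite _).isClosed_biUnion fun i _ => isClosed_closure)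
    isOpen_ball (convex_ball _ _).isPreconnected (fun z _ => by
      obtain ⟨i, hi⟩ := hcl z
      exact (em (I i)).imp (fun h => mem_biUnion h hi) (fun h => mem_biUnion h hi))
    with ⟨C, hC, hCp, hCn⟩ | h | h
  · refine hCn.not_subsingleton (small_subsingleton hsmall hCp fun z hz => ?_)
    obtain ⟨⟨hzA, hzB⟩, hzb⟩ := hC hz
    obtain ⟨i, hi, hzi⟩ := mem_iUnion₂.1 hzA
    obtain ⟨j, hj, hzj⟩ := mem_iUnion₂.1 hzB
    exact mem_biUnion (x := (i, j)) (by simpa using And.intro hi hj)
      ⟨⟨hzi, hzj⟩, ball_subset_closedBall hzb⟩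
  · obtain ⟨z, hz, hzj⟩ := mem_closure_iff.1 hxj _ isOpen_ball (mem_ball_self (hε m))
    obtain ⟨i, hi, hzi⟩ := mem_iUnion₂.1 (h hz)
    exact hj₀ (only_colour E hE hd hzj hzi ▸ hi)
  · obtain ⟨z, hz, hzi⟩ := mem_closure_iff.1 hxi _ isOpen_ball (mem_ball_self (hε m))
    obtain ⟨j, hj, hzj⟩ := mem_iUnion₂.1 (h hz)
    exact hj (only_colour E hE hd hzi hzj ▸ hi₀)

omit E in
lemma rot_dist (x a b : ℂ) (k : ℕ) :
    dist (x + om ^ k * (a - x)) (x + om ^ k * (b - x)) = dist a b := by
  rw [dist_eq_norm, dist_eq_norm, show x + om ^ k * (a - x) - (x + om ^ k * (b - x)) =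
    om ^ k * (a - b) by ring, norm_mul, norm_pow, norm_om, one_pow, one_mul]

/-- Finitely many rotated arcs with constant colours. -/
lemma generic_orbit (x : ℂ) {p : ℂ} (hp : p ∈ sphere x 1) {ε : ℝ} (hε : 0 < ε) :
    ∀ n : ℕ, ∃ q ∈ sphere x 1 ∩ ball p ε, ∃ ε' > 0, ∀ k < n,
      ∀ z ∈ sphere x 1 ∩ ball (x + om ^ k * (q - x)) ε', ∀ i,
        (z ∈ closure (E i) ↔ x + om ^ k * (q - x) ∈ closure (E i)) := by
  intro n
  induction n with
  | zero => exact ⟨p, ⟨hp, mem_ball_self hε⟩, 1, one_pos, fun k hk => absurd hk (Nat.not_lt_zero k)⟩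
  | succ n ih =>
    obtain ⟨q, ⟨hq, hqp⟩, e, he, hc⟩ := ih
    rw [mem_ball] at hqp
    set c := x + om ^ n * (q - x) with hcd
    have hom : om ^ n ≠ 0 := pow_ne_zero _ fun e => by simpa [e] using norm_om
    have hcs : c ∈ sphere x 1 := by
      rw [mem_sphere, dist_eq_norm] at hq ⊢
      simp [hcd, norm_om, hq]
    obtain ⟨q', ⟨hq's, hq'b⟩, e', he', -, hgen⟩ :=
      generic E hcs (show 0 < min e (ε - dist q p) from lt_min he (sub_pos.2 hqp))
    rw [mem_ball, lt_min_iff] at hq'b
    set q'' := x + (om ^ n)⁻¹ * (q' - x) with hq''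
    have hback : x + om ^ n * (q'' - x) = q' := by
      rw [hq'', add_sub_cancel_left, ← mul_assoc, mul_inv_cancel₀ hom, one_mul, add_sub_cancel]
    have hdist : dist q'' q = dist q' c := by
      rw [← rot_dist x q'' q n, hback]
    have hqs'' : q'' ∈ sphere x 1 := by
      rw [mem_sphere, dist_eq_norm] at hq's ⊢
      simp [hq'', norm_om, hq's]
    refine ⟨q'', ⟨hqs'', mem_ball.2 ?_⟩, min e' (e - dist q' c),
      lt_min he' (sub_pos.2 hq'b.1), fun k hk z hz i => ?_⟩
    · linarith [dist_triangle q'' q p, hq'b.2]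
    rw [mem_inter_iff, mem_ball, lt_min_iff] at hz
    rcases Nat.lt_succ_iff_lt_or_eq.1 hk with h | rfl
    · have hck : x + om ^ k * (q'' - x) ∈ sphere x 1 ∩ ball (x + om ^ k * (q - x)) e := by
        refine ⟨?_, mem_ball.2 (by rw [rot_dist, hdist]; exact hq'b.1)⟩
        rw [mem_sphere, dist_eq_norm] at hqs'' ⊢
        simp [norm_om, hqs'']
      refine Iff.trans (hc k h z ⟨hz.1, mem_ball.2 ?_⟩ i) (hc k h _ hck i).symm
      linarith [dist_triangle z (x + om ^ k * (q'' - x)) (x + om ^ k * (q - x)),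
        rot_dist x q'' q k, hz.2.2]
    · rw [hback] at hz ⊢
      exact hgen z ⟨hz.1, mem_ball.2 hz.2.1⟩ i

include hE hB hR hcl hd in
/-- A point of five closures has one colour absent from its circle. -/
theorem five_absent (x : ℂ) (hx : ∀ i, x ∈ closure (E i)) :
    ∃ g, ∀ p ∈ sphere x 1, p ∉ closure (E g) := by
  obtain ⟨q, ⟨hq, -⟩, ε, hε, hgen⟩ :=
    generic_orbit E x (show x + 1 ∈ sphere x 1 by simp) one_pos 6
  set Q : ℕ → ℂ := fun k => x + om ^ k * (q - x) with hQ
  have hu : ‖q - x‖ = 1 := by rw [← dist_eq_norm]; exact mem_sphere.1 hq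
  have hQs : ∀ k, Q k ∈ sphere x 1 := fun k => by simp [hQ, norm_om, hu]
  have harc : ∀ k < 6, ∀ i, Q k ∈ closure (E i) → sphere x 1 ∩ ball (Q k) ε ⊆ closure (E i) :=
    fun k hk i hi z hz => (hgen k hk z hz i).2 hi
  have hsix : Q 6 = Q 0 := by
    simp only [hQ, show (6 : ℕ) = 3 + 3 from rfl, pow_add, om_cube]
    norm_num
  have hnext : ∀ k < 6, ∀ i, Q k ∈ closure (E i) → Q (k + 1) ∉ closure (E i) := fun k hk i hi => by
    obtain ⟨-, h2, h3⟩ := rot_facts x (Q k) (hQs k)
    have e : x + om * (Q k - x) = Q (k + 1) := by simp only [hQ]; ring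
    rw [e] at h2 h3
    exact arc_sweep E hE hB (hQs k) hε (harc k hk i hi) h2 h3
  have pick : ∀ k, ∃ t ∈ PR, Q k ∈ closure (E t.1) ∧ Q k ∈ closure (E t.2) := by
    intro k
    obtain ⟨i, hi⟩ := hcl (Q k)
    obtain ⟨j, hji, hj⟩ : ∃ j, j ≠ i ∧ Q k ∈ closure (E j) := by
      by_contra hno
      push Not at hno
      exact label_two E hE hB hR hcl (hQs k) (hx i) fun j hj => by_contra fun h => hno j h hj
    rcases pairs_mem i j hji.symm with h | h
    exacts [⟨_, h, hi, hj⟩, ⟨_, h, hj, hi⟩]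
  choose P hP hP1 hP2 using pick
  have hmemP : ∀ k i, has (P k) i = true → Q k ∈ closure (E i) := by
    intro k i hi
    simp only [has, Bool.or_eq_true, beq_iff_eq] at hi
    rcases hi with rfl | rfl
    exacts [hP1 k, hP2 k]
  have hdj : ∀ k < 6, ∀ l, Q (k + 1) = Q l → dj (P k) (P l) = true := by
    intro k hk l hl
    have h : ∀ i, has (P k) i = true → Q l ∉ closure (E i) := fun i hi =>
      hl ▸ hnext k hk i (hmemP k i hi)
    simp only [dj, Bool.not_eq_true', Bool.or_eq_false_iff]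
    exact ⟨Bool.eq_false_iff.2 fun e => h _ e (hP1 l), Bool.eq_false_iff.2 fun e => h _ e (hP2 l)⟩
  have opp : ∀ k < 3, ∀ g : Fin 5, (∀ i, i = g ∨ has (P k) i = true ∨ has (P (k + 3)) i = true) →
      ∃ g, ∀ p ∈ sphere x 1, p ∉ closure (E g) := by
    intro k hk g hg
    refine ⟨g, (union_absent E hE hB hR hcl (x := x) (u := om ^ k * (q - x)) (by simp [norm_om, hu])
      hε fun i _ hig => ?_).2⟩
    rcases ((hg i).resolve_left hig) with h | h
    · exact Or.inl (harc k (by omega) i (hmemP _ _ h))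
    · right
      have := harc (k + 3) (by omega) i (hmemP _ _ h)
      have e : Q (k + 3) = x + -(om ^ k * (q - x)) := by simp only [hQ, pow_add, om_cube]; ring
      rwa [e] at this
  rcases walk (hP 0) (hP 1) (hdj 0 (by omega) 1 rfl) (hP 2) (hdj 1 (by omega) 2 rfl) (hP 3)
    (hdj 2 (by omega) 3 rfl) (hP 4) (hdj 3 (by omega) 4 rfl) (hP 5) (hdj 4 (by omega) 5 rfl)
    (hdj 5 (by omega) 0 hsix) with ⟨g, h | h | h⟩ | ⟨⟨t, ht, hcross⟩, hfull⟩
  · exact opp 0 (by omega) g h
  · exact opp 1 (by omega) g h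
  · exact opp 2 (by omega) g h
  exfalso
  -- the labels are exact
  have exact' : ∀ k < 6, ∀ i, Q k ∈ closure (E i) → has (P k) i = true := by
    intro k hk i hi
    have nxt : ∀ a b, a < 6 → Q (a + 1) = Q b → (Q a ∈ closure (E i) → has (P b) i = false) ∧
        (Q b ∈ closure (E i) → has (P a) i = false) := fun a b ha hab =>
      ⟨fun h => Bool.eq_false_iff.2 fun e => (hab ▸ hnext a ha i h) (hmemP b i e),
        fun h => Bool.eq_false_iff.2 fun e => (hab ▸ hnext a ha i (hmemP a i e)) h⟩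
    have n0 := nxt 0 1 (by omega) rfl
    have n1 := nxt 1 2 (by omega) rfl
    have n2 := nxt 2 3 (by omega) rfl
    have n3 := nxt 3 4 (by omega) rfl
    have n4 := nxt 4 5 (by omega) rfl
    have n5 := nxt 5 0 (by omega) hsix
    obtain ⟨f0, f1, f2, f3, f4, f5⟩ := hfull i
    simp only [Bool.or_eq_true] at f0 f1 f2 f3 f4 f5
    interval_cases k
    · rcases f0 with (h | h) | h
      exacts [by rw [n5.2 hi] at h; simp at h, h, by rw [n0.1 hi] at h; simp at h]
    · rcases f1 with (h | h) | h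
      exacts [by rw [n0.2 hi] at h; simp at h, h, by rw [n1.1 hi] at h; simp at h]
    · rcases f2 with (h | h) | h
      exacts [by rw [n1.2 hi] at h; simp at h, h, by rw [n2.1 hi] at h; simp at h]
    · rcases f3 with (h | h) | h
      exacts [by rw [n2.2 hi] at h; simp at h, h, by rw [n3.1 hi] at h; simp at h]
    · rcases f4 with (h | h) | h
      exacts [by rw [n3.2 hi] at h; simp at h, h, by rw [n4.1 hi] at h; simp at h]
    · rcases f5 with (h | h) | h
      exacts [by rw [n4.2 hi] at h; simp at h, h, by rw [n5.1 hi] at h; simp at h]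
  obtain ⟨t2, ht2⟩ : ∃ t2, has t t2 = false := by
    have : ∀ p : Fin 5 × Fin 5, ∃ i, has p i = false := by decide
    exact this t
  obtain ⟨i, j, hi, hj, hxi, hxj, hl⟩ := linked_connected E hE hcl hd (x := x)
    (fun i => has t i = true) (i₀ := t.1) (j₀ := t2) (by simp [has]) (by simp [ht2]) (hx _) (hx _)
  obtain ⟨k, hk, hki, hkj⟩ : ∃ k < 6, has (P k) i = true ∧ has (P k) j = true := by
    have := hcross i j hi (Bool.eq_false_iff.2 hj)
    simp only [List.any_cons, List.any_nil, Bool.or_eq_true, Bool.and_eq_true, Bool.false_eq_true,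
      or_false] at this
    rcases this with h | h | h | h | h | h
    exacts [⟨0, by omega, h⟩, ⟨1, by omega, h⟩, ⟨2, by omega, h⟩, ⟨3, by omega, h⟩,
      ⟨4, by omega, h⟩, ⟨5, by omega, h⟩]
  obtain ⟨e, he, hloc⟩ := local_colours E (Q k)
  refine no_pair_arc E hE hB hcl (mem_sphere.1 (hQs k)) he (i := i) (j := j) (fun z hz l hl' => ?_) hl
  have := exact' k hk l (hloc z hz l hl')
  have two : ∀ p : Fin 5 × Fin 5, ∀ a b c, a ≠ b → has p a = true → has p b = true →
      has p c = true → c = a ∨ c = b := by decide +kernel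
  exact two (P k) i j l (fun e => hj (e ▸ hi)) hki hkj this

end Vale.Agent.P032
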