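import Vale.Agent.P032.Pair

/-!
Both kinds of two-coloured arcs at a four-class point: where their closures can meet.
-/

namespace Vale.Agent.P032

open Metric Set Complex ComplexConjugate

/-- Four classes closed up to a cycle, with the sectors this gives. -/
structure Cyc (E : Fin 5 → Set ℂ) (x : ℂ) (a b c d e : Fin 5) (va vc : ℂ) (δ : ℝ) : Prop where
  four : Four E x a b c d e
  ad : Linked (fun i => closure (E i)) x a d
  hva : ‖va‖ = 1
  hvc : ‖vc‖ = 1
  hδ : 0 < δ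
  sa : Sec x va δ ⊆ E a
  sb : Sec x (-va) δ ⊆ E b
  sc : Sec x vc δ ⊆ E c
  sd : Sec x (-vc) δ ⊆ E d

lemma Cyc.mirror {E : Fin 5 → Set ℂ} {x : ℂ} {a b c d e : Fin 5} {va vc : ℂ} {δ : ℝ}
    (h : Cyc E x a b c d e va vc δ) : Cyc E x d c b a e (-vc) (-va) δ where
  four := h.four.mirror
  ad := linked_symm h.ad
  hva := by simpa using h.hvc
  hvc := by simpa using h.hva
  hδ := h.hδ
  sa := h.sd
  sb := by simpa using h.sc
  sc := h.sb
  sd := by simpa using h.sa

lemma pure_comm (E : Fin 5 → Set ℂ) (x : ℂ) (i j k : Fin 5) : Pure E x i j k = Pure E x j i k := by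
  ext p
  simp only [Pure, mem_ofPred_eq]
  tauto

/-- Positive, negative or zero as `q` lies left, right or on the line from `x` through `p`. -/
def cr (x p q : ℂ) : ℝ := (conj (q - x) * (I * (p - x))).re

lemma cr_swap (x p q : ℂ) : cr x q p = -cr x p q := by
  simp [cr]
  ring

/-- A point of the arcs in `a` and `b` at the boundary of these. -/
def Edge (E : Fin 5 → Set ℂ) (x : ℂ) (a b c d e : Fin 5) (p : ℂ) : Prop :=
  p ∈ closure (Pure E x c d e) ∧ (p ∈ closure (Pure E x a b e) ∨ p ∈ closure (Whole E x e))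

lemma pure_sphere (E : Fin 5 → Set ℂ) (x : ℂ) (i j k : Fin 5) :
    closure (Pure E x i j k) ⊆ sphere x 1 :=
  closure_minimal (fun _ h => h.1) isClosed_sphere

lemma whole_sub (E : Fin 5 → Set ℂ) (x : ℂ) (e : Fin 5) :
    closure (Whole E x e) ⊆ closure (E e) :=
  closure_minimal (fun p hp => by
    obtain ⟨hp, ρ, hρ, h⟩ := hp
    exact h ⟨hp, mem_ball_self hρ⟩) isClosed_closure

variable (E : Fin 5 → Set ℂ) (hE : ∀ i, IsOpen (E i))
  (hB : ∀ i, ∀ y ∈ E i, ∀ z ∈ E i, dist y z ≠ 1)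
  (hR : ∀ i, interior (closure (E i)) = E i)
  (hcl : ∀ x, ∃ i, x ∈ closure (E i))
  (hd : ∀ i j, i ≠ j → Disjoint (E i) (E j))
  {x : ℂ} {a b c d e : Fin 5} {va vc : ℂ} {δ : ℝ}

include hE hB hR hcl in
lemma pure_sub (h4 : Four E x a b c d e) :
    closure (Pure E x c d e) ⊆ closure (E a) ∩ closure (E b) :=
  closure_minimal (fun p hp => by
    obtain ⟨⟨ρ, hρ, ha, hb⟩, -⟩ := pure_ab E hE hB hR hcl h4 hp
    exact ⟨ha ⟨hp.1, mem_ball_self hρ⟩, hb ⟨hp.1, mem_ball_self hρ⟩⟩)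
    (isClosed_closure.inter isClosed_closure)

include hE hB hR hcl in
/-- The two kinds of pure arcs and the fifth colour fill the circle densely. -/
lemma circle_cover (h : Cyc E x a b c d e va vc δ) :
    sphere x 1 ⊆ closure (Pure E x c d e) ∪ closure (Pure E x a b e) ∪ closure (Whole E x e) := by
  intro p hp
  by_contra hn
  obtain ⟨ρ, hρ, hρs⟩ := Metric.isOpen_iff.1
    ((isClosed_closure.union isClosed_closure).union isClosed_closure).isOpen_compl p hn
  obtain ⟨q, hq, ε', hε', hsub, hgen⟩ := generic E hp hρ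
  refine hρs hq.2 ?_
  by_cases hqe : q ∈ closure (E e)
  · exact Or.inr (subset_closure ⟨hq.1, ε', hε', fun z hz => (hgen z hz e).2 hqe⟩)
  obtain ⟨h1, h2, h3, h4', h5, h6, h7, h8, h9, h10⟩ := h.four.hne
  have hu : ‖q - x‖ = 1 := by rw [← dist_eq_norm]; exact mem_sphere.1 hq.1
  have three : ∀ i j k, i ≠ j → i ≠ k → j ≠ k → i ≠ e → j ≠ e → k ≠ e →
      q ∈ closure (E i) → q ∈ closure (E j) → q ∉ closure (E k) := by
    intro i j k n1 n2 n3 n4 n5 n6 qi qj qk
    refine no_three E hE hB hR hcl h.four hu hε' n1 n2 n3 n4 n5 n6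
      fun m hm => Or.inl fun z hz => (hgen z (by rwa [add_sub_cancel] at hz) m).2 ?_
    rcases hm with rfl | rfl | rfl <;> assumption
  rcases label_cases E hE hB hR hcl h.four hq.1 hqe with hl | hl | hl
  · exact Or.inl (Or.inl (subset_closure ⟨hq.1, three a b c h1 h2 h5 h4' h7 h9 hl.1 hl.2,
      three a b d h1 h3 h6 h4' h7 h10 hl.1 hl.2, hqe⟩))
  · exact Or.inl (Or.inr (subset_closure ⟨hq.1,
      three c d a h8 h2.symm h3.symm h9 h10 h4' hl.1 hl.2,
      three c d b h8 h5.symm h6.symm h9 h10 h7 hl.1 hl.2, hqe⟩))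
  · exact absurd h.ad hl.1

/-- Points of two kinds on the boundary of a connected open side link the two colours there. -/
lemma side_link {p : ℂ} {i k : Fin 5} {η : ℝ}
    (hX : ∀ r > 0, ∃ C, IsPreconnected C ∧ C.Nontrivial ∧ C ⊆ sphere x 1 ∩ ball p r ∧
      C ⊆ closure (E k))
    (hk : ∀ r > 0, ∃ q ∈ sphere x 1 ∩ ball p r, q ∉ closure (E k))
    (hη : 0 < η) (U : ℝ → Set ℂ)
    (hU : ∀ r, 0 < r → r ≤ η → IsOpen (U r) ∧ IsPreconnected (U r) ∧ U r ⊆ ball p r ∧
      U r ⊆ closure (E i) ∪ closure (E k) ∧ sphere x 1 ∩ ball p r ⊆ closure (U r)) :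
    Linked (fun i => closure (E i)) p i k := by
  intro ε hε
  have hr : 0 < min ε η := lt_min hε hη
  obtain ⟨ho, hp, hb, hc, hs⟩ := hU _ hr (min_le_right _ _)
  have hbc : ball p (min ε η) ⊆ closedBall p ε :=
    (ball_subset_ball (min_le_left _ _)).trans ball_subset_closedBall
  rcases separation isClosed_closure isClosed_closure ho hp hc with ⟨C, hC, hCp, hCn⟩ | h | h
  · exact ⟨C, hCp, fun z hz => ⟨(hC hz).1, hbc (hb (hC hz).2)⟩, hCn⟩
  · obtain ⟨C, hCp, hCn, hCs, hCk⟩ := hX _ hr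
    exact ⟨C, hCp, fun z hz => ⟨⟨closure_minimal h isClosed_closure (hs (hCs hz)), hCk hz⟩,
      hbc (hCs hz).2⟩, hCn⟩
  · obtain ⟨q, hq, hqk⟩ := hk _ hr
    exact absurd (closure_minimal h isClosed_closure (hs hq)) hqk

lemma inner_side {p : ℂ} {r : ℝ} :
    IsPreconnected (ball p r ∩ ball x 1) ∧
      sphere x 1 ∩ ball p r ⊆ closure (ball p r ∩ ball x 1) := by
  refine ⟨((convex_ball _ _).inter (convex_ball _ _)).isPreconnected, fun q hq => ?_⟩
  have : q ∈ closure (ball x 1) := by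
    rw [closure_ball x one_ne_zero]; exact sphere_subset_closedBall hq.1
  exact isOpen_ball.inter_closure ⟨hq.2, this⟩

lemma outer_side {p : ℂ} (hp : p ∈ sphere x 1) {r : ℝ} (hr : 0 < r) (hr' : r ≤ 1 / 4) :
    IsPreconnected (ball p r ∩ {y | 1 < dist y x}) ∧
      sphere x 1 ∩ ball p r ⊆ closure (ball p r ∩ {y | 1 < dist y x}) := by
  have hp1 : ‖p - x‖ = 1 := by rw [← dist_eq_norm]; exact mem_sphere.1 hp
  refine ⟨by simpa using outer_preconnected (x := x) hp1 hr hr', fun q hq => ?_⟩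
  refine isOpen_ball.inter_closure ⟨hq.2, Metric.mem_closure_iff.2 fun η hη => ?_⟩
  obtain ⟨h1, h2⟩ := smul_ne (mem_sphere.1 hq.1) (half_pos hη)
  refine ⟨q + ((η / 2 : ℝ) : ℂ) * (q - x), ?_, by rw [dist_comm, h2]; linarith⟩
  rw [mem_ofPred_eq, dist_eq_norm, show q + ((η / 2 : ℝ) : ℂ) * (q - x) - x =
    ((1 + η / 2 : ℝ) : ℂ) * (q - x) by push_cast; ring, norm_mul, Complex.norm_real,
    ← dist_eq_norm, mem_sphere.1 hq.1, mul_one, Real.norm_eq_abs, abs_of_pos (by linarith)]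
  linarith

include hE hB hR hcl hd in
/-- Where arcs of the fifth colour end at arcs in `a` and `b`, a third of the four appears. -/
lemma triangle_at (h : Cyc E x a b c d e va vc δ) {p : ℂ} (hX : p ∈ closure (Pure E x c d e))
    (hZ : p ∈ closure (Whole E x e)) : p ∈ closure (E c) ∨ p ∈ closure (E d) := by
  by_contra hn
  rw [not_or] at hn
  obtain ⟨h1, h2, h3, h4', h5, h6, h7, h8, h9, h10⟩ := h.four.hne
  have hps : p ∈ sphere x 1 := pure_sphere E x c d e hX
  have hp1 : ‖p - x‖ = 1 := by rw [← dist_eq_norm]; exact mem_sphere.1 hps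
  obtain ⟨hpa, hpb⟩ := pure_sub E hE hB hR hcl h.four hX
  have hpe := whole_sub E x e hZ
  have hc0 : (conj va * (p - x)).re ≠ 0 := fun h0 =>
    perp_avoid E hE hB h.hδ h.sa h.hva hp1 h0 hpa
  obtain ⟨ρ, hρ, hs⟩ := sides E hE hB h.hδ h.sa h.sb h.hva hp1
  obtain ⟨ρ', hρ', hloc⟩ := local_colours E p
  set η := min (min ρ ρ') (1 / 4)
  have hη : 0 < η := lt_min (lt_min hρ hρ') (by norm_num)
  have three : ∀ y ∈ ball p η, y ∈ closure (E a) ∨ y ∈ closure (E b) ∨ y ∈ closure (E e) := by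
    intro y hy
    obtain ⟨m, hm⟩ := hcl y
    have := hloc y (ball_subset_ball ((min_le_left _ _).trans (min_le_right _ _)) hy) m hm
    rcases h.four.hall m with rfl | rfl | rfl | rfl | rfl
    exacts [Or.inl hm, Or.inr (Or.inl hm), absurd this hn.1, absurd this hn.2, Or.inr (Or.inr hm)]
  have hside : ∀ y ∈ ball p η,
      ((dist y x - 1) * (conj va * (p - x)).re > 0 → y ∈ closure (E b) ∪ closure (E e)) ∧
      ((dist y x - 1) * (conj va * (p - x)).re < 0 → y ∈ closure (E a) ∪ closure (E e)) := by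
    intro y hy
    have hh := hs y (ball_subset_ball ((min_le_left _ _).trans (min_le_left _ _)) hy)
    exact ⟨fun hh' => (three y hy).resolve_left (hh.1 hh'), fun hh' => (three y hy).imp id
      fun h' => h'.resolve_left (hh.2 hh')⟩
  have arcX : ∀ r > 0, ∃ C, IsPreconnected C ∧ C.Nontrivial ∧
      C ⊆ sphere x 1 ∩ ball p r ∧ C ⊆ closure (E a) ∩ closure (E b) := by
    intro r hr
    obtain ⟨q, hq, hqp⟩ := Metric.mem_closure_iff.1 hX r hr
    obtain ⟨⟨σ, hσ, ha, hb⟩, -⟩ := pure_ab E hE hB hR hcl h.four hq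
    obtain ⟨C, hC, hCs, hCn⟩ := small_arc hq.1 (lt_min hσ (sub_pos.2 hqp))
    refine ⟨C, hC, hCn, fun z hz => ⟨(hCs hz).1, ?_⟩, fun z hz => ?_⟩
    · have := (mem_ball.1 (hCs hz).2).trans_le (min_le_right _ _)
      exact mem_ball.2 (by linarith [dist_triangle z q p, dist_comm p q])
    · have := And.intro (hCs hz).1 (ball_subset_ball (min_le_left _ _) (hCs hz).2)
      exact ⟨ha this, hb this⟩
  have arcZ : ∀ r > 0, ∃ C, IsPreconnected C ∧ C.Nontrivial ∧
      C ⊆ sphere x 1 ∩ ball p r ∧ C ⊆ closure (E e) := by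
    intro r hr
    obtain ⟨q, ⟨hqs, σ, hσ, hqe⟩, hqp⟩ := Metric.mem_closure_iff.1 hZ r hr
    obtain ⟨C, hC, hCs, hCn⟩ := small_arc hqs (lt_min hσ (sub_pos.2 hqp))
    refine ⟨C, hC, hCn, fun z hz => ⟨(hCs hz).1, ?_⟩, fun z hz => hqe ⟨(hCs hz).1,
      ball_subset_ball (min_le_left _ _) (hCs hz).2⟩⟩
    have := (mem_ball.1 (hCs hz).2).trans_le (min_le_right _ _)
    exact mem_ball.2 (by linarith [dist_triangle z q p, dist_comm p q])
  have noe : ∀ r > 0, ∃ q ∈ sphere x 1 ∩ ball p r, q ∉ closure (E e) := by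
    intro r hr
    obtain ⟨q, hq, hqp⟩ := Metric.mem_closure_iff.1 hX r hr
    exact ⟨q, ⟨hq.1, mem_ball'.2 hqp⟩, hq.2.2.2⟩
  have lab : Linked (fun i => closure (E i)) p a b := by
    intro ε hε
    obtain ⟨C, hC, hCn, hCs, hCab⟩ := arcX ε hε
    exact ⟨C, hC, fun z hz => ⟨hCab hz, ball_subset_closedBall (hCs hz).2⟩, hCn⟩
  have link : ∀ i, (∀ y ∈ ball p η, dist y x < 1 → y ∈ closure (E i) ∪ closure (E e)) ∨
      (∀ y ∈ ball p η, 1 < dist y x → y ∈ closure (E i) ∪ closure (E e)) →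
      Linked (fun i => closure (E i)) p i e := by
    intro i hi
    rcases hi with hi | hi
    · refine side_link E arcZ noe hη (fun r => ball p r ∩ ball x 1) fun r hr hrη => ?_
      obtain ⟨u1, u2⟩ := inner_side (x := x) (p := p) (r := r)
      exact ⟨isOpen_ball.inter isOpen_ball, u1, inter_subset_left,
        fun y hy => hi y (ball_subset_ball hrη hy.1) hy.2, u2⟩
    · refine side_link E arcZ noe hη (fun r => ball p r ∩ {y | 1 < dist y x})
        fun r hr hrη => ?_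
      obtain ⟨u1, u2⟩ := outer_side hps hr (hrη.trans (min_le_right _ _))
      exact ⟨isOpen_ball.inter (isOpen_lt continuous_const (by fun_prop)), u1, inter_subset_left,
        fun y hy => hi y (ball_subset_ball hrη hy.1) hy.2, u2⟩
  have lae : Linked (fun i => closure (E i)) p a e := link a (by
    rcases lt_or_gt_of_ne hc0 with hc | hc
    · exact Or.inr fun y hy hy' => (hside y hy).2 (mul_neg_of_pos_of_neg (by linarith) hc)
    · exact Or.inl fun y hy hy' => (hside y hy).2 (mul_neg_of_neg_of_pos (by linarith) hc))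
  have lbe : Linked (fun i => closure (E i)) p b e := link b (by
    rcases lt_or_gt_of_ne hc0 with hc | hc
    · exact Or.inl fun y hy hy' => (hside y hy).1 (mul_pos_of_neg_of_neg (by linarith) hc)
    · exact Or.inr fun y hy hy' => (hside y hy).1 (mul_pos (by linarith) hc))
  exact no_triangle E hE hB hR hcl hd h1 h4' h7 hpa hpb hpe lab lae lbe

include hE hB hR hcl hd in
/-- At an edge point, all arcs in `a` and `b` keep `a` on the same side of its perpendicular. -/
lemma extreme (h : Cyc E x a b c d e va vc δ) {p : ℂ} (hp : Edge E x a b c d e p) {q q' : ℂ}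
    (hq : q ∈ closure (Pure E x c d e)) (hq' : q' ∈ closure (Pure E x c d e)) :
    0 ≤ ((conj va * (q - x)).re * cr x p q) * ((conj va * (q' - x)).re * cr x p q') := by
  by_contra hneg
  push Not at hneg
  let g : ℂ → ℝ := fun q => (conj va * (q - x)).re * cr x p q
  have hgc : Continuous g := by unfold g cr; fun_prop
  obtain ⟨r, hr, hr0, r', hr', hr'0⟩ : ∃ r ∈ Pure E x c d e, 0 < g r ∧
      ∃ r' ∈ Pure E x c d e, g r' < 0 := by
    have pos : ∀ q ∈ closure (Pure E x c d e), 0 < g q → ∃ r ∈ Pure E x c d e, 0 < g r :=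
      fun q hq h0 => by
        obtain ⟨r, h1, h2⟩ := mem_closure_iff.1 hq _ (isOpen_lt continuous_const hgc) h0
        exact ⟨r, h2, h1⟩
    have neg : ∀ q ∈ closure (Pure E x c d e), g q < 0 → ∃ r ∈ Pure E x c d e, g r < 0 :=
      fun q hq h0 => by
        obtain ⟨r, h1, h2⟩ := mem_closure_iff.1 hq _ (isOpen_lt hgc continuous_const) h0
        exact ⟨r, h2, h1⟩
    rcases mul_neg_iff.1 hneg with ⟨h1, h2⟩ | ⟨h1, h2⟩
    · obtain ⟨r, hr, hr0⟩ := pos q hq h1
      exact ⟨r, hr, hr0, neg q' hq' h2⟩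
    · obtain ⟨r, hr, hr0⟩ := pos q' hq' h2
      exact ⟨r, hr, hr0, neg q hq h1⟩
  obtain ⟨h1, h2, h3, h4', h5, h6, h7, h8, h9, h10⟩ := h.four.hne
  have hps : p ∈ sphere x 1 := pure_sphere E x c d e hp.1
  have hp1 : ‖p - x‖ = 1 := by rw [← dist_eq_norm]; exact mem_sphere.1 hps
  have hpcd : p ∈ closure (E c) ∨ p ∈ closure (E d) := by
    rcases hp.2 with hY | hZ
    · have := pure_sub E hE hB hR hcl h.four.mirror (by rwa [pure_comm E x b a e])
      exact Or.inl this.2
    · exact triangle_at E hE hB hR hcl hd h hp.1 hZ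
  obtain ⟨ρx, hρx, hloc⟩ := local_colours E x
  obtain ⟨η₀, hη₀, hno⟩ : ∃ η > 0, ∀ C, IsPreconnected C →
      C ⊆ closure (E c) ∩ closure (E d) ∩ closedBall x η → C.Subsingleton := by
    have := h.four.cd
    simp only [Linked, not_forall, not_exists, not_and] at this
    obtain ⟨η, hη, hno⟩ := this
    exact ⟨η, hη, fun C h1 h2 => Set.not_nontrivial_iff.1 (hno C h1 h2)⟩
  -- the two sectors at right angles to the direction of `p`
  have avoid : ∀ r ∈ Pure E x c d e, ∀ s : ℝ, |s| = 1 → ∃ σ > 0,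
      ∀ z ∈ Sec x ((s : ℂ) * (I * (p - x))) σ,
        (s * g r < 0 → z ∉ closure (E a)) ∧ (0 < s * g r → z ∉ closure (E b)) := by
    intro r hr s hs
    have hr1 : ‖r - x‖ = 1 := by rw [← dist_eq_norm]; exact mem_sphere.1 hr.1
    obtain ⟨η, hη, hband⟩ := band E hE hB hR hcl h.hδ h.sa h.sb h.hva hr1
      (pure_ab E hE hB hR hcl h.four hr).2
    rcases eq_or_ne (cr x p r) 0 with h0 | h0
    · exact ⟨1, one_pos, fun z _ => by simp [g, h0]⟩
    have hκ : (conj (r - x) * ((s : ℂ) * (I * (p - x)))).re = s * cr x p r := by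
      rw [mul_left_comm, Complex.re_ofReal_mul, cr]
    obtain ⟨σ, hσ, hside⟩ := sec_side (x := x) (u := r - x) (v := (s : ℂ) * (I * (p - x))) hr1
      (by simp [hs, hp1]) (by
        rw [hκ]; exact mul_ne_zero (fun e => by simp [e] at hs) h0)
    refine ⟨min σ η, lt_min hσ hη, fun z hz => ?_⟩
    have hD := hside z (sec_mono (min_le_left _ _) hz)
    rw [add_sub_cancel, hκ] at hD
    obtain ⟨ba, bb⟩ := hband z (mem_ball.2 (hz.1.trans_le (min_le_right _ _)))
    constructor <;> intro hsg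
    · refine ba ?_
      by_contra hle
      push Not at hle
      simp only [g] at hsg
      nlinarith [mul_pos_of_neg_of_neg hD hsg, mul_nonpos_of_nonpos_of_nonneg hle
        (sq_nonneg (s * cr x p r))]
    · refine bb ?_
      by_contra hle
      push Not at hle
      simp only [g] at hsg
      nlinarith [mul_neg_of_neg_of_pos hD hsg, mul_nonneg hle (sq_nonneg (s * cr x p r))]
  have one : ∀ s : ℝ, (s = 1 ∨ s = -1) → ∃ σ > 0, Sec x ((s : ℂ) * (I * (p - x))) σ ⊆ E c ∨
      Sec x ((s : ℂ) * (I * (p - x))) σ ⊆ E d := by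
    intro s hs
    have hs1 : |s| = 1 := by rcases hs with rfl | rfl <;> simp
    obtain ⟨σ₁, hσ₁, a₁⟩ := avoid r hr s hs1
    obtain ⟨σ₂, hσ₂, a₂⟩ := avoid r' hr' s hs1
    set σ := min (min σ₁ σ₂) (min ρx η₀)
    have hσ : 0 < σ := lt_min (lt_min hσ₁ hσ₂) (lt_min hρx hη₀)
    refine ⟨σ, hσ, mono E hR hno (isOpen_sec _ _ _) (convex_sec _ _ _).isPreconnected
      (fun z hz => mem_closedBall.2 (hz.1.le.trans ((min_le_right _ _).trans (min_le_right _ _))))
      fun z hz => ?_⟩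
    obtain ⟨m, hm⟩ := hcl z
    have hxm := hloc z (mem_ball.2 (hz.1.trans_le ((min_le_right _ _).trans (min_le_left _ _)))) m hm
    have k1 := a₁ z (sec_mono ((min_le_left _ _).trans (min_le_left _ _)) hz)
    have k2 := a₂ z (sec_mono ((min_le_left _ _).trans (min_le_right _ _)) hz)
    rcases h.four.hall m with rfl | rfl | rfl | rfl | rfl
    · rcases hs with rfl | rfl
      · exact absurd hm (k2.1 (by linarith))
      · exact absurd hm (k1.1 (by linarith))
    · rcases hs with rfl | rfl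
      · exact absurd hm (k1.2 (by linarith))
      · exact absurd hm (k2.2 (by linarith))
    · exact Or.inl hm
    · exact Or.inr hm
    · exact absurd hxm h.four.he
  obtain ⟨σ, hσ, h1'⟩ := one 1 (Or.inl rfl)
  obtain ⟨σ', hσ', h2'⟩ := one (-1) (Or.inr rfl)
  simp only [Complex.ofReal_one, one_mul, Complex.ofReal_neg, neg_mul] at h1' h2'
  have hn : ‖I * (p - x)‖ = 1 := by simp [hp1]
  have hperp : (conj (I * (p - x)) * (p - x)).re = 0 ∧ (conj (-(I * (p - x))) * (p - x)).re = 0 := by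
    constructor <;> simp <;> ring
  have same : ∀ g, Sec x (I * (p - x)) σ ⊆ E g → Sec x (-(I * (p - x))) σ' ⊆ E g → False := by
    intro g hg hg'
    obtain ⟨y, hy, hyg⟩ := h.four.meets g
    exact absent E hE hB (lt_min hσ hσ') ((sec_mono (min_le_left _ _)).trans hg)
      ((sec_mono (min_le_right _ _)).trans hg') hn
      (by rw [← dist_eq_norm]; exact mem_sphere.1 hy) hyg
  have away := fun i (hi : Sec x (I * (p - x)) σ ⊆ E i) =>
    perp_avoid E hE hB hσ hi hn hp1 hperp.1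
  have away' := fun i (hi : Sec x (-(I * (p - x))) σ' ⊆ E i) =>
    perp_avoid E hE hB hσ' hi (by simpa using hn) hp1 hperp.2
  rcases h1' with k | k <;> rcases h2' with k' | k'
  · exact same c k k'
  · exact hpcd.elim (away c k) (away' d k')
  · exact hpcd.elim (away' c k') (away d k)
  · exact same d k k'

include hE hB hR hcl hd in
/-- The edge points lie on at most two lines through the centre. -/
lemma no_triple (h : Cyc E x a b c d e va vc δ) {p₁ p₂ p₃ : ℂ} (hp₁ : Edge E x a b c d e p₁)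
    (hp₂ : Edge E x a b c d e p₂) (hp₃ : Edge E x a b c d e p₃) (n₁ : cr x p₁ p₂ ≠ 0)
    (n₂ : cr x p₁ p₃ ≠ 0) (n₃ : cr x p₂ p₃ ≠ 0) : False := by
  have hne : ∀ p, Edge E x a b c d e p → (conj va * (p - x)).re ≠ 0 := fun p hp h0 =>
    perp_avoid E hE hB h.hδ h.sa h.hva
      (by rw [← dist_eq_norm]; exact mem_sphere.1 (pure_sphere E x c d e hp.1)) h0
      (pure_sub E hE hB hR hcl h.four hp.1).1
  have e₁ := extreme E hE hB hR hcl hd h hp₁ hp₂.1 hp₃.1
  have e₂ := extreme E hE hB hR hcl hd h hp₂ hp₁.1 hp₃.1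
  have e₃ := extreme E hE hB hR hcl hd h hp₃ hp₁.1 hp₂.1
  rw [cr_swap x p₁ p₂] at e₂
  rw [cr_swap x p₁ p₃, cr_swap x p₂ p₃] at e₃
  have a₁ := hne p₁ hp₁
  have a₂ := hne p₂ hp₂
  have a₃ := hne p₃ hp₃
  revert e₁ e₂ e₃ a₁ a₂ a₃
  generalize (conj va * (p₁ - x)).re = A₁
  generalize (conj va * (p₂ - x)).re = A₂
  generalize (conj va * (p₃ - x)).re = A₃
  intro e₁ e₂ e₃ a₁ a₂ a₃
  have := mul_nonneg (mul_nonneg e₁ e₂) e₃
  have hpos : 0 < (A₁ * A₂ * A₃ * (cr x p₁ p₂ * cr x p₁ p₃ * cr x p₂ p₃)) ^ 2 :=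
    lt_of_le_of_ne (sq_nonneg _) (Ne.symm (pow_ne_zero 2 (by
      simp only [ne_eq, mul_eq_zero, not_or]
      exact ⟨⟨⟨a₁, a₂⟩, a₃⟩, ⟨n₁, n₂⟩, n₃⟩)))
  nlinarith

end Vale.Agent.P032
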