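import Vale.Agent.P032.Kinds
import Mathlib.Analysis.Complex.Isometry

/-!
Both kinds of two-coloured arcs at a four-class point: the hexagon of arcs is impossible.
-/

namespace Vale.Agent.P032

open Metric Set Complex ComplexConjugate

/-- Two arcs of different pairs beside one of the fifth colour, or alternating arcs. -/
lemma junction : ∀ f : Fin 6 → Fin 3, (∀ k, f k ≠ f (k + 1)) →
    (∀ k, ¬ (f k = 0 ∧ f (k + 3) = 1)) → ∃ k,
      (((f (k + 5) = 0 ∧ f k = 1) ∨ (f (k + 5) = 1 ∧ f k = 0)) ∧ (f (k + 4) = 2 ∨ f (k + 1) = 2)) ∨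
      (f k = 2 ∧ f (k + 5) ≠ 2 ∧ f (k + 1) = f (k + 5) ∧ f (k + 4) = 2) := by
  decide +kernel

lemma closure_conj (s : Set ℂ) :
    closure ((fun z => conj z) ⁻¹' s) = (fun z => conj z) ⁻¹' closure s :=
  (Complex.conjLIE.toHomeomorph.preimage_closure s).symm

variable (E : Fin 5 → Set ℂ) (hE : ∀ i, IsOpen (E i))
  (hB : ∀ i, ∀ y ∈ E i, ∀ z ∈ E i, dist y z ≠ 1)
  (hR : ∀ i, interior (closure (E i)) = E i)
  (hcl : ∀ x, ∃ i, x ∈ closure (E i))
  (hd : ∀ i j, i ≠ j → Disjoint (E i) (E j))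

include hE hB hR hcl in
/-- The reflection of `half`. -/
lemma half_refl {x u ω : ℂ} (hu : ‖u‖ = 1) (hω : ω.re = 1 / 2) (hω1 : ‖ω‖ = 1) {p q r s : Fin 5}
    (hw : ∀ i, x + u ∈ closure (E i) → i = p ∨ i = q ∨ i = r ∨ i = s)
    (hw' : x + conj ω * u ∈ closure (E r)) {ε : ℝ} (hε : 0 < ε)
    (hside : ∀ t ∈ sphere x 1 ∩ ball (x + ω * u) ε,
      (conj (ω * u) * (t - x)).im < 0 → t ∈ closure (E p) ∧ t ∈ closure (E q)) :
    ∃ η > 0, ∀ z ∈ ball x η, (dist z (x + u) - 1) * ω.im < 0 → z ∉ closure (E s) := by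
  set E' : Fin 5 → Set ℂ := fun i => (fun z => conj z) ⁻¹' E i with hE'
  have mem : ∀ i z, z ∈ closure (E' i) ↔ conj z ∈ closure (E i) := fun i z => by
    rw [hE', closure_conj]; rfl
  have hR' : ∀ i, interior (closure (E' i)) = E' i := fun i => by
    rw [hE', closure_conj]
    show interior (Complex.conjLIE.toHomeomorph ⁻¹' closure (E i)) = _
    rw [← Homeomorph.preimage_interior, hR]
    rfl
  obtain ⟨η, hη, h⟩ := half E' (fun i => (hE i).preimage Complex.continuous_conj)
    (fun i y hy z hz => by rw [← Complex.dist_conj_conj]; exact hB i _ hy _ hz) hR'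
    (fun z => (hcl (conj z)).imp fun i hi => (mem i z).2 hi)
    (x := conj x) (u := conj u) (ω := ω) (by simpa using hu) hω hω1 (p := p) (q := q) (r := r)
    (s := s)
    (fun i hi => hw i (by simpa using (mem i _).1 hi)) ((mem r _).2 (by simpa using hw')) hε
    (fun t ht him => by
      rw [mem p, mem q]
      refine hside _ ⟨?_, ?_⟩ ?_
      · rw [mem_sphere, ← Complex.dist_conj_conj, Complex.conj_conj]; exact mem_sphere.1 ht.1
      · rw [mem_ball, ← Complex.dist_conj_conj, Complex.conj_conj]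
        simpa using mem_ball.1 ht.2
      · rw [show conj (ω * u) * (conj t - x) = conj (conj (conj ω * conj u) * (t - conj x)) by simp,
          Complex.conj_im]
        linarith)
  refine ⟨η, hη, fun z hz hside' => ?_⟩
  have := h (conj z) (by rw [mem_ball, Complex.dist_conj_conj]; exact hz)
    (by rwa [← map_add, Complex.dist_conj_conj])
  rwa [mem, Complex.conj_conj] at this

variable {x : ℂ} {a b c d e : Fin 5}

include hE hB hR hcl in
/-- Arcs of the two pairs cannot meet where their neighbours carry the same pairs. -/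
lemma clash (h4 : Four E x a b c d e) {v : ℂ} (hv1 : ‖v‖ = 1) {p q k₁ k₂ : Fin 5}
    (hperm : ∀ m, m = a ∨ m = b ∨ m = c ∨ m = d → m = p ∨ m = q ∨ m = k₁ ∨ m = k₂)
    (hw : ∀ m, x + v ∈ closure (E m) → m = p ∨ m = q ∨ m = k₁ ∨ m = k₂)
    (hr : x + om * v ∈ closure (E k₁)) (hs : x + om * v ∈ closure (E k₂))
    (hp : x + conj om * v ∈ closure (E p)) (hq : x + conj om * v ∈ closure (E q))
    (hside : ∀ t ∈ sphere x 1 ∩ ball (x + conj om * v) (1 / 4),
      0 < (conj (conj om * v) * (t - x)).im → t ∈ closure (E p) ∧ t ∈ closure (E q))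
    (hside' : ∀ t ∈ sphere x 1 ∩ ball (x + om * v) (1 / 4),
      (conj (om * v) * (t - x)).im < 0 → t ∈ closure (E k₁) ∧ t ∈ closure (E k₂)) : False := by
  have hom : 0 < om.im := by simp [om]
  obtain ⟨η₁, hη₁, z₁⟩ := half E hE hB hR hcl hv1 (by simp [om]) norm_om
    (r := k₁) (s := k₂) hw hr (by norm_num) hside
  obtain ⟨η₂, hη₂, z₂⟩ := half E hE hB hR hcl hv1 (by simp [om]) norm_om
    (r := k₂) (s := k₁) (fun m hm => by have := hw m hm; tauto)
    hs (by norm_num) hside
  obtain ⟨η₃, hη₃, z₃⟩ := half_refl E hE hB hR hcl hv1 (by simp [om]) norm_om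
    (r := p) (s := q) (fun m hm => by have := hw m hm; tauto)
    hp (by norm_num) hside'
  obtain ⟨η₄, hη₄, z₄⟩ := half_refl E hE hB hR hcl hv1 (by simp [om]) norm_om
    (r := q) (s := p) (fun m hm => by have := hw m hm; tauto)
    hq (by norm_num) hside'
  obtain ⟨ρ, hρ, hloc⟩ := local_colours E x
  set R := min (min (min η₁ η₂) (min η₃ η₄)) (min ρ 1)
  have hR0 : 0 < R := lt_min (lt_min (lt_min hη₁ hη₂) (lt_min hη₃ hη₄)) (lt_min hρ one_pos)
  have hR1 : R ≤ η₁ ∧ R ≤ η₂ ∧ R ≤ η₃ ∧ R ≤ η₄ ∧ R ≤ ρ ∧ R ≤ 1 := by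
    simp only [R, min_le_iff, le_refl, true_or, or_true, and_self]
  obtain ⟨r1, r2, r3, r4, rρ, r1'⟩ := hR1
  set z := x + ((R / 2 : ℝ) : ℂ) * v with hz
  have hzx : dist z x = R / 2 := by
    rw [dist_eq_norm, hz, add_sub_cancel_left, norm_mul, hv1, mul_one, Complex.norm_real,
      Real.norm_eq_abs, abs_of_pos (half_pos hR0)]
  have hzw : (dist z (x + v) - 1) * om.im < 0 := by
    rw [dist_eq_norm, hz, show x + ((R / 2 : ℝ) : ℂ) * v - (x + v) =
      ((R / 2 - 1 : ℝ) : ℂ) * v by push_cast; ring, norm_mul, hv1, mul_one, Complex.norm_real,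
      Real.norm_eq_abs, abs_of_neg (by linarith)]
    exact mul_neg_of_neg_of_pos (by linarith) hom
  obtain ⟨m, hm⟩ := hcl z
  have hzb : ∀ η, R ≤ η → z ∈ ball x η := fun η hη => mem_ball.2 (by linarith)
  rcases hperm m (by
    have hxm := hloc z (hzb ρ rρ) m hm
    rcases h4.hall m with h' | h' | h' | h' | h'
    exacts [Or.inl h', Or.inr (Or.inl h'), Or.inr (Or.inr (Or.inl h')),
      Or.inr (Or.inr (Or.inr h')), absurd (h' ▸ hxm) h4.he]) with rfl | rfl | rfl | rfl
  exacts [z₄ z (hzb _ r4) hzw hm, z₃ z (hzb _ r3) hzw hm, z₂ z (hzb _ r2) hzw hm,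
    z₁ z (hzb _ r1) hzw hm]

include hE hB hR hcl in
/-- The fifth colour cannot alternate with one pair. -/
lemma alternate {v : ℂ} (hv1 : ‖v‖ = 1) {p q s : Fin 5} (hxs : x ∈ closure (E s))
    (hw : ∀ m, x + v ∈ closure (E m) → m = p ∨ m = q ∨ m = e ∨ m = s)
    (ne1 : x + om * v ∈ closure (E e)) (ne5 : x + conj om * v ∈ closure (E e))
    (hside : ∀ t ∈ sphere x 1 ∩ ball (x + conj om * v) (1 / 4),
      0 < (conj (conj om * v) * (t - x)).im → t ∈ closure (E p) ∧ t ∈ closure (E q))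
    (hside' : ∀ t ∈ sphere x 1 ∩ ball (x + conj (conj om) * v) (1 / 4),
      0 < (conj (conj (conj om) * v) * (t - x)).im → t ∈ closure (E p) ∧ t ∈ closure (E q)) :
    False := by
  have hom : 0 < om.im := by simp [om]
  obtain ⟨η₁, hη₁, z₁⟩ := half E hE hB hR hcl hv1 (by simp [om]) norm_om hw ne1 (by norm_num)
    hside
  obtain ⟨η₂, hη₂, z₂⟩ := half E hE hB hR hcl hv1 (ω := conj om) (by simp [om])
    (by rw [RCLike.norm_conj, norm_om]) hw ne5 (by norm_num) hside'
  refine not_thin E hE (w := x + v) (lt_min hη₁ hη₂) hxs fun z hz hne => ?_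
  rcases lt_or_gt_of_ne hne with h' | h'
  · exact z₁ z (ball_subset_ball (min_le_left _ _) hz)
      (mul_neg_of_neg_of_pos (by linarith) hom)
  · exact z₂ z (ball_subset_ball (min_le_right _ _) hz)
      (mul_neg_of_pos_of_neg (by linarith) (by rw [Complex.conj_im]; linarith))


include hE hB hR hcl hd in
/-- Four classes at a point cannot have both kinds of two-coloured arcs. -/
theorem gamma (h4 : Four E x a b c d e) {q₁ q₂ : ℂ} (hq₁ : q₁ ∈ Pure E x c d e)
    (hq₂ : q₂ ∈ Pure E x a b e) : False := by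
  obtain ⟨had, va, vc, hva, hvc, δ, hδ, ⟨sa, sb⟩, sc, sd⟩ :=
    cycle E hE hB hR hcl hd h4 hq₁ hq₂
  have h : Cyc E x a b c d e va vc δ := ⟨h4, had, hva, hvc, hδ, sa, sb, sc, sd⟩
  obtain ⟨u, hu, hhex⟩ := hexagon E hE hB hR hcl hd h hq₁ hq₂
  set K := Kind E x a b c d e with hK
  set P := pr a b c d e with hP
  have sub : ∀ i y, y ∈ closure (K i) → y ∈ closure (E (P i).1) ∧ y ∈ closure (E (P i).2) :=
    fun i y hy => kind_sub E hE hB hR hcl h4 i hy
  have uniq : ∀ k, ∀ t ∈ Arc x u k, ∀ i j, t ∈ closure (K i) → t ∈ closure (K j) → i = j := by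
    intro k t ht i j hi hj
    by_contra hne
    obtain ⟨n, rfl⟩ := hhex t ⟨i, j, hne, hi, hj⟩
    exact arc_avoid hu k n ht
  -- each arc is of one kind
  have one : ∀ k, ∃ i, Arc x u k ⊆ closure (K i) := by
    intro k
    obtain ⟨t, ht⟩ : (Arc x u k).Nonempty := by
      rw [arc_eq hu]
      exact (nonempty_Ioo.2 (by positivity)).image _
    obtain ⟨i, hi⟩ := kind_cover E hE hB hR hcl h ht.1
    refine ⟨i, fun s hs => by_contra fun hsi => ?_⟩
    obtain ⟨j, hj⟩ := kind_cover E hE hB hR hcl h hs.1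
    obtain ⟨y, hy, hyi, hyj⟩ := isPreconnected_closed_iff.1 (arc_preconnected hu k)
      (closure (K i)) (⋃ m ∈ {m | m ≠ i}, closure (K m)) isClosed_closure
      ((Set.toFinite _).isClosed_biUnion fun m _ => isClosed_closure)
      (fun y hy => by
        obtain ⟨m, hm⟩ := kind_cover E hE hB hR hcl h hy.1
        by_cases hmi : m = i
        exacts [Or.inl (hmi ▸ hm), Or.inr (mem_biUnion (x := m) hmi hm)])
      ⟨t, ht, hi⟩ ⟨s, hs, mem_biUnion (x := j) (fun e => hsi (e ▸ hj)) hj⟩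
    obtain ⟨m, hm, hym⟩ := mem_iUnion₂.1 hyj
    exact hm (uniq k y hy m i hym hyi)
  choose col0 hcol0 using one
  set col : ℕ → Fin 3 := fun k => col0 (k % 6) with hcoldef
  have hcol : ∀ k, Arc x u k ⊆ closure (K (col k)) := fun k => arc_mod x u k ▸ hcol0 _
  have hper : ∀ k, col (k % 6) = col k := fun k => by simp [hcoldef]
  have around : ∀ k, ∀ t ∈ Arc x u k, ∃ ρ > 0,
      sphere x 1 ∩ ball t ρ ⊆ closure (E (P (col k)).1) ∧
      sphere x 1 ∩ ball t ρ ⊆ closure (E (P (col k)).2) := by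
    intro k t ht
    obtain ⟨ρ, hρ, hρs⟩ := Metric.isOpen_iff.1 ((Set.toFinite {m | m ≠ col k}).isClosed_biUnion
      fun m _ => isClosed_closure (s := K m)).isOpen_compl t (by
      simp only [mem_compl_iff, mem_iUnion, exists_prop, not_exists, not_and]
      exact fun m hm hm' => hm (uniq k t ht m _ hm' (hcol k ht)))
    have : ∀ y ∈ sphere x 1 ∩ ball t ρ, y ∈ closure (K (col k)) := by
      intro y hy
      obtain ⟨m, hm⟩ := kind_cover E hE hB hR hcl h hy.1
      by_contra hy'
      exact hρs hy.2 (mem_biUnion (x := m) (fun e => hy' (e ▸ hm)) hm)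
    exact ⟨ρ, hρ, fun y hy => (sub _ y (this y hy)).1, fun y hy => (sub _ y (this y hy)).2⟩
  have pick : ∀ k, (Arc x u k).Nonempty := fun k => by
    rw [arc_eq hu]
    exact (nonempty_Ioo.2 (by positivity)).image _
  have hadj : ∀ k, col k ≠ col (k + 1) := by
    intro k he
    obtain ⟨t, ht⟩ := pick k
    obtain ⟨ρ, hρ, h1, -⟩ := around k t ht
    exact turn_arc E hE hB (Or.inl rfl) ht.1 hρ h1
      (he.symm ▸ (sub _ _ (hcol (k + 1) (arc_rot ht))).1)
  have hanti : ∀ k, ¬ (col k = 0 ∧ col (k + 3) = 1) := by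
    rintro k ⟨e0, e1⟩
    obtain ⟨t, ht⟩ := pick k
    obtain ⟨ρ, hρ, ha, hb⟩ := around k t ht
    obtain ⟨ρ', hρ', hc, -⟩ := around (k + 3) _ (arc_neg ht)
    rw [e0] at ha hb
    rw [e1] at hc
    obtain ⟨n1, n2, n3, n4, n5, n6, n7, n8, n9, n10⟩ := h4.hne
    refine no_three E hE hB hR hcl h4 (u := t - x)
      (by rw [← dist_eq_norm]; exact mem_sphere.1 ht.1) (lt_min hρ hρ') n1 n2 n5 n4 n7 n9
      fun m hm => ?_
    rw [add_sub_cancel]
    rcases hm with rfl | rfl | rfl
    exacts [Or.inl fun z hz => ha ⟨hz.1, ball_subset_ball (min_le_left _ _) hz.2⟩,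
      Or.inl fun z hz => hb ⟨hz.1, ball_subset_ball (min_le_left _ _) hz.2⟩,
      Or.inr fun z hz => hc ⟨hz.1, ball_subset_ball (min_le_right _ _) hz.2⟩]
  have hshift : ∀ (i : Fin 6) (m : Fin 6), col ((i + m : Fin 6) : ℕ) = col ((i : ℕ) + (m : ℕ)) :=
    fun i m => by rw [Fin.val_add]; exact hper _
  obtain ⟨i, hi⟩ := junction (fun i => col (i : ℕ))
    (fun i => by rw [hshift i 1]; exact hadj _) (fun i => by rw [hshift i 3]; exact hanti _)
  simp only [hshift] at hi
  generalize hk : (i : ℕ) = k at hi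
  simp only [Fin.isValue, show ((5 : Fin 6) : ℕ) = 5 from rfl, show ((4 : Fin 6) : ℕ) = 4 from rfl,
    show ((1 : Fin 6) : ℕ) = 1 from rfl] at hi
  clear hk
  -- the corner before the arc `k`
  set v := om ^ k * u with hv
  have hv1 : ‖v‖ = 1 := norm_orbit hu k
  have hco : conj om = om ^ 5 := by simpa using conj_om_pow 1
  have e1 : om * v = om ^ (k + 1) * u := by rw [hv, pow_succ']; ring
  have e5 : conj om * v = om ^ (k + 5) * u := by rw [hv, hco, pow_add]; ring
  have start : ∀ j, x + om ^ j * u ∈ closure (K (col j)) := fun j =>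
    closure_minimal (hcol j) isClosed_closure (arc_ends hu j).1
  have stop : ∀ j, x + om ^ (j + 1) * u ∈ closure (K (col j)) := fun j =>
    closure_minimal (hcol j) isClosed_closure (arc_ends hu j).2
  have wk5 : x + v ∈ closure (K (col (k + 5))) := by
    simpa only [show k + 5 + 1 = k + 6 by ring, om_add_six] using stop (k + 5)
  have wk : x + v ∈ closure (K (col k)) := start k
  have n1e : col (k + 1) = 2 ∨ col k = 2 → x + om * v ∈ closure (E e) := by
    intro hh
    rw [e1]
    rcases hh with hh | hh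
    · exact (sub 2 _ (hh ▸ start (k + 1))).1
    · exact (sub 2 _ (hh ▸ stop k)).1
  have n5e : col (k + 4) = 2 → x + conj om * v ∈ closure (E e) := fun hh => by
    rw [e5]
    exact (sub 2 _ (hh ▸ stop (k + 4))).1
  have five : (∀ m, x + v ∈ closure (E m)) →
      (x + om * v ∈ closure (E e) ∨ x + conj om * v ∈ closure (E e)) → False := by
    intro hfull he
    obtain ⟨g, hg⟩ := five_absent E hE hB hR hcl hd _ hfull
    have hxw : x ∈ sphere (x + v) 1 := by simp [hv1]
    have near : ∀ ω, (ω = om ∨ ω = conj om) → x + ω * v ∈ sphere (x + v) 1 := by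
      intro ω hω
      rw [mem_sphere, dist_eq_norm, show x + ω * v - (x + v) = (ω - 1) * v by ring, norm_mul, hv1,
        mul_one]
      rcases hω with rfl | rfl
      · exact norm_om_sub_one
      · rw [conj_om, sub_sub_cancel_left, norm_neg, norm_om]
    rcases h4.hall g with rfl | rfl | rfl | rfl | rfl
    exacts [hg _ hxw h4.ha, hg _ hxw h4.hb, hg _ hxw h4.hc, hg _ hxw h4.hd,
      he.elim (hg _ (near om (Or.inl rfl))) (hg _ (near _ (Or.inr rfl)))]
  have side5 : ∀ t ∈ sphere x 1 ∩ ball (x + conj om * v) (1 / 4),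
      0 < (conj (conj om * v) * (t - x)).im →
      t ∈ closure (E (P (col (k + 5))).1) ∧ t ∈ closure (E (P (col (k + 5))).2) := by
    intro t ht him
    rw [e5] at ht him
    exact sub _ t (hcol _ (slot_arc hu ⟨ht, him⟩))
  rcases hi with ⟨hpair, hZ⟩ | ⟨hk2, hk5, hk1, hk4⟩
  · -- two pairs meet
    have hnear : x + om * v ∈ closure (E e) ∨ x + conj om * v ∈ closure (E e) :=
      hZ.elim (fun hh => Or.inr (n5e hh)) (fun hh => Or.inl (n1e (Or.inl hh)))
    have hwe : x + v ∉ closure (E e) := fun hwe => five (fun m => by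
      have w5 := sub _ _ wk5
      have w0 := sub _ _ wk
      rcases hpair with ⟨p1, p2⟩ | ⟨p1, p2⟩ <;> rw [p1] at w5 <;> rw [p2] at w0 <;>
        rcases h4.hall m with rfl | rfl | rfl | rfl | rfl <;>
        first | exact hwe | exact w5.1 | exact w5.2 | exact w0.1 | exact w0.2) hnear
    have abcd : ∀ m, m = a ∨ m = b ∨ m = c ∨ m = d →
        m = (P (col (k + 5))).1 ∨ m = (P (col (k + 5))).2 ∨
          m = (P (col k)).1 ∨ m = (P (col k)).2 := by
      intro m hm
      rcases hpair with ⟨p1, p2⟩ | ⟨p1, p2⟩ <;> rw [hP, p1, p2]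
      · rcases hm with h' | h' | h' | h'
        exacts [Or.inl h', Or.inr (Or.inl h'), Or.inr (Or.inr (Or.inl h')),
          Or.inr (Or.inr (Or.inr h'))]
      · rcases hm with h' | h' | h' | h'
        exacts [Or.inr (Or.inr (Or.inl h')), Or.inr (Or.inr (Or.inr h')), Or.inl h',
          Or.inr (Or.inl h')]
    have hw : ∀ m, x + v ∈ closure (E m) → m = (P (col (k + 5))).1 ∨ m = (P (col (k + 5))).2 ∨
        m = (P (col k)).1 ∨ m = (P (col k)).2 := fun m hm => abcd m (by
      rcases h4.hall m with h' | h' | h' | h' | h'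
      exacts [Or.inl h', Or.inr (Or.inl h'), Or.inr (Or.inr (Or.inl h')),
        Or.inr (Or.inr (Or.inr h')), absurd (h' ▸ hm) hwe])
    have stop' : x + om * v ∈ closure (K (col k)) := e1 ▸ stop k
    have start' : x + conj om * v ∈ closure (K (col (k + 5))) := e5 ▸ start (k + 5)
    have side0 : ∀ t ∈ sphere x 1 ∩ ball (x + om * v) (1 / 4),
        (conj (om * v) * (t - x)).im < 0 →
        t ∈ closure (E (P (col k)).1) ∧ t ∈ closure (E (P (col k)).2) := by
      intro t ht him
      rw [e1] at ht him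
      exact sub _ t (hcol _ (before_arc hu ht.1 ht.2 him))
    exact clash E hE hB hR hcl h4 hv1 abcd hw (sub _ _ stop').1 (sub _ _ stop').2
      (sub _ _ start').1 (sub _ _ start').2 side5 side0
  · -- the fifth colour alternates with one pair
    have he : x + v ∈ closure (E e) := (sub 2 _ (hk2 ▸ wk)).1
    have w5 := sub _ _ wk5
    have ne' := n1e (Or.inr hk2)
    have side1 : ∀ t ∈ sphere x 1 ∩ ball (x + conj (conj om) * v) (1 / 4),
        0 < (conj (conj (conj om) * v) * (t - x)).im →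
        t ∈ closure (E (P (col (k + 5))).1) ∧ t ∈ closure (E (P (col (k + 5))).2) := by
      intro t ht him
      rw [Complex.conj_conj, e1] at ht him
      exact hk1 ▸ sub _ t (hcol _ (slot_arc hu ⟨ht, him⟩))
    obtain ⟨s, hxs, hw⟩ : ∃ s, x ∈ closure (E s) ∧ ∀ m, x + v ∈ closure (E m) →
        m = (P (col (k + 5))).1 ∨ m = (P (col (k + 5))).2 ∨ m = e ∨ m = s := by
      obtain ⟨R, S, hxR, hxS, hall⟩ : ∃ R S, x ∈ closure (E R) ∧ x ∈ closure (E S) ∧
          ∀ m, m = (P (col (k + 5))).1 ∨ m = (P (col (k + 5))).2 ∨ m = e ∨ m = R ∨ m = S := by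
        generalize col (k + 5) = N at hk5 ⊢
        fin_cases N
        · refine ⟨c, d, h4.hc, h4.hd, fun m => ?_⟩
          rcases h4.hall m with h' | h' | h' | h' | h'
          exacts [Or.inl h', Or.inr (Or.inl h'), Or.inr (Or.inr (Or.inr (Or.inl h'))),
            Or.inr (Or.inr (Or.inr (Or.inr h'))), Or.inr (Or.inr (Or.inl h'))]
        · refine ⟨a, b, h4.ha, h4.hb, fun m => ?_⟩
          rcases h4.hall m with h' | h' | h' | h' | h'
          exacts [Or.inr (Or.inr (Or.inr (Or.inl h'))), Or.inr (Or.inr (Or.inr (Or.inr h'))),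
            Or.inl h', Or.inr (Or.inl h'), Or.inr (Or.inr (Or.inl h'))]
        · exact absurd rfl hk5
      by_cases hR' : x + v ∈ closure (E R)
      · refine ⟨R, hxR, fun m hm => ?_⟩
        rcases hall m with h' | h' | h' | h' | rfl
        · exact Or.inl h'
        · exact Or.inr (Or.inl h')
        · exact Or.inr (Or.inr (Or.inl h'))
        · exact Or.inr (Or.inr (Or.inr h'))
        refine (five (fun n => ?_) (Or.inl ne')).elim
        rcases hall n with rfl | rfl | rfl | rfl | rfl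
        exacts [w5.1, w5.2, he, hR', hm]
      · refine ⟨S, hxS, fun m hm => ?_⟩
        rcases hall m with h' | h' | h' | h' | h'
        exacts [Or.inl h', Or.inr (Or.inl h'), Or.inr (Or.inr (Or.inl h')), absurd (h' ▸ hm) hR',
          Or.inr (Or.inr (Or.inr h'))]
    exact alternate E hE hB hR hcl hv1 hxs hw ne' (n5e hk4) side5 side1

end Vale.Agent.P032
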