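import Vale.Agent.P032.Cluster

/-!
Five closed sets covering the plane, no four of which meet, have a common point of three sets each
two of which share small continua arbitrarily near it.
-/

namespace Vale.Agent.P032

open Metric Set Relation

/-- The data at a point of three sets when the continua are missing. -/
lemma bad_data (F : Fin 5 → Set ℂ) (hF : ∀ i, IsClosed (F i)) {g : ℝ} (hg : 0 < g) {v : ℂ}
    (hbad : ∃ p q, v ∈ F p ∧ v ∈ F q ∧ p ≠ q ∧ ∃ ε > 0, ∀ C, IsPreconnected C →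
      C ⊆ F p ∩ F q ∩ closedBall v ε → C.Subsingleton) :
    ∃ p q : Fin 5, ∃ r : ℝ, 0 < r ∧ r ≤ g / 8 ∧ p ≠ q ∧ v ∈ F p ∧ v ∈ F q ∧
      (∀ z i, dist z v ≤ r → z ∈ F i → v ∈ F i) ∧
      IsTotallyDisconnected (F p ∩ F q ∩ closedBall v r) := by
  obtain ⟨p, q, hp, hq, hpq, ε, hε, hC⟩ := hbad
  have hopen : (⋃ i ∈ {i | v ∉ F i}, F i)ᶜ ∈ nhds v := by
    refine IsOpen.mem_nhds ((Set.toFinite _).isClosed_biUnion fun i _ => hF i).isOpen_compl ?_
    simp only [mem_compl_iff, mem_iUnion, exists_prop, not_exists, not_and]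
    exact fun i hi => hi
  obtain ⟨r', hr', hsub⟩ := Metric.mem_nhds_iff.1 hopen
  refine ⟨p, q, min (min ε (r' / 2)) (g / 8), lt_min (lt_min hε (half_pos hr')) (by positivity),
    min_le_right _ _, hpq, hp, hq, fun z i hz hzi => ?_, ?_⟩
  · by_contra hi
    have : min (min ε (r' / 2)) (g / 8) ≤ r' / 2 := (min_le_left _ _).trans (min_le_right _ _)
    exact hsub (mem_ball.2 (by linarith)) (mem_biUnion (x := i) hi hzi)
  · intro C hC1 hC2
    exact hC C hC2 (hC1.trans (inter_subset_inter_right _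
      (closedBall_subset_closedBall ((min_le_left _ _).trans (min_le_left _ _)))))

theorem exists_good (F : Fin 5 → Set ℂ) (hF : ∀ i, IsClosed (F i)) (hcov : ∀ x, ∃ i, x ∈ F i)
    (hnear : ∀ i, ∀ x ∈ F i, ∃ y, dist x y < 1 / 4 ∧ ∀ z ∈ F i, dist z y ≠ 1)
    (h4 : ∀ x a b c d, a ≠ b → a ≠ c → a ≠ d → b ≠ c → b ≠ d → c ≠ d →
      x ∈ F a → x ∈ F b → x ∈ F c → x ∈ F d → False) :
    ∃ v, (∃ a b c, a ≠ b ∧ b ≠ c ∧ a ≠ c ∧ v ∈ F a ∧ v ∈ F b ∧ v ∈ F c) ∧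
      ∀ p q, v ∈ F p → v ∈ F q → p ≠ q → ∀ ε > 0,
        ∃ C, IsPreconnected C ∧ C ⊆ F p ∩ F q ∩ closedBall v ε ∧ C.Nontrivial := by
  classical
  by_contra hcon
  push Not at hcon
  obtain ⟨g, hg0, hg8, hlab⟩ := exists_labels F hF hcov hnear
  set K : Set ℂ := closedBall 0 30 with hK
  have hKc : IsCompact K := isCompact_closedBall _ _
  set Z : Set ℂ := {x | x ∈ K ∧ ∃ a b c, a ≠ b ∧ b ≠ c ∧ a ≠ c ∧ x ∈ F a ∧ x ∈ F b ∧ x ∈ F c}
    with hZdef
  have data : ∀ v : Z, ∃ p q : Fin 5, ∃ r : ℝ, 0 < r ∧ r ≤ g / 8 ∧ p ≠ q ∧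
      (v : ℂ) ∈ F p ∧ (v : ℂ) ∈ F q ∧ (∀ z i, dist z (v : ℂ) ≤ r → z ∈ F i → (v : ℂ) ∈ F i) ∧
      IsTotallyDisconnected (F p ∩ F q ∩ closedBall (v : ℂ) r) := by
    rintro ⟨v, -, habc⟩
    obtain ⟨p, q, hp, hq, hpq, ε, hε, hC⟩ := hcon v habc
    exact bad_data F hF hg0 ⟨p, q, hp, hq, hpq, ε, hε, hC⟩
  choose pp qq r hr0 hrg hpq hvp hvq hlocal htd using data
  have hZc : IsCompact Z := by
    have : Z = K ∩ ⋃ t ∈ {t : Fin 5 × Fin 5 × Fin 5 | t.1 ≠ t.2.1 ∧ t.2.1 ≠ t.2.2 ∧ t.1 ≠ t.2.2},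
        F t.1 ∩ F t.2.1 ∩ F t.2.2 := by
      ext x
      simp only [hZdef, mem_ofPred_eq, mem_inter_iff, mem_iUnion, exists_prop, Prod.exists]
      constructor
      · rintro ⟨hx, a, b, c, h1, h2, h3, h4', h5, h6⟩
        exact ⟨hx, a, b, c, ⟨h1, h2, h3⟩, ⟨h4', h5⟩, h6⟩
      · rintro ⟨hx, a, b, c, ⟨h1, h2, h3⟩, ⟨h4', h5⟩, h6⟩
        exact ⟨hx, a, b, c, h1, h2, h3, h4', h5, h6⟩
    rw [this]
    exact hKc.inter_right ((Set.toFinite _).isClosed_biUnion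
      fun t _ => ((hF _).inter (hF _)).inter (hF _))
  obtain ⟨s, hs⟩ := hZc.elim_finite_subcover (fun v : Z => ball (v : ℂ) (r v / 2))
    (fun v => isOpen_ball) fun x hx =>
      mem_iUnion.2 ⟨⟨x, hx⟩, mem_ball_self (half_pos (hr0 _))⟩
  let X : Z → Set ℂ := fun v => F (pp v) ∩ F (qq v) ∩ closedBall (v : ℂ) (r v)
  have hXs : ∀ v, Small (X v) := fun v => small_of_totallyDisconnected
    ((isCompact_closedBall _ _).inter_left ((hF _).inter (hF _))) (htd v)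
  set U : Set ℂ := ⋃ v ∈ s, X v with hU
  have three : ∀ v : Z, ∀ z ∈ Z, dist z (v : ℂ) ≤ r v → ∀ i, (v : ℂ) ∈ F i → z ∈ F i := by
    rintro v z ⟨hzK, a, b, c, hab, hbc, hac, ha, hb, hc⟩ hd i hi
    by_contra hzi
    exact h4 v a b c i hab hac (fun e => hzi (e ▸ ha)) hbc (fun e => hzi (e ▸ hb))
      (fun e => hzi (e ▸ hc)) (hlocal v z a hd ha) (hlocal v z b hd hb) (hlocal v z c hd hc) hi
  have hZX : ∀ v : Z, ∀ z ∈ Z, dist z (v : ℂ) ≤ r v → z ∈ X v := fun v z hz hd =>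
    ⟨⟨three v z hz hd _ (hvp v), three v z hz hd _ (hvq v)⟩, mem_closedBall.2 hd⟩
  have hZU : ∀ z ∈ Z, z ∈ U := fun z hz => by
    obtain ⟨v, hv, hzv⟩ := mem_iUnion₂.1 (hs hz)
    exact mem_biUnion (x := v) hv (hZX v z hz (by linarith [mem_ball.1 hzv, hr0 v]))
  obtain ⟨δ, hδ, hδg, hδr⟩ : ∃ δ : ℝ, 0 < δ ∧ δ ≤ g / 64 ∧ ∀ v ∈ s, δ ≤ r v / 8 := by
    rcases s.eq_empty_or_nonempty with rfl | hne
    · exact ⟨g / 64, by positivity, le_rfl, by simp⟩
    · obtain ⟨v, hv, hmin⟩ := s.exists_min_image r hne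
      exact ⟨min (g / 64) (r v / 8), lt_min (by positivity) (by linarith [hr0 v]),
        min_le_left _ _, fun w hw => (min_le_right _ _).trans (by linarith [hmin w hw])⟩
  obtain ⟨η₀, hη₀, hη₀U⟩ := small_biUnion s X (fun v _ => hXs v) δ hδ
  set η := min η₀ δ with hη
  have hηpos : 0 < η := lt_min hη₀ hδ
  have hηδ : η ≤ δ := min_le_right _ _
  choose ev hev0 hev using fun v => hXs v (η / 4) (by positivity)
  obtain ⟨μ, hμ, hμη, hμv⟩ : ∃ μ : ℝ, 0 < μ ∧ μ ≤ η ∧ ∀ v ∈ s, μ ≤ ev v := by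
    rcases s.eq_empty_or_nonempty with rfl | hne
    · exact ⟨η, hηpos, le_rfl, by simp⟩
    · obtain ⟨v, hv, hmin⟩ := s.exists_min_image ev hne
      exact ⟨min η (ev v), lt_min hηpos (hev0 v), min_le_left _ _,
        fun w hw => (min_le_right _ _).trans (hmin w hw)⟩
  choose ρ3 hρ30 hρ3 using fun t : Fin 5 × Fin 5 × Fin 5 =>
    near_inter hKc (hF t.1) (hF t.2.1) (hF t.2.2) (show (0 : ℝ) < μ / 16 by positivity)
  obtain ⟨t₀, -, ht₀⟩ := Finset.univ.exists_min_image ρ3 Finset.univ_nonempty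
  obtain ⟨N, hN⟩ := exists_nat_gt (80 / min (ρ3 t₀) (μ / 16))
  have hmpos : 0 < min (ρ3 t₀) (μ / 16) := lt_min (hρ30 _) (by positivity)
  have hN0 : (0 : ℝ) < N := lt_of_le_of_lt (div_nonneg (by norm_num) hmpos.le) hN
  set h : ℝ := 10 / N with hh
  have hpos : 0 < h := by positivity
  have hsm : 8 * h < min (ρ3 t₀) (μ / 16) := by
    rw [div_lt_iff₀ hmpos] at hN
    rw [hh, show 8 * (10 / (N : ℝ)) = 80 / N by ring, div_lt_iff₀ hN0]
    linarith
  have hρ : ∀ t, 2 * h < ρ3 t := fun t => by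
    linarith [ht₀ t (Finset.mem_univ _), min_le_left (ρ3 t₀) (μ / 16)]
  have hhμ : 8 * h < μ / 16 := hsm.trans_le (min_le_right _ _)
  have hN10 : (N : ℝ) * h = 10 := by rw [hh]; field_simp
  obtain ⟨col, l, hcol, hsame, total, hrain⟩ := hlab N h hpos hN10 (by linarith)
  have inK : ∀ p, InP N p → pt h p ∈ K := fun p hp => by
    rw [hK, mem_closedBall]
    linarith [pt_le hpos hN10 hp]
  have wit : ∀ t, InTri N t → rain l t ≠ 0 → ∃ z ∈ Z, dist (pt h (corner t 0)) z < μ / 16 := by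
    intro t ht hr
    have hd := fun k k' hk => ((hrain t ht hr).1 k k' hk).1
    obtain ⟨z, za, zb, zc, hz⟩ := hρ3 (col (corner t 0), col (corner t 1), col (corner t 2))
      _ (inK _ (corner_in t ht 0)) (hcol _) _ (hcol (corner t 1)) _ (hcol (corner t 2))
      (lt_of_le_of_lt (corner_close hpos t 0 1) (hρ _))
      (lt_of_le_of_lt (corner_close hpos t 0 2) (hρ _))
    refine ⟨z, ⟨?_, _, _, _, hd 0 1 (by decide), hd 1 2 (by decide), hd 0 2 (by decide),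
      za, zb, zc⟩, hz⟩
    rw [hK, mem_closedBall]
    linarith [dist_triangle z (pt h (corner t 0)) 0, dist_comm z (pt h (corner t 0)),
      pt_le hpos hN10 (corner_in t ht 0)]
  choose! zt hztZ hzt using wit
  set Rt := (inside N).filter fun t => rain l t ≠ 0 with hRt
  let Rel : Tri → Tri → Prop := fun t t' => ReflTransGen (Step U η) (zt t) (zt t')
  let cls : Tri → Finset Tri := fun t => Rt.filter (Rel t)
  have mRt : ∀ t ∈ Rt, InTri N t ∧ rain l t ≠ 0 := fun t ht => by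
    rw [hRt, Finset.mem_filter] at ht
    exact ⟨mem_inside.1 ht.1, ht.2⟩
  have fibre : ∀ t ∈ Rt, Rt.filter (fun t' => cls t' = cls t) = Rt.filter (Rel t) := by
    intro t _
    ext t'
    simp only [Finset.mem_filter]
    refine ⟨fun ⟨h1, h2⟩ => ⟨h1, ?_⟩, fun ⟨h1, h2⟩ => ⟨h1, ?_⟩⟩
    · have : t' ∈ cls t' := Finset.mem_filter.2 ⟨h1, ReflTransGen.refl⟩
      rw [h2] at this
      exact (Finset.mem_filter.1 this).2
    · ext u
      simp only [cls, Finset.mem_filter]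
      exact ⟨fun ⟨a, b⟩ => ⟨a, ReflTransGen.trans h2 b⟩,
        fun ⟨a, b⟩ => ⟨a, ReflTransGen.trans (step_symm h2) b⟩⟩
  have class_even : ∀ ts ∈ Rt, ∑ t ∈ Rt.filter (Rel ts), rain l t = 0 := by
    intro ts hts
    obtain ⟨htsIn, htsR⟩ := mRt ts hts
    obtain ⟨v, hv, hzv⟩ := mem_iUnion₂.1 (hs (hztZ ts htsIn htsR))
    rw [mem_ball] at hzv
    refine cluster_even F v (r v) g h η μ (ev v) (pp v) (qq v) N hpos hN10 (hrg v)
      (hηδ.trans hδg) (hηδ.trans (hδr v hv)) hμη (hμv v hv) hhμ (hev v) col l hcol hsame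
      (hlocal v) (h4 v) (hvp v) (hvq v) (hpq v) ?_ hrain zt _
      ⟨ts, Finset.mem_filter.2 ⟨hts, ReflTransGen.refl⟩⟩ ?_ ?_
    · intro a b ha _ hca hcb hd
      obtain ⟨z, za, zb, -, hz⟩ := hρ3 (pp v, qq v, qq v) _ (inK _ ha) (hca ▸ hcol a) _
        (hcb ▸ hcol b) _ (hcb ▸ hcol b) (lt_of_le_of_lt hd (hρ _)) (lt_of_le_of_lt hd (hρ _))
      exact ⟨z, za, zb, hz⟩
    · intro t ht
      obtain ⟨htR, hrel⟩ := Finset.mem_filter.1 ht
      obtain ⟨htIn, htr⟩ := mRt t htR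
      have hd : dist (zt ts) (zt t) < δ := hη₀U _ _ (ReflTransGen.mono (r := Step U η) (fun a b hab =>
        ⟨hab.1, hab.2.1, hab.2.2.trans_le (min_le_left _ _)⟩) _ _ hrel)
      have h58 : dist (zt t) (v : ℂ) < 5 / 8 * r v := by
        linarith [dist_triangle (zt t) (zt ts) (v : ℂ), dist_comm (zt t) (zt ts), hδr v hv]
      exact ⟨htIn, htr, h58, hZX v _ (hztZ t htIn htr) (by linarith [hr0 v]), hzt t htIn htr⟩
    · intro t ht t' ht'In ht'r hd
      obtain ⟨htR, hrel⟩ := Finset.mem_filter.1 ht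
      obtain ⟨htIn, htr⟩ := mRt t htR
      refine Finset.mem_filter.2 ⟨Finset.mem_filter.2 ⟨mem_inside.2 ht'In, ht'r⟩,
        ReflTransGen.tail hrel ⟨hZU _ (hztZ t htIn htr), hZU _ (hztZ t' ht'In ht'r), ?_⟩⟩
      linarith [dist_triangle_left (zt t) (zt t') (pt h (corner t' 0)), hzt t' ht'In ht'r]
  have zero : ∑ t ∈ Rt, rain l t = 0 := by
    rw [← Finset.sum_fiberwise_of_maps_to (g := cls) (t := Rt.image cls)
      (fun t ht => Finset.mem_image_of_mem cls ht)]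
    refine Finset.sum_eq_zero fun C hC => ?_
    obtain ⟨t, ht, rfl⟩ := Finset.mem_image.1 hC
    rw [fibre t ht]
    exact class_even t ht
  rw [hRt, Finset.sum_filter_ne_zero, total] at zero
  exact one_ne_zero zero

end Vale.Agent.P032
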