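import Vale.Agent.P032.Gamma

/-!
The six arcs cut out of a circle by a hexagon.
-/

namespace Vale.Agent.P032

open Metric Set Complex ComplexConjugate

/-- The open arc between the corners `k` and `k + 1`. -/
def Arc (x u : ℂ) (k : ℕ) : Set ℂ :=
  {t | t ∈ sphere x 1 ∧ 0 < (conj (om ^ k * u) * (t - x)).im ∧
    (conj (om ^ (k + 1) * u) * (t - x)).im < 0}

lemma norm_orbit {u : ℂ} (hu : ‖u‖ = 1) (k : ℕ) : ‖om ^ k * u‖ = 1 := by simp [norm_om, hu]

lemma conj_mul_self {w : ℂ} (hw : ‖w‖ = 1) : conj w * w = 1 := by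
  rw [mul_comm, Complex.mul_conj, Complex.normSq_eq_norm_sq, hw]; simp

lemma conj_next {u : ℂ} (k : ℕ) (t : ℂ) :
    conj (om ^ (k + 1) * u) * t = conj om * (conj (om ^ k * u) * t) := by
  simp only [map_mul, map_pow]; ring

lemma arc_mod (x u : ℂ) (k : ℕ) : Arc x u k = Arc x u (k % 6) := by
  simp only [Arc, om_mod (k + 1), om_mod k, show (k + 1) % 6 = (k % 6 + 1) % 6 by omega,
    ← om_mod (k % 6 + 1)]

/-- The arc as a parametrised curve. -/
lemma arc_eq {x u : ℂ} (hu : ‖u‖ = 1) (k : ℕ) :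
    Arc x u k = (fun s => x + om ^ k * u * zz s) '' Ioo 0 (Real.pi / 3) := by
  have hw := norm_orbit hu k
  have him : ∀ s, (conj om * zz s).im = Real.sin (s - Real.pi / 3) := fun s => by
    simp [zz, om, Real.sin_sub, Real.cos_pi_div_three, Real.sin_pi_div_three]
    ring
  have pi0 := Real.pi_pos
  ext t
  constructor
  · rintro ⟨ht, h0, h1⟩
    set v := conj (om ^ k * u) * (t - x) with hv
    have hv1 : ‖v‖ = 1 := by
      rw [hv, norm_mul, RCLike.norm_conj, hw, one_mul, ← dist_eq_norm]; exact mem_sphere.1 ht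
    have hs := exists_zz hv1
    rw [conj_next, ← hv, hs, him] at h1
    have hpos : 0 < v.arg := by
      rcases lt_trichotomy v.arg 0 with h | h | h
      · exact absurd (Complex.arg_neg_iff.1 h) (not_lt.2 h0.le)
      · exact absurd (Complex.arg_eq_zero_iff.1 h).2 h0.ne'
      · exact h
    refine ⟨v.arg, ⟨hpos, ?_⟩, ?_⟩
    · by_contra hle
      push Not at hle
      linarith [Real.sin_nonneg_of_nonneg_of_le_pi (show 0 ≤ v.arg - Real.pi / 3 by linarith)
        (by linarith [Complex.arg_le_pi v])]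
    · simp only [← hs]
      rw [hv]
      linear_combination (t - x) * conj_mul_self hw
  · rintro ⟨s, ⟨s0, s1⟩, rfl⟩
    refine ⟨by simp [norm_om, hu, norm_zz], ?_, ?_⟩
    · rw [add_sub_cancel_left, ← mul_assoc, conj_mul_self hw, one_mul]
      exact Real.sin_pos_of_pos_of_lt_pi s0 (by linarith)
    · rw [conj_next, add_sub_cancel_left, ← mul_assoc (conj (om ^ k * u)), conj_mul_self hw,
        one_mul, him]
      exact Real.sin_neg_of_neg_of_neg_pi_lt (by linarith) (by linarith)

lemma arc_preconnected {x u : ℂ} (hu : ‖u‖ = 1) (k : ℕ) : IsPreconnected (Arc x u k) := by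
  rw [arc_eq hu]
  exact isPreconnected_Ioo.image _
    (continuous_const.add (continuous_const.mul zz_cont)).continuousOn

lemma arc_ends {x u : ℂ} (hu : ‖u‖ = 1) (k : ℕ) :
    x + om ^ k * u ∈ closure (Arc x u k) ∧ x + om ^ (k + 1) * u ∈ closure (Arc x u k) := by
  rw [arc_eq hu]
  set T := fun s => x + om ^ k * u * zz s with hT'
  have hT : Continuous T := continuous_const.add (continuous_const.mul zz_cont)
  have h : ∀ s ∈ Icc 0 (Real.pi / 3), T s ∈ closure (T '' Ioo 0 (Real.pi / 3)) := fun s hs => by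
    refine image_closure_subset_closure_image hT (mem_image_of_mem T ?_)
    rwa [closure_Ioo (by linarith [Real.pi_pos])]
  have e : zz (Real.pi / 3) = om :=
    Complex.ext (by simp [zz, om, Real.cos_pi_div_three])
      (by simp [zz, om, Real.sin_pi_div_three])
  constructor
  · simpa [hT', zz_zero] using h 0 (left_mem_Icc.2 (by linarith [Real.pi_pos]))
  · have := h _ (right_mem_Icc.2 (by linarith [Real.pi_pos]))
    simp only [hT', e] at this
    rwa [show x + om ^ (k + 1) * u = x + om ^ k * u * om by ring]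

lemma arc_rot {x u t : ℂ} {k : ℕ} (ht : t ∈ Arc x u k) :
    x + om * (t - x) ∈ Arc x u (k + 1) := by
  obtain ⟨hts, h0, h1⟩ := ht
  have e : ∀ j, conj (om ^ (j + 1) * u) * (om * (t - x)) = conj (om ^ j * u) * (t - x) := fun j => by
    have : conj om * om = 1 := conj_mul_self norm_om
    simp only [map_mul, map_pow]
    linear_combination (conj om ^ j * conj u * (t - x)) * this
  refine ⟨(rot_facts x t hts).1, ?_, ?_⟩ <;> rw [add_sub_cancel_left, e] <;> assumption

lemma arc_neg {x u t : ℂ} {k : ℕ} (ht : t ∈ Arc x u k) : x + -(t - x) ∈ Arc x u (k + 3) := by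
  obtain ⟨hts, h0, h1⟩ := ht
  have e : ∀ j, conj (om ^ (j + 3) * u) * -(t - x) = conj (om ^ j * u) * (t - x) := fun j => by
    rw [pow_add, om_cube]; simp; ring
  refine ⟨?_, ?_, ?_⟩
  · rw [mem_sphere, dist_eq_norm] at hts ⊢
    simpa [norm_sub_rev] using hts
  · rwa [add_sub_cancel_left, e]
  · rwa [add_sub_cancel_left, show k + 3 + 1 = k + 1 + 3 by ring, e]

/-- The corners are on none of the arcs. -/
lemma arc_avoid {x u : ℂ} (hu : ‖u‖ = 1) (k j : ℕ) : x + om ^ j * u ∉ Arc x u k := by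
  rintro ⟨-, h0, h1⟩
  have e : conj (om ^ k * u) * (om ^ j * u) = om ^ ((5 * k + j) % 6) := by
    rw [map_mul, conj_om_pow, show om ^ (5 * k) * conj u * (om ^ j * u) =
      om ^ (5 * k + j) * (conj u * u) by ring, conj_mul_self hu, mul_one, om_mod]
  rw [add_sub_cancel_left] at h0 h1
  rw [conj_next, e] at h1
  rw [e] at h0
  have e4 : om ^ 4 = -om := by rw [pow_succ, om_cube]; ring
  have e5 : om ^ 5 = -(om - 1) := by rw [pow_succ, e4]; linear_combination -om_sq
  have h3 : 0 < Real.sqrt 3 := by positivity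
  have hlt : (5 * k + j) % 6 < 6 := Nat.mod_lt _ (by norm_num)
  generalize (5 * k + j) % 6 = n at *
  interval_cases n
  · simp at h0
  · simp [om] at h1; linarith
  · rw [sq, om_sq] at h1; simp [om] at h1; linarith
  · rw [om_cube] at h0; simp at h0
  · rw [e4] at h0; simp [om] at h0; linarith
  · rw [e5] at h0; simp [om] at h0; linarith

/-- Just after a corner comes its arc. -/
lemma slot_arc {x u : ℂ} (hu : ‖u‖ = 1) {k : ℕ} {t : ℂ}
    (ht : t ∈ Slot x (om ^ k * u) (1 / 4)) : t ∈ Arc x u k := by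
  obtain ⟨hre, him, him'⟩ := slot_near (norm_orbit hu k) le_rfl ht
  refine ⟨ht.1.1, him, ?_⟩
  rw [conj_next]
  generalize conj (om ^ k * u) * (t - x) = v at hre him him'
  have h3 : 1 ≤ Real.sqrt 3 := Real.one_le_sqrt.2 (by norm_num)
  simp [om]
  nlinarith

/-- Just before a corner comes the arc of the previous one. -/
lemma before_arc {x u : ℂ} (hu : ‖u‖ = 1) {k : ℕ} {t : ℂ} (hts : t ∈ sphere x 1)
    (htb : t ∈ ball (x + om ^ (k + 1) * u) (1 / 4))
    (him : (conj (om ^ (k + 1) * u) * (t - x)).im < 0) : t ∈ Arc x u k := by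
  refine ⟨hts, ?_, him⟩
  set v := conj (om ^ (k + 1) * u) * (t - x) with hv
  have hn : ‖v - 1‖ < 1 / 4 := by
    rw [show v - 1 = conj (om ^ (k + 1) * u) * (t - (x + om ^ (k + 1) * u)) by
      rw [hv]; linear_combination conj_mul_self (norm_orbit hu (k + 1)), norm_mul, RCLike.norm_conj,
      norm_orbit hu, one_mul, ← dist_eq_norm]
    exact htb
  have e : conj (om ^ k * u) * (t - x) = om * v := by
    have := conj_mul_self norm_om
    simp only [hv, map_mul, map_pow]
    linear_combination (-(conj om ^ k * conj u * (t - x))) * this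
  have a1 := (Complex.abs_re_le_norm (v - 1)).trans_lt hn
  have a2 := (Complex.abs_im_le_norm (v - 1)).trans_lt hn
  simp only [Complex.sub_re, Complex.sub_im, Complex.one_re, Complex.one_im, sub_zero] at a1 a2
  have h3 : 1 ≤ Real.sqrt 3 := Real.one_le_sqrt.2 (by norm_num)
  rw [e]
  simp [om]
  nlinarith [(abs_lt.1 a1).1, (abs_lt.1 a2).1]

lemma parallel {v w : ℂ} (hv : ‖v‖ = 1) (hw : ‖w‖ = 1) (h : (conj v * w).im = 0) :
    w = v ∨ w = -v := by
  have hn : ‖conj v * w‖ = 1 := by simp [hv, hw]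
  have h1 := Complex.abs_re_eq_norm.2 h
  rw [hn] at h1
  have e : v * (conj v * w) = w := by rw [← mul_assoc, mul_comm v, conj_mul_self hv, one_mul]
  rcases abs_eq zero_le_one |>.1 h1 with h2 | h2
  · have : conj v * w = 1 := Complex.ext (by simp [h2]) (by simp [h])
    exact Or.inl (by rw [this, mul_one] at e; exact e.symm)
  · have : conj v * w = -1 := Complex.ext (by simp [h2]) (by simp [h])
    exact Or.inr (by rw [this] at e; simpa using e.symm)

lemma cr_eq (x v w : ℂ) : cr x (x + v) (x + w) = (conj v * w).im := by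
  simp [cr]; ring

/-- A point off a hexagon, rotated, is off all its diagonals. -/
lemma cr_off {x u v : ℂ} (hu : ‖u‖ = 1) (hv : ‖v‖ = 1)
    (hoff : ∀ n : ℕ, v ≠ om ^ n * u) (i j : ℕ) :
    cr x (x + om ^ i * u) (x + om ^ j * v) ≠ 0 := by
  rw [cr_eq]
  intro h
  have hback : om ^ (5 * j) * om ^ j = 1 := by
    rw [← pow_add, om_mod, show (5 * j + j) % 6 = 0 by omega, pow_zero]
  rcases parallel (norm_orbit hu i) (norm_orbit hv j) h with e | e
  · refine hoff (5 * j + i) ?_
    rw [pow_add, mul_assoc, ← e, ← mul_assoc, hback, one_mul]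
  · refine hoff (5 * j + (i + 3)) ?_
    rw [pow_add, mul_assoc, show om ^ (i + 3) * u = -(om ^ i * u) by rw [pow_add, om_cube]; ring,
      ← e, ← mul_assoc, hback, one_mul]

lemma cr_on {x u : ℂ} (hu : ‖u‖ = 1) (i j : ℕ) (h : (5 * i + j) % 6 ∈ [1, 2, 4, 5]) :
    cr x (x + om ^ i * u) (x + om ^ j * u) ≠ 0 := by
  rw [cr_eq, map_mul, conj_om_pow, show om ^ (5 * i) * conj u * (om ^ j * u) =
    om ^ (5 * i + j) * (conj u * u) by ring, conj_mul_self hu, mul_one, om_mod]
  have e4 : om ^ 4 = -om := by rw [pow_succ, om_cube]; ring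
  have e5 : om ^ 5 = -(om - 1) := by rw [pow_succ, e4]; linear_combination -om_sq
  simp only [List.mem_cons, List.not_mem_nil, or_false] at h
  rcases h with e | e | e | e <;> rw [e]
  · simp [om_im]
  · rw [sq, om_sq]; simp [om_im]
  · rw [e4]; simp [om_im]
  · rw [e5]; simp [om_im]

end Vale.Agent.P032
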