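import Vale.Agent.P032.Arc

/-!
Linked pairs near a point are tied to the circles around the points whose arcs carry both colours.
-/

namespace Vale.Agent.P032

open Metric Set Complex ComplexConjugate

lemma zz_add (s t : ℝ) : zz (s + t) = zz s * zz t := by
  apply Complex.ext <;> simp [zz, Real.cos_add, Real.sin_add]; ring

/-- A preconnected set on two unit circles is a point. -/
lemma two_circles {y₁ y₂ : ℂ} (hne : y₁ ≠ y₂) {C : Set ℂ} (hC : IsPreconnected C)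
    (h₁ : C ⊆ sphere y₁ 1) (h₂ : C ⊆ sphere y₂ 1) : C.Subsingleton := by
  intro a ha b hb
  set D := y₂ - y₁ with hD
  have hD0 : 0 < ‖D‖ := norm_pos_iff.2 (sub_ne_zero.2 hne.symm)
  have hre : ∀ z ∈ C, 2 * (conj D * (z - y₁)).re = ‖D‖ ^ 2 := by
    intro z hz
    have e1 : ‖z - y₁‖ ^ 2 = 1 := by rw [← dist_eq_norm, mem_sphere.1 (h₁ hz)]; norm_num
    have e2 : ‖z - y₁ - D‖ ^ 2 = 1 := by
      rw [show z - y₁ - D = z - y₂ by rw [hD]; ring, ← dist_eq_norm, mem_sphere.1 (h₂ hz)]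
      norm_num
    rw [Complex.sq_norm, Complex.normSq_apply] at e1 e2 ⊢
    simp only [Complex.sub_re, Complex.sub_im, Complex.mul_re, Complex.conj_re, Complex.conj_im]
      at e1 e2 ⊢
    linear_combination e1 - e2
  set g : ℂ → ℝ := fun z => (conj D * (z - y₁)).im with hg
  have hsq : ∀ z ∈ C, g z ^ 2 = ‖D‖ ^ 2 - (‖D‖ ^ 2 / 2) ^ 2 := by
    intro z hz
    have e : ‖conj D * (z - y₁)‖ ^ 2 = ‖D‖ ^ 2 := by
      rw [norm_mul, RCLike.norm_conj, show ‖z - y₁‖ = 1 by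
        rw [← dist_eq_norm, mem_sphere.1 (h₁ hz)], mul_one]
    rw [Complex.sq_norm, Complex.normSq_apply] at e
    have h := hre z hz
    simp only [hg]
    rw [show (conj D * (z - y₁)).re = ‖D‖ ^ 2 / 2 by linarith] at e
    linear_combination e
  have heq : g a = g b := by
    by_contra hab
    have hsum : g a + g b = 0 := by
      have : (g a - g b) * (g a + g b) = 0 := by linear_combination hsq a ha - hsq b hb
      exact (mul_eq_zero.1 this).resolve_left (sub_ne_zero.2 hab)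
    have h0 : (0 : ℝ) ∈ g '' C := by
      rcases le_total (g a) 0 with h | h
      · exact hC.intermediate_value ha hb (by fun_prop) ⟨h, by linarith⟩
      · exact hC.intermediate_value hb ha (by fun_prop) ⟨by linarith, h⟩
    obtain ⟨z, hz, hz0⟩ := h0
    have e0 := hsq z hz
    rw [hz0] at e0
    have ea := hsq a ha
    have : g a ^ 2 = 0 := by rw [ea, ← e0]; norm_num
    have : g a = 0 := pow_eq_zero_iff (n := 2) (by norm_num) |>.1 this
    exact hab (by linarith)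
  have : conj D * (a - y₁) = conj D * (b - y₁) :=
    Complex.ext (by linarith [hre a ha, hre b hb]) heq
  have hcd : conj D ≠ 0 := by simpa using norm_pos_iff.1 hD0
  exact sub_left_inj.1 (mul_left_cancel₀ hcd this)

variable (E : Fin 5 → Set ℂ) (hE : ∀ i, IsOpen (E i))
  (hB : ∀ i, ∀ y ∈ E i, ∀ z ∈ E i, dist y z ≠ 1)
  (hR : ∀ i, interior (closure (E i)) = E i)
  (hcl : ∀ x, ∃ i, x ∈ closure (E i))
  (hd : ∀ i j, i ≠ j → Disjoint (E i) (E j))

include hE hB in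
/-- Small connected parts of two closures lie on circles around an arc carried by the two. -/
lemma on_circle {x w w' : ℂ} {p q : Fin 5} (hwx : dist w x = 1) (hw'x : dist w' x = 1)
    (hww : dist w w' = 1) {ε : ℝ} (hε : 0 < ε)
    (harc : sphere w' 1 ∩ ball w ε ⊆ closure (E p) ∪ closure (E q)) :
    ∃ η > 0, ∀ C, IsPreconnected C → C.Nonempty →
      C ⊆ closure (E p) ∩ closure (E q) ∩ closedBall x η →
      ∃ y ∈ ball w ε, C ⊆ sphere y 1 := by
  set D := w - w' with hD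
  have hD1 : ‖D‖ = 1 := by rw [hD, ← dist_eq_norm, hww]
  let y : ℝ → ℂ := fun t => w' + zz t * D
  have hy : Continuous y := continuous_const.add (zz_cont.mul continuous_const)
  have hy0 : y 0 = w := by simp [y, zz_zero, hD]
  have hys : ∀ t, y t ∈ sphere w' 1 := fun t => by simp [y, norm_zz, hD1]
  have hnc0 : (conj (y 0 - w') * (x - w')).im ≠ 0 := by
    intro h
    rw [hy0] at h
    have hn : ‖conj (w - w') * (x - w')‖ = 1 := by
      rw [norm_mul, RCLike.norm_conj, ← dist_eq_norm, ← dist_eq_norm, hww, dist_comm, hw'x, one_mul]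
    have h1 := Complex.abs_re_eq_norm.2 h
    rw [hn] at h1
    have e1 : (w - w').re * (w - w').re + (w - w').im * (w - w').im = 1 :=
      re_sq_add_im_sq (by rw [← dist_eq_norm, hww])
    have e2 : (x - w').re * (x - w').re + (x - w').im * (x - w').im = 1 :=
      re_sq_add_im_sq (by rw [← dist_eq_norm, dist_comm, hw'x])
    have e3 : (w - x).re * (w - x).re + (w - x).im * (w - x).im = 1 :=
      re_sq_add_im_sq (by rw [← dist_eq_norm, hwx])
    simp only [Complex.mul_re, Complex.conj_re, Complex.conj_im, Complex.sub_re, Complex.sub_im]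
      at h1 e1 e2 e3
    rcases abs_eq (zero_le_one) |>.1 h1 with h2 | h2 <;> nlinarith
  have hnco : IsOpen {zy : ℂ × ℂ | (conj (zy.2 - w') * (zy.1 - w')).im ≠ 0} :=
    isOpen_ne_fun (by fun_prop) continuous_const
  obtain ⟨δ₁, hδ₁, hnc⟩ := Metric.isOpen_iff.1 hnco (x, w) (by simpa [hy0] using hnc0)
  obtain ⟨δ₂, hδ₂, hball⟩ := Metric.continuousAt_iff.1 (hy.continuousAt (x := (0 : ℝ))) (min ε δ₁)
    (lt_min hε hδ₁)
  obtain ⟨τ, hτ, hτd, hstr⟩ := straddle (x := w') (p := w) (q := x) (by rw [← hD]; exact hD1)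
    hwx (by simpa [hy0] using hnc0) (min (δ₁ / 2) (δ₂ / 2)) (lt_min (half_pos hδ₁) (half_pos hδ₂))
  have hτ1 : τ < δ₁ / 2 := hτd.trans_le (min_le_left _ _)
  have hτ2 : τ < δ₂ / 2 := hτd.trans_le (min_le_right _ _)
  have ho : IsOpen {z : ℂ | (dist z (y τ) - 1) * (dist z (y (-τ)) - 1) < 0} :=
    isOpen_lt (by fun_prop) continuous_const
  obtain ⟨η, hη, hsub⟩ := Metric.isOpen_iff.1 ho x (by simpa [y, hD] using hstr)
  refine ⟨min (η / 2) (δ₁ / 2), lt_min (half_pos hη) (half_pos hδ₁), fun C hC hCn hCs => ?_⟩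
  obtain ⟨z₁, hz₁⟩ := hCn
  have near : ∀ z ∈ C, dist z x ≤ η / 2 ∧ dist z x ≤ δ₁ / 2 := fun z hz =>
    le_min_iff.1 (mem_closedBall.1 (hCs hz).2)
  have h1 := hsub (mem_ball.2 ((near z₁ hz₁).1.trans_lt (half_lt_self hη)))
  rw [mem_ofPred_eq] at h1
  have hmem : (1 : ℝ) ∈ uIcc (dist z₁ (y (-τ))) (dist z₁ (y τ)) := by
    rw [mem_uIcc]
    rcases le_total (dist z₁ (y (-τ))) 1 with h | h
    · exact Or.inl ⟨h, le_of_not_gt fun h' => by nlinarith⟩
    · exact Or.inr ⟨le_of_not_gt fun h' => by nlinarith, h⟩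
  obtain ⟨t₁, ht₁, ht₁d⟩ := intermediate_value_uIcc (f := fun t => dist z₁ (y t))
    (continuous_const.dist hy).continuousOn hmem
  rw [uIcc_of_le (by linarith : -τ ≤ τ)] at ht₁
  have inball : ∀ t, |t| < δ₂ → y t ∈ ball w ε ∩ ball w δ₁ := fun t ht => by
    have := hball (x := t) (by rwa [Real.dist_eq, sub_zero])
    rw [hy0, lt_min_iff] at this
    exact this
  have ncz : ∀ z, dist z x < δ₁ → ∀ y', dist y' w < δ₁ → (conj (y' - w') * (z - w')).im ≠ 0 :=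
    fun z hz y' hy' => hnc (show (z, y') ∈ ball (x, w) δ₁ by
      rw [mem_ball, Prod.dist_eq, max_lt_iff]; exact ⟨hz, hy'⟩)
  have ht₁a : |t₁| ≤ τ := abs_le.2 ht₁
  have hz₁x : dist z₁ x < δ₁ := (near z₁ hz₁).2.trans_lt (half_lt_self hδ₁)
  refine ⟨y t₁, (inball t₁ (by linarith)).1, fun z₂ hz₂ => mem_sphere.2 ?_⟩
  by_contra h2
  obtain ⟨δ₃, hδ₃, hkeep⟩ := Metric.isOpen_iff.1
    (isOpen_lt continuous_const (((continuous_const.dist hy).sub continuous_const).mul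
      continuous_const) : IsOpen {s | 0 < (dist z₂ (y s) - 1) * (dist z₂ (y t₁) - 1)})
    t₁ (mul_self_pos.2 (sub_ne_zero.2 h2))
  obtain ⟨σ, hσ, hσd, hσs⟩ := straddle (x := w') (p := y t₁) (q := z₁)
    (by rw [← dist_eq_norm]; exact mem_sphere.1 (hys _)) (by rw [dist_comm]; exact ht₁d)
    (ncz z₁ hz₁x _ (mem_ball.1 (inball t₁ (by linarith)).2))
    (min δ₃ (δ₂ / 2)) (lt_min hδ₃ (half_pos hδ₂))
  have hσ2 : σ < δ₂ / 2 := hσd.trans_le (min_le_right _ _)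
  have hσ3 : σ < δ₃ := hσd.trans_le (min_le_left _ _)
  have hshift : ∀ s, w' + zz s * (y t₁ - w') = y (s + t₁) := fun s => by
    simp only [y, zz_add]; ring
  rw [hshift, hshift] at hσs
  set O : Set ℂ := {y' | (dist z₁ y' - 1) * (dist z₂ y' - 1) < 0} ∩ (ball w ε ∩ ball w δ₁) with hO
  have hOo : IsOpen O :=
    (isOpen_lt (by fun_prop) continuous_const).inter (isOpen_ball.inter isOpen_ball)
  obtain ⟨y₀, hy₀s, hy₀⟩ : ∃ y₀ ∈ sphere w' 1, y₀ ∈ O := by
    have habs : ∀ s, s = σ ∨ s = -σ → |s + t₁| < δ₂ ∧ dist (s + t₁) t₁ < δ₃ := by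
      intro s hs
      rw [Real.dist_eq, add_sub_cancel_right]
      rcases hs with rfl | rfl <;>
        refine ⟨lt_of_le_of_lt (abs_add_le _ _) ?_, ?_⟩ <;>
        simp only [abs_neg, abs_of_pos hσ] <;> linarith
    have ka := habs σ (Or.inl rfl)
    have kb := habs (-σ) (Or.inr rfl)
    have pa : 0 < (dist z₂ (y (σ + t₁)) - 1) * (dist z₂ (y t₁) - 1) := hkeep (mem_ball.2 ka.2)
    have pb : 0 < (dist z₂ (y (-σ + t₁)) - 1) * (dist z₂ (y t₁) - 1) := hkeep (mem_ball.2 kb.2)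
    by_contra hno
    push Not at hno
    have na : ¬ (dist z₁ (y (σ + t₁)) - 1) * (dist z₂ (y (σ + t₁)) - 1) < 0 := fun h =>
      hno _ (hys _) ⟨h, inball _ ka.1⟩
    have nb : ¬ (dist z₁ (y (-σ + t₁)) - 1) * (dist z₂ (y (-σ + t₁)) - 1) < 0 := fun h =>
      hno _ (hys _) ⟨h, inball _ kb.1⟩
    push Not at na nb
    have hbb : 0 < (dist z₂ (y (σ + t₁)) - 1) * (dist z₂ (y (-σ + t₁)) - 1) := by
      by_contra hle
      push Not at hle
      nlinarith [mul_pos pa pb, mul_nonpos_of_nonneg_of_nonpos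
        (sq_nonneg (dist z₂ (y t₁) - 1)) hle]
    nlinarith [mul_nonneg na nb, mul_neg_of_neg_of_pos hσs hbb]
  obtain ⟨y₁, hy₁s, hy₁O, i, hi, ρ, hρ, harc'⟩ : ∃ y₁ ∈ sphere w' 1, y₁ ∈ O ∧
      ∃ i, (i = p ∨ i = q) ∧ ∃ ρ > 0, sphere w' 1 ∩ ball y₁ ρ ⊆ closure (E i) := by
    by_cases hall : sphere w' 1 ∩ O ⊆ closure (E p)
    · obtain ⟨ρ, hρ, hρs⟩ := Metric.isOpen_iff.1 hOo y₀ hy₀
      exact ⟨y₀, hy₀s, hy₀, p, Or.inl rfl, ρ, hρ, (inter_subset_inter_right _ hρs).trans hall⟩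
    · obtain ⟨y₁, ⟨h1, h2⟩, hn⟩ := not_subset.1 hall
      obtain ⟨ρ, hρ, hρs⟩ := Metric.isOpen_iff.1 (hOo.inter isClosed_closure.isOpen_compl) y₁
        ⟨h2, hn⟩
      exact ⟨y₁, h1, h2, q, Or.inr rfl, ρ, hρ, fun z hz =>
        (harc ⟨hz.1, (hρs hz.2).1.2.1⟩).resolve_left (hρs hz.2).2⟩
  obtain ⟨z, hz, hzy⟩ : ∃ z ∈ C, dist z y₁ = 1 := by
    have hprod : (dist z₁ y₁ - 1) * (dist z₂ y₁ - 1) < 0 := hy₁O.1
    rcases le_total (dist z₁ y₁) 1 with h | h
    · exact hC.intermediate_value hz₁ hz₂ (f := fun z => dist z y₁) (by fun_prop)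
        ⟨h, le_of_not_gt fun h' => by nlinarith⟩
    · exact hC.intermediate_value hz₂ hz₁ (f := fun z => dist z y₁) (by fun_prop)
        ⟨le_of_not_gt fun h' => by nlinarith, h⟩
  refine arc_sweep E hE hB hy₁s hρ harc' (by rw [dist_comm]; exact hzy)
    (ncz z ((near z hz).2.trans_lt (half_lt_self hδ₁)) y₁ (mem_ball.1 hy₁O.2.2)) ?_
  rcases hi with rfl | rfl
  exacts [(hCs hz).1.1, (hCs hz).1.2]

include hE hB in
/-- Two centres whose arcs carry the same pair leave it unlinked. -/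
lemma two_centres {x w₁ w₁' w₂ w₂' : ℂ} {p q : Fin 5} (hne : w₁ ≠ w₂)
    (h₁ : dist w₁ x = 1 ∧ dist w₁' x = 1 ∧ dist w₁ w₁' = 1)
    (h₂ : dist w₂ x = 1 ∧ dist w₂' x = 1 ∧ dist w₂ w₂' = 1) {ε₁ ε₂ : ℝ} (hε₁ : 0 < ε₁)
    (hε₂ : 0 < ε₂) (a₁ : sphere w₁' 1 ∩ ball w₁ ε₁ ⊆ closure (E p) ∪ closure (E q))
    (a₂ : sphere w₂' 1 ∩ ball w₂ ε₂ ⊆ closure (E p) ∪ closure (E q)) :
    ¬ Linked (fun i => closure (E i)) x p q := by
  intro hl
  set ε := min (min ε₁ ε₂) (dist w₁ w₂ / 2) with hεd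
  have hε : 0 < ε := lt_min (lt_min hε₁ hε₂) (half_pos (dist_pos.2 hne))
  have e1 : ε ≤ ε₁ := (min_le_left _ _).trans (min_le_left _ _)
  have e2 : ε ≤ ε₂ := (min_le_left _ _).trans (min_le_right _ _)
  obtain ⟨η₁, hη₁, c₁⟩ := on_circle E hE hB h₁.1 h₁.2.1 h₁.2.2 hε
    ((inter_subset_inter_right _ (ball_subset_ball e1)).trans a₁)
  obtain ⟨η₂, hη₂, c₂⟩ := on_circle E hE hB h₂.1 h₂.2.1 h₂.2.2 hε
    ((inter_subset_inter_right _ (ball_subset_ball e2)).trans a₂)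
  obtain ⟨C, hC, hCs, hCn⟩ := hl (min η₁ η₂) (lt_min hη₁ hη₂)
  obtain ⟨y₁, hy₁, s₁⟩ := c₁ C hC hCn.nonempty (hCs.trans (inter_subset_inter_right _
    (closedBall_subset_closedBall (min_le_left _ _))))
  obtain ⟨y₂, hy₂, s₂⟩ := c₂ C hC hCn.nonempty (hCs.trans (inter_subset_inter_right _
    (closedBall_subset_closedBall (min_le_right _ _))))
  refine hCn.not_subsingleton (two_circles ?_ hC s₁ s₂)
  rintro rfl
  have : ε ≤ dist w₁ w₂ / 2 := min_le_right _ _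
  linarith [dist_triangle_left w₁ w₂ y₁, mem_ball.1 hy₁, mem_ball.1 hy₂]

end Vale.Agent.P032
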