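import Vale.Agent.P032.Hex

/-!
Both kinds of two-coloured arcs at a four-class point: the corners form one hexagon.
-/

namespace Vale.Agent.P032

open Metric Set Complex ComplexConjugate

/-- The three kinds of arcs. -/
def Kind (E : Fin 5 → Set ℂ) (x : ℂ) (a b c d e : Fin 5) : Fin 3 → Set ℂ :=
  ![Pure E x c d e, Pure E x a b e, Whole E x e]

/-- The colours of each kind. -/
def pr (a b c d e : Fin 5) : Fin 3 → Fin 5 × Fin 5 := ![(a, b), (c, d), (e, e)]

/-- A point where two kinds meet. -/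
def Bd (E : Fin 5 → Set ℂ) (x : ℂ) (a b c d e : Fin 5) (p : ℂ) : Prop :=
  ∃ i j, i ≠ j ∧ p ∈ closure (Kind E x a b c d e i) ∧ p ∈ closure (Kind E x a b c d e j)

lemma kind_sphere (E : Fin 5 → Set ℂ) (x : ℂ) (a b c d e : Fin 5) (i : Fin 3) :
    closure (Kind E x a b c d e i) ⊆ sphere x 1 := by
  refine closure_minimal ?_ isClosed_sphere
  fin_cases i <;> exact fun p hp => hp.1

lemma pigeon : ∀ f : Fin 5 → Bool, ∃ i j k, i < j ∧ j < k ∧ f i = f j ∧ f j = f k := by
  decide +kernel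

variable (E : Fin 5 → Set ℂ) (hE : ∀ i, IsOpen (E i))
  (hB : ∀ i, ∀ y ∈ E i, ∀ z ∈ E i, dist y z ≠ 1)
  (hR : ∀ i, interior (closure (E i)) = E i)
  (hcl : ∀ x, ∃ i, x ∈ closure (E i))
  (hd : ∀ i j, i ≠ j → Disjoint (E i) (E j))
  {x : ℂ} {a b c d e : Fin 5} {va vc : ℂ} {δ : ℝ}

include hE hB hR hcl in
lemma kind_arc (h4 : Four E x a b c d e) {i : Fin 3} {q : ℂ} (hq : q ∈ Kind E x a b c d e i) :
    ∃ ρ > 0, sphere x 1 ∩ ball q ρ ⊆ closure (E (pr a b c d e i).1) ∧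
      sphere x 1 ∩ ball q ρ ⊆ closure (E (pr a b c d e i).2) := by
  fin_cases i
  · exact (pure_ab E hE hB hR hcl h4 hq).1
  · exact (pure_cd E hE hB hR hcl h4 hq).1
  · obtain ⟨-, ρ, hρ, h⟩ := hq
    exact ⟨ρ, hρ, h, h⟩

include hE hB hR hcl in
lemma kind_sub (h4 : Four E x a b c d e) (i : Fin 3) :
    closure (Kind E x a b c d e i) ⊆
      closure (E (pr a b c d e i).1) ∩ closure (E (pr a b c d e i).2) := by
  refine closure_minimal (fun q hq => ?_) (isClosed_closure.inter isClosed_closure)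
  obtain ⟨ρ, hρ, h1, h2⟩ := kind_arc E hE hB hR hcl h4 hq
  have : q ∈ sphere x 1 ∩ ball q ρ :=
    ⟨kind_sphere E x a b c d e i (subset_closure hq), mem_ball_self hρ⟩
  exact ⟨h1 this, h2 this⟩

include hE hB hR hcl in
lemma kind_cover (h : Cyc E x a b c d e va vc δ) {p : ℂ} (hp : p ∈ sphere x 1) :
    ∃ i, p ∈ closure (Kind E x a b c d e i) := by
  rcases circle_cover E hE hB hR hcl h hp with (h' | h') | h'
  exacts [⟨0, h'⟩, ⟨1, h'⟩, ⟨2, h'⟩]

include hE hB in
/-- An arc in one closure keeps it away from both neighbours. -/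
lemma turn_arc {p ω : ℂ} (hω : ω = om ∨ ω = conj om) (hp : p ∈ sphere x 1) {ρ : ℝ} (hρ : 0 < ρ)
    {i : Fin 5} (h : sphere x 1 ∩ ball p ρ ⊆ closure (E i)) :
    x + ω * (p - x) ∉ closure (E i) := by
  have hp1 : ‖p - x‖ = 1 := by rw [← dist_eq_norm]; exact mem_sphere.1 hp
  have hn : ‖1 - ω‖ = 1 := by
    rcases hω with rfl | rfl
    · rw [norm_sub_rev, norm_om_sub_one]
    · rw [conj_om, sub_sub_cancel, norm_om]
  refine arc_sweep E hE hB hp hρ h ?_ ?_
  · rw [dist_eq_norm, show p - (x + ω * (p - x)) = (1 - ω) * (p - x) by ring, norm_mul, hn, hp1,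
      one_mul]
  · rw [add_sub_cancel_left, mul_left_comm, conj_mul_self hp1, mul_one]
    rcases hω with rfl | rfl <;> simp [om_im]

include hE hB hR hcl in
/-- The neighbours of a kind are of the other kinds. -/
lemma turn (h : Cyc E x a b c d e va vc δ) {ω : ℂ} (hω : ω = om ∨ ω = conj om) {i : Fin 3} {q : ℂ}
    (hq : q ∈ closure (Kind E x a b c d e i)) :
    ∃ j, j ≠ i ∧ x + ω * (q - x) ∈ closure (Kind E x a b c d e j) := by
  have hT : IsClosed (⋃ j ∈ {j | j ≠ i}, (fun q => x + ω * (q - x)) ⁻¹'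
      closure (Kind E x a b c d e j)) :=
    (Set.toFinite _).isClosed_biUnion fun j _ => isClosed_closure.preimage (by fun_prop)
  suffices hs : Kind E x a b c d e i ⊆ _ by
    obtain ⟨j, hj, hqj⟩ := mem_iUnion₂.1 (closure_minimal hs hT hq)
    exact ⟨j, hj, hqj⟩
  intro q hq
  have hqs := kind_sphere E x a b c d e i (subset_closure hq)
  obtain ⟨ρ, hρ, h1, -⟩ := kind_arc E hE hB hR hcl h.four hq
  have hn := turn_arc E hE hB hω hqs hρ h1
  obtain ⟨j, hj⟩ := kind_cover E hE hB hR hcl h (p := x + ω * (q - x)) (by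
    rw [mem_sphere, dist_eq_norm] at hqs ⊢
    rcases hω with rfl | rfl <;> simp [norm_om, hqs])
  exact mem_biUnion (x := j) (fun e => hn (kind_sub E hE hB hR hcl h.four i (e ▸ hj)).1) hj

lemma bd_edge {p : ℂ} (hp : Bd E x a b c d e p) :
    Edge E x a b c d e p ∨ Edge E x d c b a e p := by
  obtain ⟨i, j, hij, hi, hj⟩ := hp
  simp only [Edge, pure_comm E x b a e, pure_comm E x d c e]
  fin_cases i <;> fin_cases j
  exacts [absurd rfl hij, Or.inl ⟨hi, Or.inl hj⟩, Or.inl ⟨hi, Or.inr hj⟩, Or.inl ⟨hj, Or.inl hi⟩,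
    absurd rfl hij, Or.inr ⟨hi, Or.inr hj⟩, Or.inl ⟨hj, Or.inr hi⟩, Or.inr ⟨hj, Or.inr hi⟩,
    absurd rfl hij]

include hE hB hR hcl hd in
lemma no_five (h : Cyc E x a b c d e va vc δ) (P : Fin 5 → ℂ) (hP : ∀ i, Bd E x a b c d e (P i))
    (h01 : cr x (P 0) (P 1) ≠ 0) (h02 : cr x (P 0) (P 2) ≠ 0) (h03 : cr x (P 0) (P 3) ≠ 0)
    (h04 : cr x (P 0) (P 4) ≠ 0) (h12 : cr x (P 1) (P 2) ≠ 0) (h13 : cr x (P 1) (P 3) ≠ 0)
    (h14 : cr x (P 1) (P 4) ≠ 0) (h23 : cr x (P 2) (P 3) ≠ 0) (h24 : cr x (P 2) (P 4) ≠ 0)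
    (h34 : cr x (P 3) (P 4) ≠ 0) : False := by
  classical
  have ns : ∀ i j, i < j → cr x (P i) (P j) ≠ 0 := by
    intro i j hij
    fin_cases i <;> fin_cases j <;> first | exact absurd hij (by decide) | assumption
  obtain ⟨i, j, k, hij, hjk, e1, e2⟩ := pigeon fun i => decide (Edge E x a b c d e (P i))
  simp only [decide_eq_decide] at e1 e2
  by_cases hi : Edge E x a b c d e (P i)
  · exact no_triple E hE hB hR hcl hd h hi (e1.1 hi) (e2.1 (e1.1 hi)) (ns i j hij)
      (ns i k (hij.trans hjk)) (ns j k hjk)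
  · exact no_triple E hE hB hR hcl hd h.mirror ((bd_edge E (hP i)).resolve_left hi)
      ((bd_edge E (hP j)).resolve_left (mt e1.2 hi))
      ((bd_edge E (hP k)).resolve_left (mt (e1.2 ∘ e2.2) hi))
      (ns i j hij) (ns i k (hij.trans hjk)) (ns j k hjk)

include hE hB hR hcl hd in
lemma no_four_lines (h : Cyc E x a b c d e va vc δ) {p q s r : ℂ} (hp : Bd E x a b c d e p)
    (hq : Bd E x a b c d e q) (hs : Bd E x a b c d e s) (rX : Edge E x a b c d e r)
    (rY : Edge E x d c b a e r) (pq : cr x p q ≠ 0) (ps : cr x p s ≠ 0) (qs : cr x q s ≠ 0)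
    (pr' : cr x p r ≠ 0) (qr : cr x q r ≠ 0) (sr : cr x s r ≠ 0) : False := by
  have nX : ∀ {p q}, Edge E x a b c d e p → Edge E x a b c d e q → cr x p q ≠ 0 → cr x p r ≠ 0 →
      cr x q r ≠ 0 → False := fun hp hq => no_triple E hE hB hR hcl hd h hp hq rX
  have nY : ∀ {p q}, Edge E x d c b a e p → Edge E x d c b a e q → cr x p q ≠ 0 → cr x p r ≠ 0 →
      cr x q r ≠ 0 → False := fun hp hq => no_triple E hE hB hR hcl hd h.mirror hp hq rY
  rcases bd_edge E hp with A | A <;> rcases bd_edge E hq with B | B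
  · exact nX A B pq pr' qr
  · rcases bd_edge E hs with C | C
    exacts [nX A C ps pr' sr, nY B C qs qr sr]
  · rcases bd_edge E hs with C | C
    exacts [nX B C qs qr sr, nY A C ps pr' sr]
  · exact nY A B pq pr' qr

include hE hB hR hcl hd in
/-- Next to a meeting with the fifth colour is another meeting. -/
lemma bd_next (h : Cyc E x a b c d e va vc δ) {p : ℂ}
    (h2 : p ∈ closure (Kind E x a b c d e 2))
    (h01 : p ∈ closure (Kind E x a b c d e 0) ∨ p ∈ closure (Kind E x a b c d e 1))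
    {ω : ℂ} (hω : ω = om ∨ ω = conj om) : Bd E x a b c d e (x + ω * (p - x)) := by
  by_contra hn
  obtain ⟨i, hi, hpi⟩ : ∃ i, i ≠ 2 ∧ p ∈ closure (Kind E x a b c d e i) := by
    rcases h01 with h' | h'
    exacts [⟨0, by decide, h'⟩, ⟨1, by decide, h'⟩]
  set p' := x + ω * (p - x) with hp'
  obtain ⟨j, hj2, hj⟩ := turn E hE hB hR hcl h hω h2
  obtain ⟨k, hki, hk⟩ := turn E hE hB hR hcl h hω hpi
  have only : ∀ m, p' ∈ closure (Kind E x a b c d e m) → m = j := fun m hm =>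
    by_contra fun hne => hn ⟨m, j, hne, hm, hj⟩
  obtain rfl := only k hk
  have hps' := kind_sphere E x a b c d e k hj
  have hO : IsOpen (⋃ m ∈ {m | m ≠ k}, closure (Kind E x a b c d e m))ᶜ :=
    ((Set.toFinite _).isClosed_biUnion fun m _ => isClosed_closure).isOpen_compl
  obtain ⟨ρ, hρ, hρs⟩ := Metric.isOpen_iff.1 hO p' (by
    simp only [mem_compl_iff, mem_iUnion, exists_prop, not_exists, not_and]
    exact fun m hm hm' => hm (only m hm'))
  have harc : ∀ z ∈ sphere x 1 ∩ ball p' ρ, z ∈ closure (Kind E x a b c d e k) := by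
    intro z hz
    obtain ⟨m, hm⟩ := kind_cover E hE hB hR hcl h hz.1
    by_contra hzk
    exact hρs hz.2 (mem_biUnion (x := m) (fun e => hzk (e ▸ hm)) hm)
  obtain ⟨ω', hω', hback⟩ : ∃ ω', (ω' = om ∨ ω' = conj om) ∧ ω' * ω = 1 := by
    rcases hω with rfl | rfl
    exacts [⟨conj om, Or.inr rfl, conj_mul_self norm_om⟩,
      ⟨om, Or.inl rfl, by rw [mul_comm]; exact conj_mul_self norm_om⟩]
  have eb : x + ω' * (p' - x) = p := by
    rw [hp', add_sub_cancel_left, ← mul_assoc, hback, one_mul, add_sub_cancel]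
  have n1 : p ∉ closure (E (pr a b c d e k).1) := eb ▸ turn_arc E hE hB hω' hps' hρ
    fun z hz => (kind_sub E hE hB hR hcl h.four k (harc z hz)).1
  have n2 : p ∉ closure (E (pr a b c d e k).2) := eb ▸ turn_arc E hE hB hω' hps' hρ
    fun z hz => (kind_sub E hE hB hR hcl h.four k (harc z hz)).2
  fin_cases i <;> fin_cases k
  any_goals exact absurd rfl hi
  any_goals exact absurd rfl hki
  any_goals exact absurd rfl hj2
  · exact (triangle_at E hE hB hR hcl hd h hpi h2).elim n1 n2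
  · have := triangle_at E hE hB hR hcl hd h.mirror (p := p) (by rwa [pure_comm E x b a e]) h2
    exact this.symm.elim n1 n2

include hE hB hR hcl hd in
/-- Some point has all meetings of the kinds among its six rotations. -/
lemma hexagon (h : Cyc E x a b c d e va vc δ) {q₁ q₂ : ℂ} (hq₁ : q₁ ∈ Pure E x c d e)
    (hq₂ : q₂ ∈ Pure E x a b e) :
    ∃ u, ‖u‖ = 1 ∧ ∀ r, Bd E x a b c d e r → ∃ n : ℕ, r = x + om ^ n * u := by
  set K := Kind E x a b c d e with hK
  -- some point of the circle is in the fifth closure all around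
  obtain ⟨z, hz⟩ : (sphere x 1 ∩ closure (K 2)).Nonempty := by
    by_contra hempty
    have cov : ∀ p ∈ sphere x 1, p ∈ closure (K 0) ∨ p ∈ closure (K 1) := fun p hp => by
      obtain ⟨i, hi⟩ := kind_cover E hE hB hR hcl h hp
      fin_cases i
      exacts [Or.inl hi, Or.inr hi, absurd ⟨p, hp, hi⟩ hempty]
    have step : ∀ i j : Fin 3, (∀ p ∈ sphere x 1, p ∈ closure (K i) ∨ p ∈ closure (K j)) →
        ∀ p ∈ sphere x 1, ∀ ρ > 0,
        sphere x 1 ∩ ball p ρ ⊆ closure (E (pr a b c d e i).1) →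
        ∃ ρ' > 0, sphere x 1 ∩ ball (x + om * (p - x)) ρ' ⊆ closure (E (pr a b c d e j).1) := by
      intro i j hcov p hp ρ hρ harc
      have hn := turn_arc E hE hB (Or.inl rfl) hp hρ harc
      obtain ⟨ρ', hρ', hρs⟩ := Metric.isOpen_iff.1 isClosed_closure.isOpen_compl _
        (show x + om * (p - x) ∈ (closure (K i))ᶜ from
          fun h' => hn (kind_sub E hE hB hR hcl h.four i h').1)
      exact ⟨ρ', hρ', fun z hz =>
        (kind_sub E hE hB hR hcl h.four j ((hcov z hz.1).resolve_left (hρs hz.2))).1⟩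
    obtain ⟨⟨ρ₀, hρ₀, ha, hb⟩, -⟩ := pure_ab E hE hB hR hcl h.four hq₁
    have cov' := fun p hp => (cov p hp).symm
    have hs1 := (rot_facts x q₁ hq₁.1).1
    have hs2 := (rot_facts x _ hs1).1
    obtain ⟨ρ₁, hρ₁, k1⟩ := step 0 1 cov q₁ hq₁.1 ρ₀ hρ₀ ha
    obtain ⟨ρ₂, hρ₂, k2⟩ := step 1 0 cov' _ hs1 ρ₁ hρ₁ k1
    obtain ⟨ρ₃, hρ₃, k3⟩ := step 0 1 cov _ hs2 ρ₂ hρ₂ k2
    obtain ⟨n1, n2, n3, n4, n5, n6, n7, n8, n9, n10⟩ := h.four.hne
    refine no_three E hE hB hR hcl h.four (u := q₁ - x)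
      (by rw [← dist_eq_norm]; exact mem_sphere.1 hq₁.1) (lt_min hρ₀ hρ₃) n1 n2 n5 n4 n7 n9
      fun m hm => ?_
    have e3 : x + om * (x + om * (x + om * (q₁ - x) - x) - x) = x + -(q₁ - x) := by
      linear_combination (q₁ - x) * om_cube
    rw [e3] at k3
    rw [add_sub_cancel]
    rcases hm with rfl | rfl | rfl
    exacts [Or.inl fun z hz => ha ⟨hz.1, ball_subset_ball (min_le_left _ _) hz.2⟩,
      Or.inl fun z hz => hb ⟨hz.1, ball_subset_ball (min_le_left _ _) hz.2⟩,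
      Or.inr fun z hz => k3 ⟨hz.1, ball_subset_ball (min_le_right _ _) hz.2⟩]
  obtain ⟨p, hps, hp01, hp2⟩ := isPreconnected_closed_iff.1
    (isPreconnected_sphere (by rw [Complex.rank_real_complex]; norm_num) x (1 : ℝ))
    (closure (K 0) ∪ closure (K 1)) (closure (K 2)) (isClosed_closure.union isClosed_closure)
    isClosed_closure (fun p hp => by
      obtain ⟨i, hi⟩ := kind_cover E hE hB hR hcl h hp
      fin_cases i
      exacts [Or.inl (Or.inl hi), Or.inl (Or.inr hi), Or.inr hi])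
    ⟨q₁, hq₁.1, Or.inl (subset_closure hq₁)⟩ ⟨z, hz⟩
  set u := p - x with hu'
  have hu : ‖u‖ = 1 := by rw [hu', ← dist_eq_norm]; exact mem_sphere.1 hps
  have hBp : Bd E x a b c d e (x + om ^ 0 * u) := by
    rw [pow_zero, one_mul, hu', add_sub_cancel]
    rcases hp01 with h' | h'
    exacts [⟨0, 2, by decide, h', hp2⟩, ⟨1, 2, by decide, h', hp2⟩]
  have hBp1 : Bd E x a b c d e (x + om ^ 1 * u) := by
    simpa using bd_next E hE hB hR hcl hd h hp2 hp01 (Or.inl rfl)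
  have hBp5 : Bd E x a b c d e (x + om ^ 5 * u) := by
    rw [show om ^ 5 = conj om by simpa using (conj_om_pow 1).symm]
    exact bd_next E hE hB hR hcl hd h hp2 hp01 (Or.inr rfl)
  refine ⟨u, hu, fun r hr => by_contra fun hoff => ?_⟩
  push Not at hoff
  obtain ⟨i, j, hij, hi, hj⟩ := hr
  set v := r - x with hv'
  have hrs : r ∈ sphere x 1 := kind_sphere E x a b c d e i hi
  have hv : ‖v‖ = 1 := by rw [hv', ← dist_eq_norm]; exact mem_sphere.1 hrs
  have hne : ∀ n : ℕ, v ≠ om ^ n * u := fun n e => hoff n (by rw [← e, hv', add_sub_cancel])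
  have off := cr_off (x := x) hu hv hne
  have e0 : r = x + om ^ 0 * v := by rw [pow_zero, one_mul, hv', add_sub_cancel]
  have o01 := cr_on (x := x) hu 0 1 (by decide)
  have o05 := cr_on (x := x) hu 0 5 (by decide)
  have o15 := cr_on (x := x) hu 1 5 (by decide)
  by_cases hr2 : i = 2 ∨ j = 2
  · obtain ⟨h2, h01⟩ : r ∈ closure (K 2) ∧ (r ∈ closure (K 0) ∨ r ∈ closure (K 1)) := by
      rcases hr2 with rfl | rfl
      · refine ⟨hi, ?_⟩
        fin_cases j
        exacts [Or.inl hj, Or.inr hj, absurd rfl hij]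
      · refine ⟨hj, ?_⟩
        fin_cases i
        exacts [Or.inl hi, Or.inr hi, absurd rfl hij]
    have hR1 : Bd E x a b c d e (x + om ^ 1 * v) := by
      simpa [hv'] using bd_next E hE hB hR hcl hd h h2 h01 (Or.inl rfl)
    refine no_five E hE hB hR hcl hd h
      ![x + om ^ 0 * u, x + om ^ 1 * u, x + om ^ 5 * u, x + om ^ 0 * v, x + om ^ 1 * v]
      (fun m => ?_) o01 o05 (off 0 0) (off 0 1) o15 (off 1 0) (off 1 1) (off 5 0) (off 5 1)
      (cr_on hv 0 1 (by decide))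
    fin_cases m
    exacts [hBp, hBp1, hBp5, e0 ▸ ⟨i, j, hij, hi, hj⟩, hR1]
  · push Not at hr2
    obtain ⟨rX, rY⟩ : Edge E x a b c d e r ∧ Edge E x d c b a e r := by
      simp only [Edge, pure_comm E x b a e, pure_comm E x d c e]
      fin_cases i <;> fin_cases j
      exacts [absurd rfl hij, ⟨⟨hi, Or.inl hj⟩, hj, Or.inl hi⟩, absurd rfl hr2.2,
        ⟨⟨hj, Or.inl hi⟩, hi, Or.inl hj⟩, absurd rfl hij, absurd rfl hr2.2,
        absurd rfl hr2.1, absurd rfl hr2.1, absurd rfl hij]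
    rw [e0] at rX rY
    exact no_four_lines E hE hB hR hcl hd h hBp hBp1 hBp5 rX rY o01 o05 o15 (off 0 0) (off 1 0)
      (off 5 0)

end Vale.Agent.P032
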