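import Vale.Agent.P032.Mesh
import Vale.Agent.P032.Chain

/-!
Sperner labels which are constant on short steps inside each of the five sets.
-/

namespace Vale.Agent.P032

open Metric Set Relation

lemma step_symm {X : Set ℂ} {η : ℝ} {x y : ℂ} (h : ReflTransGen (Step X η) x y) :
    ReflTransGen (Step X η) y x := by
  induction h with
  | refl => exact .refl
  | tail _ hs ih => exact ReflTransGen.head ⟨hs.2.1, hs.1, by rw [dist_comm]; exact hs.2.2⟩ ih

/-- Circles which miss the sets do so with a uniform margin on the big ball. -/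
lemma margin (F : Fin 5 → Set ℂ) (hF : ∀ i, IsClosed (F i))
    (hnear : ∀ i, ∀ x ∈ F i, ∃ y, dist x y < 1 / 4 ∧ ∀ z ∈ F i, dist z y ≠ 1) (i : Fin 5) :
    ∃ g : ℝ, 0 < g ∧ ∀ x ∈ closedBall (0 : ℂ) 30 ∩ F i,
      ∃ y, dist x y < 1 / 4 ∧ ∀ z ∈ closedBall (0 : ℂ) 30 ∩ F i, g ≤ |dist z y - 1| := by
  set K : Set ℂ := closedBall 0 30 with hK
  have hc : IsCompact (K ∩ F i) := (isCompact_closedBall _ _).inter_right (hF i)
  let U : ℕ → Set ℂ := fun m =>
    ⋃ y ∈ {y | ∀ z ∈ K ∩ F i, 1 / ((m : ℝ) + 1) ≤ |dist z y - 1|}, ball y (1 / 4)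
  have hsub : K ∩ F i ⊆ ⋃ m, U m := by
    intro x hx
    obtain ⟨y, hxy, hy⟩ := hnear i x hx.2
    obtain ⟨z₀, hz₀, hmin⟩ := hc.exists_isMinOn ⟨x, hx⟩
      (f := fun z => |dist z y - 1|) (by fun_prop)
    have hpos : 0 < |dist z₀ y - 1| := abs_pos.2 (sub_ne_zero.2 (hy z₀ hz₀.2))
    obtain ⟨m, hm⟩ := exists_nat_one_div_lt hpos
    exact mem_iUnion.2 ⟨m, mem_biUnion (x := y)
      (show ∀ z ∈ K ∩ F i, _ from fun z hz => hm.le.trans (hmin hz)) hxy⟩
  have hdir : Directed (· ⊆ ·) U := Monotone.directed_le <| by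
    intro m m' hmm
    refine biUnion_subset_biUnion_left fun y hy z hz => le_trans ?_ (hy z hz)
    exact one_div_le_one_div_of_le (by positivity) (by exact_mod_cast Nat.succ_le_succ hmm)
  obtain ⟨m, hm⟩ := hc.elim_directed_cover U
    (fun m => isOpen_biUnion fun y _ => isOpen_ball) hsub hdir
  refine ⟨1 / ((m : ℝ) + 1), by positivity, fun x hx => ?_⟩
  obtain ⟨y, hy, hxy⟩ := mem_iUnion₂.1 (hm hx)
  exact ⟨y, hxy, hy⟩

lemma label_excl {g : ℝ} (hg : g ≤ 1 / 8) {z0 z1 z2 : ℂ} (s0 : |sd 0 z0| < g) (s1 : |sd 1 z1| < g)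
    (s2 : |sd 2 z2| < g) (d1 : dist z0 z1 < 2) (d2 : dist z0 z2 < 2) : False := by
  have e1 := (Complex.abs_re_le_norm (z0 - z1)).trans_lt (by rwa [← dist_eq_norm])
  have e2 := (Complex.abs_im_le_norm (z0 - z2)).trans_lt (by rwa [← dist_eq_norm])
  simp [sd, abs_lt] at s0 s1 s2 e1 e2
  linarith [e1.1, e1.2, e2.1, e2.2]

lemma three_labels : ∀ a b c m : Fin 3,
    ¬(a ≠ b ∧ b ≠ c ∧ a ≠ c ∧ a ≠ m ∧ b ≠ m ∧ c ≠ m) := by
  decide

/-- The colours and labels on a fine grid. -/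
theorem exists_labels (F : Fin 5 → Set ℂ) (hF : ∀ i, IsClosed (F i))
    (hcov : ∀ x, ∃ i, x ∈ F i)
    (hnear : ∀ i, ∀ x ∈ F i, ∃ y, dist x y < 1 / 4 ∧ ∀ z ∈ F i, dist z y ≠ 1) :
    ∃ g : ℝ, 0 < g ∧ g ≤ 1 / 8 ∧ ∀ (N : ℕ) (h : ℝ), 0 < h → (N : ℝ) * h = 10 → 8 * h < g →
      ∃ (col : GP → Fin 5) (l : GP → Fin 3), (∀ p, pt h p ∈ F (col p)) ∧
        (∀ p p', InP N p → InP N p' → dist (pt h p) (pt h p') < g → col p = col p' → l p = l p') ∧
        ∑ t ∈ inside N, rain l t = 1 ∧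
        ∀ t, InTri N t → rain l t ≠ 0 →
          (∀ k k', k ≠ k' → col (corner t k) ≠ col (corner t k') ∧
            l (corner t k) ≠ l (corner t k')) ∧
          ∀ m, g / 2 ≤ sd m (pt h (corner t 0)) := by
  classical
  choose gf hgf0 hgf using margin F hF hnear
  obtain ⟨i₀, -, hi₀⟩ := Finset.univ.exists_min_image gf Finset.univ_nonempty
  set g := min (gf i₀) (1 / 8) with hg
  have hg0 : 0 < g := lt_min (hgf0 _) (by norm_num)
  have hg8 : g ≤ 1 / 8 := min_le_right _ _
  refine ⟨g, hg0, hg8, fun N h hh hN hsmall => ?_⟩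
  set K : Set ℂ := closedBall 0 30 with hK
  choose col hcol using fun p : GP => hcov (pt h p)
  have inK : ∀ p, InP N p → pt h p ∈ K := fun p hp => by
    rw [hK, mem_closedBall]
    linarith [pt_le hh hN hp]
  let Touch : Fin 3 → Fin 5 → ℂ → Prop := fun k i x =>
    ∃ z, ReflTransGen (Step (K ∩ F i) g) x z ∧ |sd k z| < g
  let Lab : Fin 5 → ℂ → Fin 3 := fun i x =>
    if ¬ Touch 0 i x then 0 else if ¬ Touch 1 i x then 1 else 2
  have stay : ∀ i x, x ∈ K ∩ F i → ∀ z z', ReflTransGen (Step (K ∩ F i) g) x z →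
      ReflTransGen (Step (K ∩ F i) g) x z' → dist z z' < 2 := by
    intro i x hx z z' hz hz'
    obtain ⟨y, hy0, hy⟩ := hgf i x hx
    have st : ∀ z, ReflTransGen (Step (K ∩ F i) g) x z → dist z y < 1 := by
      intro z hz
      induction hz with
      | refl => linarith
      | @tail b c _ hbc ih =>
        have k1 := hy b hbc.1
        rw [abs_of_neg (by linarith), neg_sub] at k1
        have k2 : gf i₀ ≤ gf i := hi₀ _ (Finset.mem_univ _)
        have k3 : g ≤ gf i₀ := min_le_left _ _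
        linarith [dist_triangle c b y, dist_comm b c, hbc.2.2]
    linarith [dist_triangle_right z z' y, st z hz, st z' hz']
  let l : GP → Fin 3 := fun p => Lab (col p) (pt h p)
  have touch_self : ∀ k p, |sd k (pt h p)| < g → Touch k (col p) (pt h p) :=
    fun k p hk => ⟨pt h p, .refl, hk⟩
  have hl : ∀ p, InP N p → ∀ k, |sd k (pt h p)| < g → l p ≠ k := by
    intro p hp k hk
    have hx : pt h p ∈ K ∩ F (col p) := ⟨inK p hp, hcol p⟩
    have ht := touch_self k p hk
    simp only [l, Lab]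
    fin_cases k <;> simp only at ht ⊢
    · by_cases t1 : Touch 1 (col p) (pt h p) <;> simp_all
    · by_cases t0 : Touch 0 (col p) (pt h p) <;> simp_all
    · by_cases t0 : Touch 0 (col p) (pt h p)
      · have t1 : ¬ Touch 1 (col p) (pt h p) := by
          rintro ⟨z1, r1, s1⟩
          obtain ⟨z0, r0, s0⟩ := t0
          obtain ⟨z2, r2, s2⟩ := ht
          exact label_excl hg8 s0 s1 s2 (stay _ _ hx _ _ r0 r1) (stay _ _ hx _ _ r0 r2)
        simp_all
      · simp_all
  refine ⟨col, l, hcol, ?_, ?_, ?_⟩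
  · intro p p' hp hp' hd he
    show Lab (col p) (pt h p) = Lab (col p') (pt h p')
    rw [← he]
    have hxy : ReflTransGen (Step (K ∩ F (col p)) g) (pt h p) (pt h p') :=
      .single ⟨⟨inK p hp, hcol p⟩, ⟨inK p' hp', he ▸ hcol p'⟩, hd⟩
    have : ∀ k, Touch k (col p) (pt h p) ↔ Touch k (col p) (pt h p') := fun k =>
      ⟨fun ⟨z, hz, hz'⟩ => ⟨z, (step_symm hxy).trans hz, hz'⟩,
        fun ⟨z, hz, hz'⟩ => ⟨z, hxy.trans hz, hz'⟩⟩
    simp only [Lab, this]
  · refine total_odd N l ?_ ?_ ?_ ?_ ?_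
    · have hp : InP N (0, 0) := ⟨le_rfl, le_rfl, by simp⟩
      have h1 := hl _ hp 1 (by simp [sd, pt, hg0])
      have h2 := hl _ hp 2 (by simp [sd, pt, hg0])
      omega
    · have hp : InP N ((N : ℤ), 0) := ⟨by simp, le_rfl, by simp⟩
      have h1 := hl _ hp 0 (by simp [sd, pt, hN, hg0])
      have h2 := hl _ hp 2 (by simp [sd, pt, hg0])
      omega
    · exact fun i h1 h2 => hl _ ⟨h1, le_rfl, by simpa using h2⟩ 2 (by simp [sd, pt, hg0])
    · exact fun j h1 h2 => hl _ ⟨le_rfl, h1, by simpa using h2⟩ 1 (by simp [sd, pt, hg0])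
    · intro i j h1 h2 h3
      refine hl _ ⟨h1, h2, h3.le⟩ 0 ?_
      have : (i : ℝ) + j = N := by exact_mod_cast h3
      have e : 10 - (i : ℝ) * h - j * h = 0 := by rw [sub_sub, ← add_mul, this, hN, sub_self]
      simp [sd, pt, e, hg0]
  · intro t ht hrain
    have hlab : l (corner t 0) ≠ l (corner t 1) ∧ l (corner t 1) ≠ l (corner t 2) ∧
        l (corner t 0) ≠ l (corner t 2) := by
      by_contra hh'
      exact hrain (if_neg hh')
    have hne : ∀ k k', k ≠ k' → l (corner t k) ≠ l (corner t k') := by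
      obtain ⟨e1, e2, e3⟩ := hlab
      intro k k' hk
      fin_cases k <;> fin_cases k' <;>
        first | exact absurd rfl hk | assumption | (exact Ne.symm ‹_›)
    refine ⟨fun k k' hk => ⟨fun he => hne k k' hk ?_, hne k k' hk⟩, fun m => ?_⟩
    · show Lab _ _ = Lab _ _
      rw [← he]
      have hxy : ReflTransGen (Step (K ∩ F (col (corner t k))) g) (pt h (corner t k))
          (pt h (corner t k')) :=
        .single ⟨⟨inK _ (corner_in t ht k), hcol _⟩, ⟨inK _ (corner_in t ht k'), he ▸ hcol _⟩,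
          by linarith [corner_close hh t k k']⟩
      have : ∀ j, Touch j (col (corner t k)) (pt h (corner t k)) ↔
          Touch j (col (corner t k)) (pt h (corner t k')) := fun j =>
        ⟨fun ⟨z, hz, hz'⟩ => ⟨z, (step_symm hxy).trans hz, hz'⟩,
          fun ⟨z, hz, hz'⟩ => ⟨z, hxy.trans hz, hz'⟩⟩
      simp only [Lab, this]
    · by_contra hm
      push Not at hm
      have hnn := sd_nonneg hh hN (corner_in t ht 0) m
      have hno : ∀ k, l (corner t k) ≠ m := fun k => by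
        refine hl _ (corner_in t ht k) m ?_
        have := sd_lip m (pt h (corner t k)) (pt h (corner t 0))
        rw [abs_le] at this
        rw [abs_lt]
        have := corner_close hh t k 0
        constructor <;> linarith
      exact three_labels _ _ _ m ⟨hlab.1, hlab.2.1, hlab.2.2, hno 0, hno 1, hno 2⟩

end Vale.Agent.P032
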