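import Vale.Agent.P032.Parity
import Mathlib.Analysis.Complex.Basic

/-!
The triangular grid placed in the plane.
-/

namespace Vale.Agent.P032

open Metric Set

/-- The point of the plane at a grid point. -/
def pt (h : ℝ) (p : GP) : ℂ := ⟨p.1 * h, p.2 * h⟩

/-- The grid points of the big triangle. -/
def InP (N : ℕ) (p : GP) : Prop := 0 ≤ p.1 ∧ 0 ≤ p.2 ∧ p.1 + p.2 ≤ N

/-- The three signed distances to the sides of the big triangle. -/
def sd (k : Fin 3) (z : ℂ) : ℝ := ![10 - z.re - z.im, z.re, z.im] k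

lemma sd_lip (k : Fin 3) (z z' : ℂ) : |sd k z - sd k z'| ≤ 2 * dist z z' := by
  have h1 := Complex.abs_re_le_norm (z - z')
  have h2 := Complex.abs_im_le_norm (z - z')
  rw [dist_eq_norm]
  rw [Complex.sub_re, abs_le] at h1
  rw [Complex.sub_im, abs_le] at h2
  rw [abs_le]
  fin_cases k <;> simp [sd] <;> constructor <;> linarith [h1.1, h1.2, h2.1, h2.2]

lemma corner_in {N : ℕ} : ∀ t : Tri, InTri N t → ∀ k, InP N (corner t k) := by
  rintro ⟨⟨i, j⟩, b⟩ ⟨h1, h2, h3⟩ k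
  simp only at h1 h2 h3
  cases b <;> fin_cases k <;> simp [corner, InP] at h3 ⊢ <;> omega

lemma corner_near (t : Tri) (k k' : Fin 3) :
    (corner t k).1 - (corner t k').1 ∈ Set.Icc (-1 : ℤ) 1 ∧
      (corner t k).2 - (corner t k').2 ∈ Set.Icc (-1 : ℤ) 1 := by
  obtain ⟨⟨i, j⟩, b⟩ := t
  cases b <;> fin_cases k <;> fin_cases k' <;> simp [corner]

lemma corner_close {h : ℝ} (hh : 0 < h) (t : Tri) (k k' : Fin 3) :
    dist (pt h (corner t k)) (pt h (corner t k')) ≤ 2 * h := by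
  obtain ⟨⟨h1, h2⟩, h3, h4⟩ := corner_near t k k'
  rw [dist_eq_norm]
  refine (Complex.norm_le_abs_re_add_abs_im _).trans ?_
  have a1 : |(((corner t k).1 : ℝ) - (corner t k').1)| ≤ 1 := by
    exact_mod_cast abs_le.2 ⟨h1, h2⟩
  have a2 : |(((corner t k).2 : ℝ) - (corner t k').2)| ≤ 1 := by
    exact_mod_cast abs_le.2 ⟨h3, h4⟩
  simp only [pt, Complex.sub_re, Complex.sub_im, ← sub_mul, abs_mul, abs_of_pos hh]
  nlinarith

lemma ends_corner (t : Tri) (k : Fin 3) : ∃ m m', (ends (t, k)).1 = corner t m ∧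
    (ends (t, k)).2 = corner t m' := by
  obtain ⟨⟨i, j⟩, b⟩ := t
  cases b <;> fin_cases k
  · exact ⟨1, 2, rfl, rfl⟩
  · exact ⟨0, 1, rfl, rfl⟩
  · exact ⟨0, 2, rfl, rfl⟩
  · exact ⟨0, 1, rfl, rfl⟩
  · exact ⟨1, 2, rfl, rfl⟩
  · exact ⟨0, 2, rfl, rfl⟩

lemma flip_close {h : ℝ} (hh : 0 < h) (t : Tri) (k : Fin 3) :
    dist (pt h (corner t 0)) (pt h (corner (flipSide (t, k)).1 0)) ≤ 4 * h := by
  obtain ⟨m, m', hm, -⟩ := ends_corner t k
  obtain ⟨n, n', hn, -⟩ := ends_corner (flipSide (t, k)).1 (flipSide (t, k)).2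
  rw [Prod.mk.eta, ends_flip, hm] at hn
  have := congrArg (pt h) hn
  linarith [dist_triangle (pt h (corner t 0)) (pt h (corner t m))
    (pt h (corner (flipSide (t, k)).1 0)), corner_close hh t 0 m,
    this ▸ corner_close hh (flipSide (t, k)).1 n 0]

lemma sd_nonneg {N : ℕ} {h : ℝ} (hh : 0 < h) (hN : (N : ℝ) * h = 10) {p : GP} (hp : InP N p)
    (k : Fin 3) : 0 ≤ sd k (pt h p) := by
  obtain ⟨c1, c2, c3⟩ := hp
  have a1 : (0 : ℝ) ≤ p.1 := by exact_mod_cast c1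
  have a2 : (0 : ℝ) ≤ p.2 := by exact_mod_cast c2
  have a3 : (p.1 : ℝ) + p.2 ≤ N := by exact_mod_cast c3
  have := mul_le_mul_of_nonneg_right a3 hh.le
  fin_cases k <;> simp [sd, pt] <;> nlinarith

lemma pt_le {N : ℕ} {h : ℝ} (hh : 0 < h) (hN : (N : ℝ) * h = 10) {p : GP} (hp : InP N p) :
    dist (pt h p) 0 ≤ 10 := by
  have e0 := sd_nonneg hh hN hp 0
  have e1 := sd_nonneg hh hN hp 1
  have e2 := sd_nonneg hh hN hp 2
  simp [sd, pt] at e0 e1 e2
  rw [dist_zero_right]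
  refine (Complex.norm_le_abs_re_add_abs_im _).trans ?_
  simp [pt, abs_of_nonneg e1, abs_of_nonneg e2]
  linarith

lemma inTri_of_far {N : ℕ} {h c : ℝ} (hh : 0 < h) (hN : (N : ℝ) * h = 10) (hc : 4 * h < c)
    (t : Tri) (hfar : ∀ w, c ≤ sd w (pt h (corner t 0))) : InTri N t := by
  obtain ⟨⟨i, j⟩, b⟩ := t
  have w0 := hfar 0
  have w1 := hfar 1
  have w2 := hfar 2
  have key : ∀ I J : ℤ, c ≤ 10 - (I : ℝ) * h - J * h → c ≤ (I : ℝ) * h → c ≤ (J : ℝ) * h →
      4 < I ∧ 4 < J ∧ I + J + 4 < N := by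
    intro I J h0 h1 h2
    refine ⟨?_, ?_, ?_⟩
    · have : (4 : ℝ) < I := by nlinarith
      exact_mod_cast this
    · have : (4 : ℝ) < J := by nlinarith
      exact_mod_cast this
    · have : ((I : ℝ) + J + 4) < N := by nlinarith
      exact_mod_cast this
  cases b
  · simp [sd, pt, corner] at w0 w1 w2
    obtain ⟨a, b, d⟩ := key (i + 1) j (by push_cast; linarith) (by push_cast; linarith) w2
    exact ⟨by simp; omega, by simp; omega, by simp; omega⟩
  · simp [sd, pt, corner] at w0 w1 w2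
    obtain ⟨a, b, d⟩ := key i j (by linarith) w1 w2
    exact ⟨by simp; omega, by simp; omega, by simp; omega⟩

end Vale.Agent.P032
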