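import Vale.Agent.P032.Band

/-!
Both kinds of two-coloured arcs at a four-class point: the path closes to a cycle, and the common
boundaries of the arcs lie on few lines.
-/

namespace Vale.Agent.P032

open Metric Set Complex ComplexConjugate

/-- The points of the circle outside three of the closures. -/
def Pure (E : Fin 5 → Set ℂ) (x : ℂ) (i j k : Fin 5) : Set ℂ :=
  {p | p ∈ sphere x 1 ∧ p ∉ closure (E i) ∧ p ∉ closure (E j) ∧ p ∉ closure (E k)}

/-- The points of the circle inside one closure together with a surrounding arc. -/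
def Whole (E : Fin 5 → Set ℂ) (x : ℂ) (e : Fin 5) : Set ℂ :=
  {p | p ∈ sphere x 1 ∧ ∃ ρ > 0, sphere x 1 ∩ ball p ρ ⊆ closure (E e)}

lemma eq_zero_of_re {u w d : ℂ} (hind : (conj u * w).im ≠ 0) (h1 : (conj u * d).re = 0)
    (h2 : (conj w * d).re = 0) : d = 0 := by
  simp only [Complex.mul_re, Complex.mul_im, Complex.conj_re, Complex.conj_im] at *
  have hx : d.re * (u.re * w.im - u.im * w.re) = 0 := by linear_combination w.im * h1 - u.im * h2
  have hy : d.im * (u.re * w.im - u.im * w.re) = 0 := by linear_combination u.re * h2 - w.re * h1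
  have hne : u.re * w.im - u.im * w.re ≠ 0 := fun e => hind (by linarith)
  exact Complex.ext ((mul_eq_zero.1 hx).resolve_right hne) ((mul_eq_zero.1 hy).resolve_right hne)

lemma small_arc {x p : ℂ} (hp : p ∈ sphere x 1) {r : ℝ} (hr : 0 < r) :
    ∃ C, IsPreconnected C ∧ C ⊆ sphere x 1 ∩ ball p r ∧ C.Nontrivial := by
  have hp1 : ‖p - x‖ = 1 := by rw [← dist_eq_norm]; exact mem_sphere.1 hp
  have hc : Continuous fun t => x + zz t * (p - x) := continuous_const.add (zz_cont.mul continuous_const)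
  obtain ⟨δ, hδ, hb⟩ := Metric.continuousAt_iff.1 (hc.continuousAt (x := (0 : ℝ))) r hr
  set τ := min (δ / 2) 1
  have hτ : 0 < τ := lt_min (half_pos hδ) one_pos
  refine ⟨(fun t => x + zz t * (p - x)) '' Icc 0 τ, isPreconnected_Icc.image _ hc.continuousOn,
    ?_, ?_⟩
  · rintro _ ⟨t, ht, rfl⟩
    refine ⟨by simp [norm_zz, hp1], ?_⟩
    have := hb (x := t) (by
      rw [Real.dist_eq, sub_zero, abs_of_nonneg ht.1]; linarith [ht.2, min_le_left (δ / 2) (1 : ℝ)])
    simpa [zz_zero] using this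
  · refine ⟨_, mem_image_of_mem _ (left_mem_Icc.2 hτ.le), _, mem_image_of_mem _ (right_mem_Icc.2 hτ.le),
      fun h => ?_⟩
    simp only [add_right_inj] at h
    have h0 : p - x ≠ 0 := fun e => by simp [e] at hp1
    have := congrArg Complex.im (mul_right_cancel₀ h0 h)
    simp only [zz, Real.sin_zero] at this
    linarith [Real.sin_pos_of_pos_of_lt_pi hτ
      (by linarith [Real.two_le_pi, min_le_right (δ / 2) (1 : ℝ)])]

lemma in_sec {x v w z : ℂ} {A B δ : ℝ} (hv : ‖v‖ = 1) (hw : ‖w‖ = 1)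
    (hz : z - x = (A : ℂ) * v + (B : ℂ) * w) (hB : 0 < B) (hδ : 0 < δ) (hδ1 : δ ≤ 1)
    (hsm : B < δ / 8 * (A + B)) (hd : dist z x < δ) : z ∈ Sec x v δ := by
  refine ⟨hd, ?_⟩
  have hn : ‖conj v * w‖ = 1 := by simp [hv, hw]
  have a1 : |(conj v * w).re| ≤ 1 := hn ▸ Complex.abs_re_le_norm _
  have a2 : |(conj v * w).im| ≤ 1 := hn ▸ Complex.abs_im_le_norm _
  have hvv : conj v * v = 1 := by
    rw [mul_comm, Complex.mul_conj, Complex.normSq_eq_norm_sq, hv]; simp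
  rw [hz, show conj v * ((A : ℂ) * v + (B : ℂ) * w) = (A : ℂ) + (B : ℂ) * (conj v * w) by
    linear_combination (A : ℂ) * hvv]
  simp only [Complex.add_re, Complex.add_im, Complex.ofReal_re, Complex.ofReal_im,
    Complex.re_ofReal_mul, Complex.im_ofReal_mul, zero_add]
  rw [abs_mul, abs_of_pos hB]
  have h1 : B * |(conj v * w).im| ≤ B := mul_le_of_le_one_right hB.le a2
  have h2 : -B ≤ B * (conj v * w).re := by nlinarith [(abs_le.1 a1).1]
  have hA : 0 < A + B := by nlinarith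
  nlinarith [mul_le_mul_of_nonneg_left h2 hδ.le, mul_le_mul_of_nonneg_right hδ1 hA.le]

lemma off_line {κ r A B c : ℝ} (hc : c ≠ 0) (hA : 0 < A) (hB : 0 < B) (hr : A + B < r)
    (hrκ : r ≤ κ * |c|) (hκ : κ * (A + B) ≤ A) {n : ℝ} (hn0 : 0 ≤ n) (hn : n ≤ A + B) {D : ℝ}
    (hD0 : 0 ≤ D) (hD : D ^ 2 = 1 + n ^ 2 - 2 * (c * A)) : (D - 1) * c < 0 := by
  have hbig : n ^ 2 < 2 * (|c| * A) := by
    have h5 : n ^ 2 ≤ (A + B) * r := by nlinarith
    nlinarith [mul_le_mul_of_nonneg_left hrκ (add_pos hA hB).le,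
      mul_le_mul_of_nonneg_left hκ (abs_nonneg c), mul_pos (abs_pos.2 hc) hA]
  rcases lt_or_gt_of_ne hc with h | h
  · refine mul_neg_of_pos_of_neg ?_ h
    nlinarith [sq_nonneg n, mul_neg_of_neg_of_pos h hA]
  · rw [abs_of_pos h] at hbig
    refine mul_neg_of_neg_of_pos ?_ h
    nlinarith

lemma dist_sq_shift {x z q : ℂ} (hq : ‖q - x‖ = 1) :
    dist z q ^ 2 = 1 + ‖z - x‖ ^ 2 - 2 * (conj (q - x) * (z - x)).re := by
  rw [dist_eq_norm, show z - q = (z - x) - (q - x) by ring, Complex.sq_norm, Complex.sq_norm,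
    Complex.normSq_apply, Complex.normSq_apply]
  have e1 := re_sq_add_im_sq hq
  simp only [Complex.sub_re, Complex.sub_im, Complex.mul_re, Complex.conj_re, Complex.conj_im] at e1 ⊢
  linear_combination e1

variable (E : Fin 5 → Set ℂ) (hE : ∀ i, IsOpen (E i))
  (hB : ∀ i, ∀ y ∈ E i, ∀ z ∈ E i, dist y z ≠ 1)
  (hR : ∀ i, interior (closure (E i)) = E i)
  (hcl : ∀ x, ∃ i, x ∈ closure (E i))
  (hd : ∀ i j, i ≠ j → Disjoint (E i) (E j))
  {x : ℂ} {a b c d e : Fin 5}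

include hE hB hR hcl in
/-- Points outside `c`, `d`, `e` lie on arcs in both `a` and `b`. -/
lemma pure_ab (h4 : Four E x a b c d e) {p : ℂ} (hp : p ∈ Pure E x c d e) :
    (∃ ρ > 0, sphere x 1 ∩ ball p ρ ⊆ closure (E a) ∧ sphere x 1 ∩ ball p ρ ⊆ closure (E b)) ∧
      ∀ m, p ∈ closure (E m) → m = a ∨ m = b := by
  obtain ⟨hps, hc, hd', he⟩ := hp
  obtain ⟨ρ, hρ, hρs⟩ := Metric.isOpen_iff.1 ((isClosed_closure (s := E c)).isOpen_compl.inter
    ((isClosed_closure (s := E d)).isOpen_compl.inter (isClosed_closure (s := E e)).isOpen_compl))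
    p ⟨hc, hd', he⟩
  refine ⟨⟨ρ, hρ, ?_⟩, fun m hm => ?_⟩
  · have key : ∀ y ∈ sphere x 1 ∩ ball p ρ, y ∈ closure (E a) ∧ y ∈ closure (E b) := by
      intro y hy
      obtain ⟨hyc, hyd, hye⟩ := hρs hy.2
      rcases label_cases E hE hB hR hcl h4 hy.1 hye with h | h | h
      exacts [h, absurd h.1 hyc, absurd h.2.2 hyd]
    exact ⟨fun y hy => (key y hy).1, fun y hy => (key y hy).2⟩
  · rcases h4.hall m with h | h | h | h | h
    exacts [Or.inl h, Or.inr h, absurd (h ▸ hm) hc, absurd (h ▸ hm) hd', absurd (h ▸ hm) he]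

include hE hB hR hcl in
/-- Points outside `a`, `b`, `e` lie on arcs in both `c` and `d`. -/
lemma pure_cd (h4 : Four E x a b c d e) {p : ℂ} (hp : p ∈ Pure E x a b e) :
    (∃ ρ > 0, sphere x 1 ∩ ball p ρ ⊆ closure (E c) ∧ sphere x 1 ∩ ball p ρ ⊆ closure (E d)) ∧
      ∀ m, p ∈ closure (E m) → m = c ∨ m = d := by
  obtain ⟨⟨ρ, hρ, h1, h2⟩, h⟩ := pure_ab E hE hB hR hcl h4.mirror
    (p := p) ⟨hp.1, hp.2.2.1, hp.2.1, hp.2.2.2⟩
  exact ⟨⟨ρ, hρ, h2, h1⟩, fun m hm => (h m hm).symm⟩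

include hE hB hR hcl in
/-- Near a point outside `e` and `d` there is a pure point. -/
lemma exists_pure (h4 : Four E x a b c d e) {p : ℂ} (hp : p ∈ sphere x 1)
    (hpe : p ∉ closure (E e)) (hpd : p ∉ closure (E d)) {η : ℝ} (hη : 0 < η) :
    ∃ q ∈ Pure E x c d e, dist q p < η := by
  obtain ⟨ρ, hρ, hρs⟩ := Metric.isOpen_iff.1 ((isClosed_closure (s := E e)).isOpen_compl.inter
    (isClosed_closure (s := E d)).isOpen_compl) p ⟨hpe, hpd⟩
  obtain ⟨q, hq, ε', hε', hsub, hgen⟩ := generic E hp (lt_min hη hρ)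
  obtain ⟨hqe, hqd⟩ := hρs (ball_subset_ball (min_le_right _ _) hq.2)
  refine ⟨q, ⟨hq.1, fun hqc => ?_, hqd, hqe⟩, (mem_ball.1 hq.2).trans_le (min_le_left _ _)⟩
  rcases label_cases E hE hB hR hcl h4 hq.1 hqe with h | h | h
  · obtain ⟨h1, h2, h3, h4', h5, h6, h7, h8, h9, h10⟩ := h4.hne
    refine no_three E hE hB hR hcl h4 (u := q - x) (by rw [← dist_eq_norm]; exact mem_sphere.1 hq.1)
      hε' h1 h2 h5 h4' h7 h9 fun m hm => Or.inl fun z hz => (hgen z (by rwa [add_sub_cancel] at hz) m).2 ?_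
    rcases hm with rfl | rfl | rfl
    exacts [h.1, h.2, hqc]
  · exact hqd h.2
  · exact hqd h.2.2

include hE hB hR hcl hd in
/-- Between the sectors of `a` and `d` no other colour fits. -/
lemma wedge {va vc q₁ q₂ u₁ u₂ : ℂ} {δa δc η : ℝ} (hu₁' : u₁ = q₁ - x) (hu₂' : u₂ = q₂ - x)
    (hu₁ : ‖u₁‖ = 1) (hu₂ : ‖u₂‖ = 1) (had : a ≠ d)
    (hperm : ∀ m, x ∈ closure (E m) → m = a ∨ m = b ∨ m = c ∨ m = d)
    (only₁ : ∀ m, q₁ ∈ closure (E m) → m = a ∨ m = b)
    (only₂ : ∀ m, q₂ ∈ closure (E m) → m = c ∨ m = d)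
    (hva : ‖va‖ = 1) (hvc : ‖vc‖ = 1) (hpa : (conj va * u₂).re = 0) (hpc : (conj vc * u₁).re = 0)
    (hδa : 0 < δa) (hδc : 0 < δc) (sa : Sec x va δa ⊆ E a) (sb : Sec x (-va) δa ⊆ E b)
    (sc : Sec x vc δc ⊆ E c) (sd : Sec x (-vc) δc ⊆ E d)
    {c₁ c₂ : ℝ} (hc₁ : c₁ = (conj va * u₁).re) (hc₂' : c₂ = (conj vc * u₂).re)
    (hc10 : c₁ ≠ 0) (hc20 : c₂ ≠ 0) (hind : (conj u₁ * u₂).im ≠ 0) (hη : 0 < η)
    (hno : ∀ C, IsPreconnected C → C ⊆ closure (E a) ∩ closure (E d) ∩ closedBall x η →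
      ¬ C.Nontrivial) : False := by
  obtain ⟨ρx, hρx, hloc⟩ := local_colours E x
  obtain ⟨η₁, hη₁, band₁⟩ := band E hE hB hR hcl hδa sa sb hva (hu₁' ▸ hu₁) only₁
  obtain ⟨η₂, hη₂, band₂⟩ := band E hE hB hR hcl hδc sc sd hvc (hu₂' ▸ hu₂) only₂
  rw [← hu₁', ← hc₁] at band₁
  rw [← hu₂', ← hc₂'] at band₂
  set δ₀ := min (min δa δc) 1 with hδ₀
  have hδ₀0 : 0 < δ₀ := lt_min (lt_min hδa hδc) one_pos
  have hδ₀1 : δ₀ ≤ 1 := min_le_right _ _
  have hδ₀a : δ₀ ≤ δa := (min_le_left _ _).trans (min_le_left _ _)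
  have hδ₀c : δ₀ ≤ δc := (min_le_left _ _).trans (min_le_right _ _)
  set κ := δ₀ / 8 with hκ
  have hκ0 : 0 < κ := by positivity
  set r := min (min (min η ρx) (min η₁ η₂)) (min δ₀ (min (κ * |c₁|) (κ * |c₂|))) with hr'
  have hr : 0 < r := lt_min (lt_min (lt_min hη hρx) (lt_min hη₁ hη₂))
    (lt_min hδ₀0 (lt_min (by positivity) (by positivity)))
  let L : ℂ → ℝ := fun z => (conj u₁ * (z - x)).re / c₁
  let M : ℂ → ℝ := fun z => (conj u₂ * (z - x)).re / -c₂
  set U : Set ℂ := {z | 0 < L z ∧ 0 < M z ∧ L z + M z < r} with hU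
  have hLc : Continuous L := by fun_prop
  have hMc : Continuous M := by fun_prop
  have hUo : IsOpen U := (isOpen_lt continuous_const hLc).inter
    ((isOpen_lt continuous_const hMc).inter (isOpen_lt (hLc.add hMc) continuous_const))
  have aff : ∀ z w : ℂ, ∀ s t : ℝ, s + t = 1 → ∀ u : ℂ,
      (conj u * (s • z + t • w - x)).re = s * (conj u * (z - x)).re + t * (conj u * (w - x)).re := by
    intro z w s t hst u
    simp only [Complex.mul_re, Complex.conj_re, Complex.conj_im, Complex.sub_re, Complex.sub_im,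
      Complex.add_re, Complex.add_im, Complex.real_smul, Complex.ofReal_re, Complex.ofReal_im,
      Complex.mul_im]
    linear_combination (u.re * x.re + u.im * x.im) * hst
  have hUc : Convex ℝ U := by
    intro z hz w hw s t hs ht hst
    obtain ⟨z1, z2, z3⟩ := hz
    obtain ⟨w1, w2, w3⟩ := hw
    have eL : L (s • z + t • w) = s * L z + t * L w := by simp only [L, aff z w s t hst]; ring
    have eM : M (s • z + t • w) = s * M z + t * M w := by simp only [M, aff z w s t hst]; ring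
    have hpos : ∀ A B : ℝ, 0 < A → 0 < B → 0 < s * A + t * B := fun A B hA hB' => by
      rcases hs.eq_or_lt with rfl | hs'
      · obtain rfl : t = 1 := by linarith
        linarith
      · nlinarith [mul_pos hs' hA, mul_nonneg ht hB'.le]
    refine ⟨eL ▸ hpos _ _ z1 w1, eM ▸ hpos _ _ z2 w2, ?_⟩
    have := hpos _ _ (sub_pos.2 z3) (sub_pos.2 w3)
    rw [eL, eM]
    nlinarith
  have hsplit : ∀ z, z - x = (L z : ℂ) * va + (M z : ℂ) * -vc := by
    intro z
    refine sub_eq_zero.1 (eq_zero_of_re hind ?_ ?_)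
    · have e1 : (conj u₁ * va).re = c₁ := by rw [hc₁]; simp; ring
      have e2 : (conj u₁ * -vc).re = 0 := by
        have : (conj u₁ * vc).re = (conj vc * u₁).re := by simp; ring
        rw [mul_neg, Complex.neg_re, this, hpc, neg_zero]
      rw [mul_sub, mul_add, mul_left_comm (conj u₁) (L z : ℂ), mul_left_comm (conj u₁) (M z : ℂ),
        Complex.sub_re, Complex.add_re, Complex.re_ofReal_mul, Complex.re_ofReal_mul, e1, e2,
        show L z = (conj u₁ * (z - x)).re / c₁ from rfl]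
      field_simp
      ring
    · have e1 : (conj u₂ * va).re = 0 := by
        have : (conj u₂ * va).re = (conj va * u₂).re := by simp; ring
        rw [this, hpa]
      have e2 : (conj u₂ * -vc).re = -c₂ := by rw [hc₂']; simp; ring
      rw [mul_sub, mul_add, mul_left_comm (conj u₂) (L z : ℂ), mul_left_comm (conj u₂) (M z : ℂ),
        Complex.sub_re, Complex.add_re, Complex.re_ofReal_mul, Complex.re_ofReal_mul, e1, e2,
        show M z = (conj u₂ * (z - x)).re / -c₂ from rfl]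
      field_simp
      ring
  have hnorm : ∀ z ∈ U, ‖z - x‖ ≤ L z + M z := by
    intro z hz
    rw [hsplit z]
    refine (norm_add_le _ _).trans ?_
    simp [hva, hvc, abs_of_pos hz.1, abs_of_pos hz.2.1]
  have hUb : ∀ z ∈ U, dist z x < r := fun z hz => by
    rw [dist_eq_norm]; exact (hnorm z hz).trans_lt hz.2.2
  have hr1 : r ≤ η ∧ r ≤ ρx ∧ r ≤ η₁ ∧ r ≤ η₂ ∧ r ≤ δ₀ ∧ r ≤ κ * |c₁| ∧ r ≤ κ * |c₂| := by
    simp only [hr', min_le_iff, le_refl, true_or, or_true, and_self]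
  obtain ⟨rη, rρ, rη₁, rη₂, rδ, rκ₁, rκ₂⟩ := hr1
  have sec_of : ∀ (v w : ℂ) (A B : ℝ) (z : ℂ), ‖v‖ = 1 → ‖w‖ = 1 →
      z - x = (A : ℂ) * v + (B : ℂ) * w →
      0 < B → B < κ * (A + B) → dist z x < r → z ∈ Sec x v δ₀ :=
    fun v w A B z hv hw hz hB0 hsm hd' => in_sec hv hw hz hB0 hδ₀0 hδ₀1 hsm (hd'.trans_le rδ)
  have cover : U ⊆ closure (E a) ∪ closure (E d) := by
    intro z hz
    obtain ⟨m, hm⟩ := hcl z
    have hzr := hUb z hz
    rcases hperm m (hloc z (mem_ball.2 (hzr.trans_le rρ)) m hm) with h | h | h | h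
    · exact Or.inl (h ▸ hm)
    · -- not `b`
      by_cases hs : M z < κ * (L z + M z)
      · exact Or.inl (subset_closure (sa (sec_mono hδ₀a
          (sec_of va (-vc) (L z) (M z) z hva (by simpa using hvc) (hsplit z) hz.2.1 hs hzr))))
      by_cases hs' : L z < κ * (L z + M z)
      · exact Or.inr (subset_closure (sd (sec_mono hδ₀c
          (sec_of (-vc) va (M z) (L z) z (by simpa using hvc) hva (by rw [hsplit z]; ring) hz.1
            (by rwa [add_comm]) hzr))))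
      exfalso
      refine (band₁ z (mem_ball.2 (hzr.trans_le rη₁))).2 ?_ (h ▸ hm)
      push Not at hs'
      refine off_line (κ := κ) (r := r) (n := ‖z - x‖) hc10 hz.1 hz.2.1 hz.2.2 rκ₁ hs' (norm_nonneg _) (hnorm z hz)
        dist_nonneg ?_
      rw [dist_sq_shift (hu₁'.symm ▸ hu₁)]
      simp only [L, mul_div_cancel₀ _ hc10, hu₁']
    · -- not `c`
      by_cases hs : M z < κ * (L z + M z)
      · exact Or.inl (subset_closure (sa (sec_mono hδ₀a
          (sec_of va (-vc) (L z) (M z) z hva (by simpa using hvc) (hsplit z) hz.2.1 hs hzr))))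
      by_cases hs' : L z < κ * (L z + M z)
      · exact Or.inr (subset_closure (sd (sec_mono hδ₀c
          (sec_of (-vc) va (M z) (L z) z (by simpa using hvc) hva (by rw [hsplit z]; ring) hz.1
            (by rwa [add_comm]) hzr))))
      exfalso
      refine (band₂ z (mem_ball.2 (hzr.trans_le rη₂))).1 ?_ (h ▸ hm)
      push Not at hs
      have := off_line (κ := κ) (r := r) (n := ‖z - x‖) (D := dist z q₂) (neg_ne_zero.2 hc20) hz.2.1 hz.1
        (by linarith [hz.2.2]) (by rwa [abs_neg]) (by rwa [add_comm]) (norm_nonneg _)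
        (by linarith [hnorm z hz]) dist_nonneg (by
          rw [dist_sq_shift (hu₂'.symm ▸ hu₂)]
          simp only [M, mul_div_cancel₀ _ (neg_ne_zero.2 hc20), hu₂'])
      linarith
    · exact Or.inr (h ▸ hm)
  have whole := mono E hR (x := x) (η := η) (fun C h1 h2 => Set.not_nontrivial_iff.1 (hno C h1 h2))
    hUo hUc.isPreconnected (fun z hz => mem_closedBall.2 ((hUb z hz).le.trans rη)) cover
  have mk : ∀ A B : ℝ, 0 < A → 0 < B → A + B < r →
      ∃ z ∈ U, z - x = (A : ℂ) * va + (B : ℂ) * -vc := by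
    intro A B hA hB' hAB
    refine ⟨x + ((A : ℂ) * va + (B : ℂ) * -vc), ?_, by ring⟩
    have e1 : (conj u₁ * -vc).re = 0 := by
      have : (conj u₁ * vc).re = (conj vc * u₁).re := by simp; ring
      rw [mul_neg, Complex.neg_re, this, hpc, neg_zero]
    have e1' : (conj u₁ * va).re = c₁ := by rw [hc₁]; simp; ring
    have e2 : (conj u₂ * va).re = 0 := by
      have : (conj u₂ * va).re = (conj va * u₂).re := by simp; ring
      rw [this, hpa]
    have e2' : (conj u₂ * -vc).re = -c₂ := by rw [hc₂']; simp; ring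
    have eL : L (x + ((A : ℂ) * va + (B : ℂ) * -vc)) = A := by
      simp only [L, add_sub_cancel_left]
      rw [mul_add, mul_left_comm, mul_left_comm (conj u₁) (B : ℂ), Complex.add_re,
        Complex.re_ofReal_mul, Complex.re_ofReal_mul, e1, e1']
      field_simp
      ring
    have eM : M (x + ((A : ℂ) * va + (B : ℂ) * -vc)) = B := by
      simp only [M, add_sub_cancel_left]
      rw [mul_add, mul_left_comm, mul_left_comm (conj u₂) (B : ℂ), Complex.add_re,
        Complex.re_ofReal_mul, Complex.re_ofReal_mul, e2, e2']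
      field_simp
      ring
    exact ⟨by rw [eL]; exact hA, by rw [eM]; exact hB', by rw [eL, eM]; exact hAB⟩
  obtain ⟨z₁, hz₁, e₁⟩ := mk (r / 4) (κ * r / 8) (by linarith) (by positivity)
    (by nlinarith)
  obtain ⟨z₂, hz₂, e₂⟩ := mk (κ * r / 8) (r / 4) (by positivity) (by linarith)
    (by nlinarith)
  have hsmall : κ * r / 8 < κ * (r / 4 + κ * r / 8) := by
    nlinarith [mul_pos hκ0 hr, mul_pos (mul_pos hκ0 hκ0) hr]
  have hz₁a : z₁ ∈ E a := sa (sec_mono hδ₀a (sec_of va (-vc) (r / 4) (κ * r / 8) z₁ hva (by simpa using hvc) e₁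
    (by positivity) hsmall (hUb z₁ hz₁)))
  have hz₂d : z₂ ∈ E d := sd (sec_mono hδ₀c (sec_of (-vc) va (r / 4) (κ * r / 8) z₂ (by simpa using hvc) hva
    (by rw [e₂]; ring) (by positivity) hsmall (hUb z₂ hz₂)))
  rcases whole with h | h
  · exact (hd a d had).le_bot ⟨h hz₂, hz₂d⟩
  · exact (hd a d had).le_bot ⟨hz₁a, h hz₁⟩

include hE hB hR hcl hd in
/-- With both kinds of arcs the path closes to a cycle. -/
lemma cycle (h4 : Four E x a b c d e) {q₁ q₂ : ℂ} (hq₁ : q₁ ∈ Pure E x c d e)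
    (hq₂ : q₂ ∈ Pure E x a b e) :
    Linked (fun i => closure (E i)) x a d ∧
      ∃ va vc : ℂ, ‖va‖ = 1 ∧ ‖vc‖ = 1 ∧ ∃ δ > 0, (Sec x va δ ⊆ E a ∧ Sec x (-va) δ ⊆ E b) ∧
        (Sec x vc δ ⊆ E c ∧ Sec x (-vc) δ ⊆ E d) := by
  obtain ⟨hab, hac, had, hae, hbc, hbd, hbe, hcd, hce, hde⟩ := h4.hne
  obtain ⟨⟨ρ₁, hρ₁, ha₁, hb₁⟩, only₁⟩ := pure_ab E hE hB hR hcl h4 hq₁
  obtain ⟨⟨ρ₂, hρ₂, hc₂, hd₂⟩, only₂⟩ := pure_cd E hE hB hR hcl h4 hq₂
  set u₁ := q₁ - x with hu₁'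
  set u₂ := q₂ - x with hu₂'
  have hu₁ : ‖u₁‖ = 1 := by rw [hu₁', ← dist_eq_norm]; exact mem_sphere.1 hq₁.1
  have hu₂ : ‖u₂‖ = 1 := by rw [hu₂', ← dist_eq_norm]; exact mem_sphere.1 hq₂.1
  have hperm : ∀ m, x ∈ closure (E m) → m = a ∨ m = b ∨ m = c ∨ m = d := fun m hm => by
    rcases h4.hall m with h | h | h | h | h
    exacts [Or.inl h, Or.inr (Or.inl h), Or.inr (Or.inr (Or.inl h)), Or.inr (Or.inr (Or.inr h)),
      absurd (h ▸ hm) h4.he]
  obtain ⟨vc, hvc, hpc, δc, hδc, sc, sd⟩ := two_sectors E hE hB hR hcl hd h4 hperm hcd h4.hc h4.hd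
    h4.cd hu₁ hρ₁ (by rw [hu₁', add_sub_cancel]; exact ha₁) (by rw [hu₁', add_sub_cancel]; exact hb₁)
  obtain ⟨va, hva, hpa, δa, hδa, sa, sb⟩ := two_sectors E hE hB hR hcl hd h4
    (i := c) (j := d) (fun m hm => by have := hperm m hm; tauto) hab h4.ha h4.hb h4.ab
    hu₂ hρ₂ (by rw [hu₂', add_sub_cancel]; exact hc₂) (by rw [hu₂', add_sub_cancel]; exact hd₂)
  refine ⟨?_, va, vc, hva, hvc, min δa δc, lt_min hδa hδc,
    ⟨(sec_mono (min_le_left _ _)).trans sa, (sec_mono (min_le_left _ _)).trans sb⟩,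
    (sec_mono (min_le_right _ _)).trans sc, (sec_mono (min_le_right _ _)).trans sd⟩
  by_contra hunl
  simp only [Linked, not_forall, not_exists, not_and] at hunl
  obtain ⟨η, hη, hno⟩ := hunl
  set c₁ := (conj va * u₁).re with hc₁
  set c₂ := (conj vc * u₂).re with hc₂'
  have q1a : q₁ ∈ closure (E a) := ha₁ ⟨hq₁.1, mem_ball_self hρ₁⟩
  have q2c : q₂ ∈ closure (E c) := hc₂ ⟨hq₂.1, mem_ball_self hρ₂⟩
  have hc10 : c₁ ≠ 0 := fun h => perp_avoid E hE hB hδa sa hva hu₁ h q1a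
  have hc20 : c₂ ≠ 0 := fun h => perp_avoid E hE hB hδc sc hvc hu₂ h q2c
  have hind : (conj u₁ * u₂).im ≠ 0 := by
    intro h
    refine hc10 ?_
    have e : u₁ * (conj u₁ * u₂) = u₂ := by
      rw [← mul_assoc, Complex.mul_conj, Complex.normSq_eq_norm_sq, hu₁]; simp
    have hr : (conj u₁ * u₂) = (((conj u₁ * u₂).re : ℝ) : ℂ) := Complex.ext (by simp) (by simp [h])
    rw [hr, mul_comm] at e
    set r := (conj u₁ * u₂).re
    have hr0 : r ≠ 0 := fun h0 => by rw [h0] at e; simp [← e] at hu₂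
    rw [← e] at hpa
    rw [mul_left_comm, Complex.re_ofReal_mul] at hpa
    exact (mul_eq_zero.1 hpa).resolve_left hr0
  exact wedge E hE hB hR hcl hd hu₁' hu₂' hu₁ hu₂ had hperm only₁ only₂ hva hvc hpa hpc hδa hδc
    sa sb sc sd hc₁ hc₂' hc10 hc20 hind hη hno

end Vale.Agent.P032
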