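import Mathlib.Algebra.BigOperators.Group.Finset.Basic
import Mathlib.Algebra.BigOperators.Fin
import Mathlib.Algebra.BigOperators.Intervals
import Mathlib.Algebra.CharP.Two
import Mathlib.Data.Fintype.Pi
import Mathlib.Data.ZMod.Basic
import Mathlib.Tactic

/-!
Sperner's lemma on the triangular grid modulo two, and sets of triangles closed under crossing
the edges with two given labels.
-/

namespace Vale.Agent.P032

/-- A point of the grid. -/
abbrev GP : Type := ℤ × ℤ

/-- A triangle of the grid: the corner square and whether it is the lower one. -/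
abbrev Tri : Type := GP × Bool

/-- The two ends of the side `k` of a triangle. -/
def ends : Tri × Fin 3 → GP × GP
  | (((i, j), true), 0) => ((i, j), (i + 1, j))
  | (((i, j), true), 1) => ((i + 1, j), (i, j + 1))
  | (((i, j), true), 2) => ((i, j), (i, j + 1))
  | (((i, j), false), 0) => ((i, j + 1), (i + 1, j + 1))
  | (((i, j), false), 1) => ((i + 1, j), (i, j + 1))
  | (((i, j), false), 2) => ((i + 1, j), (i + 1, j + 1))

/-- The triangle on the other side of a side. -/
def flipSide : Tri × Fin 3 → Tri × Fin 3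
  | (((i, j), true), 0) => (((i, j - 1), false), 0)
  | (((i, j), true), 1) => (((i, j), false), 1)
  | (((i, j), true), 2) => (((i - 1, j), false), 2)
  | (((i, j), false), 0) => (((i, j + 1), true), 0)
  | (((i, j), false), 1) => (((i, j), true), 1)
  | (((i, j), false), 2) => (((i + 1, j), true), 2)

lemma ends_flip (x : Tri × Fin 3) : ends (flipSide x) = ends x := by
  obtain ⟨⟨⟨i, j⟩, b⟩, k⟩ := x
  cases b <;> fin_cases k <;> simp [ends, flipSide]

lemma flip_flip (x : Tri × Fin 3) : flipSide (flipSide x) = x := by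
  obtain ⟨⟨⟨i, j⟩, b⟩, k⟩ := x
  cases b <;> fin_cases k <;> simp [flipSide]

lemma flip_ne (x : Tri × Fin 3) : flipSide x ≠ x := by
  obtain ⟨⟨⟨i, j⟩, b⟩, k⟩ := x
  cases b <;> fin_cases k <;> simp [flipSide]

/-- The three corners of a triangle. -/
def corner : Tri → Fin 3 → GP
  | ((i, j), true), 0 => (i, j)
  | ((i, j), true), 1 => (i + 1, j)
  | ((i, j), true), 2 => (i, j + 1)
  | ((i, j), false), 0 => (i + 1, j)
  | ((i, j), false), 1 => (i, j + 1)
  | ((i, j), false), 2 => (i + 1, j + 1)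

/-- Whether the labels of the ends of a side are `p` and `q`. -/
def ind (l : GP → Fin 3) (p q : Fin 3) (x : Tri × Fin 3) : ZMod 2 :=
  if (l (ends x).1 = p ∧ l (ends x).2 = q) ∨ (l (ends x).1 = q ∧ l (ends x).2 = p) then 1 else 0

/-- Whether the three corners of a triangle carry different labels. -/
def rain (l : GP → Fin 3) (t : Tri) : ZMod 2 :=
  if l (corner t 0) ≠ l (corner t 1) ∧ l (corner t 1) ≠ l (corner t 2) ∧
    l (corner t 0) ≠ l (corner t 2) then 1 else 0

lemma ind_tri : ∀ p q : Fin 3, p ≠ q → ∀ x y z : Fin 3,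
    ((if (x = p ∧ y = q) ∨ (x = q ∧ y = p) then 1 else 0) +
      (if (y = p ∧ z = q) ∨ (y = q ∧ z = p) then 1 else 0) +
      (if (x = p ∧ z = q) ∨ (x = q ∧ z = p) then 1 else 0) : ZMod 2) =
      if x ≠ y ∧ y ≠ z ∧ x ≠ z then 1 else 0 := by decide

lemma sum_ind (l : GP → Fin 3) {p q : Fin 3} (h : p ≠ q) (t : Tri) :
    ∑ k, ind l p q (t, k) = rain l t := by
  obtain ⟨⟨i, j⟩, b⟩ := t
  rw [Fin.sum_univ_three]
  cases b
  · rw [← show _ = rain l ((i, j), false) from ind_tri p q h (l (i + 1, j)) (l (i, j + 1))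
      (l (i + 1, j + 1))]
    simp only [ind, ends]
    abel
  · rw [← show _ = rain l ((i, j), true) from ind_tri p q h (l (i, j)) (l (i + 1, j))
      (l (i, j + 1))]
    simp only [ind, ends]
    rfl

/-- A set of triangles closed under crossing the sides labelled `p`, `q` has an even number of
triangles with three labels. -/
lemma closed_even (l : GP → Fin 3) {p q : Fin 3} (h : p ≠ q) (R : Finset Tri)
    (hR : ∀ t ∈ R, ∀ k, ind l p q (t, k) ≠ 0 → (flipSide (t, k)).1 ∈ R) :
    ∑ t ∈ R, rain l t = 0 := by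
  classical
  calc ∑ t ∈ R, rain l t = ∑ t ∈ R, ∑ k, ind l p q (t, k) :=
        Finset.sum_congr rfl fun t _ => (sum_ind l h t).symm
    _ = ∑ x ∈ R ×ˢ Finset.univ, ind l p q x := by rw [Finset.sum_product]
    _ = ∑ x ∈ (R ×ˢ Finset.univ).filter (fun x => ind l p q x ≠ 0), ind l p q x :=
        (Finset.sum_filter_ne_zero _).symm
    _ = 0 := by
      refine Finset.sum_involution (fun x _ => flipSide x) ?_ (fun x _ _ => flip_ne x) ?_
        (fun x _ => flip_flip x)
      · intro x _
        simp only [ind, ends_flip]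
        exact CharTwo.add_self_eq_zero _
      · intro x hx
        rw [Finset.mem_filter, Finset.mem_product] at hx ⊢
        refine ⟨⟨hR x.1 hx.1.1 x.2 hx.2, Finset.mem_univ _⟩, ?_⟩
        simpa only [ind, ends_flip] using hx.2

/-- The triangles inside the big triangle. -/
def InTri (n : ℕ) (t : Tri) : Prop :=
  0 ≤ t.1.1 ∧ 0 ≤ t.1.2 ∧ t.1.1 + t.1.2 + (if t.2 then 1 else 2) ≤ n

/-- The finite set of these triangles. -/
noncomputable def inside (n : ℕ) : Finset Tri :=
  ((Finset.Icc (0 : ℤ) n ×ˢ Finset.Icc (0 : ℤ) n) ×ˢ (Finset.univ : Finset Bool)).filter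
    fun t => t.1.1 + t.1.2 + (if t.2 then 1 else 2) ≤ n

lemma mem_inside {n : ℕ} {t : Tri} : t ∈ inside n ↔ InTri n t := by
  obtain ⟨⟨i, j⟩, b⟩ := t
  simp only [inside, InTri, Finset.mem_filter, Finset.mem_product, Finset.mem_Icc, Finset.mem_univ,
    and_true]
  cases b <;> simp <;> omega

lemma bottom_sum : ∀ a b : Fin 3, a ≠ 2 → b ≠ 2 →
    ((if (a = 0 ∧ b = 1) ∨ (a = 1 ∧ b = 0) then 1 else 0) : ZMod 2) =
      (if b = 1 then 1 else 0) - (if a = 1 then 1 else 0) := by decide

lemma no_pair : ∀ a b : Fin 3, (a ≠ 1 ∧ b ≠ 1) ∨ (a ≠ 0 ∧ b ≠ 0) →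
    ¬((a = 0 ∧ b = 1) ∨ (a = 1 ∧ b = 0)) := by decide

/-- Sperner's lemma modulo two. -/
theorem total_odd (n : ℕ) (l : GP → Fin 3) (h00 : l (0, 0) = 0) (hn0 : l (n, 0) = 1)
    (hbot : ∀ i : ℤ, 0 ≤ i → i ≤ n → l (i, 0) ≠ 2)
    (hleft : ∀ j : ℤ, 0 ≤ j → j ≤ n → l (0, j) ≠ 1)
    (hdiag : ∀ i j : ℤ, 0 ≤ i → 0 ≤ j → i + j = n → l (i, j) ≠ 0) :
    ∑ t ∈ inside n, rain l t = 1 := by
  classical
  rw [← Finset.sum_congr rfl fun t _ => sum_ind l (show (0 : Fin 3) ≠ 1 by decide) t,
    ← Finset.sum_product' (inside n) Finset.univ fun t k => ind l 0 1 (t, k),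
    ← Finset.sum_filter_add_sum_filter_not (inside n ×ˢ Finset.univ)
      (fun x => InTri n (flipSide x).1)]
  have h1 : ∑ x ∈ (inside n ×ˢ Finset.univ).filter (fun x => InTri n (flipSide x).1),
      ind l 0 1 x = 0 := by
    refine Finset.sum_involution (fun x _ => flipSide x) ?_ (fun x _ _ => flip_ne x) ?_
      (fun x _ => flip_flip x)
    · intro x _
      simp only [ind, ends_flip]
      exact CharTwo.add_self_eq_zero _
    · intro x hx
      rw [Finset.mem_filter, Finset.mem_product] at hx ⊢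
      refine ⟨⟨mem_inside.2 hx.2, Finset.mem_univ _⟩, ?_⟩
      rw [flip_flip]
      exact mem_inside.1 hx.1.1
  have h2 : ∑ x ∈ (inside n ×ˢ Finset.univ).filter (fun x => ¬ InTri n (flipSide x).1),
      ind l 0 1 x = ∑ i ∈ Finset.range n, ind l 0 1 ((((i : ℤ), 0), true), 0) := by
    have himg := Finset.sum_image (f := ind l 0 1)
      (g := fun i : ℕ => ((((i : ℤ), (0 : ℤ)), true), (0 : Fin 3))) (s := Finset.range n)
      (fun i _ j _ hij => by simpa using hij)
    rw [← himg]
    symm
    refine Finset.sum_subset ?_ ?_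
    · intro x hx
      obtain ⟨i, hi, rfl⟩ := Finset.mem_image.1 hx
      rw [Finset.mem_range] at hi
      refine Finset.mem_filter.2 ⟨Finset.mem_product.2 ⟨mem_inside.2 ?_, Finset.mem_univ _⟩, ?_⟩
      · show 0 ≤ (i : ℤ) ∧ (0 : ℤ) ≤ 0 ∧ (i : ℤ) + 0 + 1 ≤ n
        omega
      · rintro ⟨-, h, -⟩
        simp [flipSide] at h
    · intro x hx hnot
      obtain ⟨⟨⟨i, j⟩, b⟩, k⟩ := x
      obtain ⟨hx1, hx2⟩ := Finset.mem_filter.1 hx
      obtain ⟨hi, hj, hij⟩ : 0 ≤ i ∧ 0 ≤ j ∧ i + j + (if b then 1 else 2) ≤ (n : ℤ) :=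
        mem_inside.1 (Finset.mem_product.1 hx1).1
      cases b
      · simp only [Bool.false_eq_true, if_false] at hij
        fin_cases k <;> simp [InTri, flipSide] at hx2 <;> omega
      · simp only [if_true] at hij
        fin_cases k
        · exfalso
          simp [InTri, flipSide] at hx2
          obtain rfl : j = 0 := by omega
          refine hnot (Finset.mem_image.2 ⟨i.toNat, Finset.mem_range.2 (by omega), ?_⟩)
          simp [Int.toNat_of_nonneg hi]
        · simp [InTri, flipSide] at hx2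
          refine if_neg (no_pair _ _ (Or.inr ⟨?_, ?_⟩))
          · exact hdiag _ _ (by omega) (by omega) (by omega)
          · exact hdiag _ _ (by omega) (by omega) (by omega)
        · simp [InTri, flipSide] at hx2
          obtain rfl : i = 0 := by omega
          refine if_neg (no_pair _ _ (Or.inl ⟨?_, ?_⟩))
          · exact hleft _ (by omega) (by omega)
          · exact hleft _ (by omega) (by omega)
  rw [h1, h2, zero_add]
  have h3 : ∀ i ∈ Finset.range n, ind l 0 1 ((((i : ℤ), 0), true), 0) =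
      (fun i : ℕ => if l ((i : ℤ), 0) = 1 then (1 : ZMod 2) else 0) (i + 1) -
        (fun i : ℕ => if l ((i : ℤ), 0) = 1 then (1 : ZMod 2) else 0) i := by
    intro i hi
    rw [Finset.mem_range] at hi
    simp only [ind, ends, Nat.cast_add, Nat.cast_one]
    exact bottom_sum _ _ (hbot _ (by omega) (by omega)) (hbot _ (by omega) (by omega))
  rw [Finset.sum_congr rfl h3,
    Finset.sum_range_sub (fun i : ℕ => if l ((i : ℤ), 0) = 1 then (1 : ZMod 2) else 0) n]
  simp [h00, hn0]

end Vale.Agent.P032
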