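import Vale.Agent.P032.Key

/-!
A point whose unit circle is covered by two of the closures, at which the other colours are linked.
-/

namespace Vale.Agent.P032

open Metric Set Complex ComplexConjugate

lemma om_sq : om * om = om - 1 := by
  have h3 : Real.sqrt 3 * Real.sqrt 3 = 3 := Real.mul_self_sqrt (by norm_num)
  apply Complex.ext <;> simp [om] <;> nlinarith

lemma om_cube : om ^ 3 = -1 := by
  linear_combination (om + 1) * om_sq

lemma om_pow_ne {u : ℂ} (hu : u ≠ 0) (i j : Fin 4) (hij : i < j) :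
    om ^ (i : ℕ) * u ≠ om ^ (j : ℕ) * u := by
  intro h
  have h0 : om ≠ 0 := fun e => by simpa [e] using norm_om
  have h1 : om ^ ((j : ℕ) - i) = 1 := by
    have := mul_right_cancel₀ hu h
    rw [show (j : ℕ) = i + (j - i) by omega, pow_add] at this
    exact mul_left_cancel₀ (pow_ne_zero _ h0) (this.symm.trans (mul_one _).symm)
  have hm : (j : ℕ) - i = 1 ∨ (j : ℕ) - i = 2 ∨ (j : ℕ) - i = 3 := by
    have := j.isLt
    have := Fin.lt_def.1 hij
    omega
  have him := congrArg Complex.im h1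
  rcases hm with e | e | e <;> rw [e] at him h1
  · simp [om] at him
  · rw [sq, om_sq] at him; simp [om] at him
  · rw [om_cube] at h1; norm_num at h1

variable (E : Fin 5 → Set ℂ) (hE : ∀ i, IsOpen (E i))
  (hB : ∀ i, ∀ y ∈ E i, ∀ z ∈ E i, dist y z ≠ 1)
  (hR : ∀ i, interior (closure (E i)) = E i)
  (hcl : ∀ x, ∃ i, x ∈ closure (E i))
  (hd : ∀ i j, i ≠ j → Disjoint (E i) (E j))

include hE hB hR hcl in
/-- Arcs at two opposite points carrying all colours at the centre but one make that one absent. -/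
lemma union_absent {x u : ℂ} (hu : ‖u‖ = 1) {ε : ℝ} (hε : 0 < ε) {g : Fin 5}
    (h : ∀ i, x ∈ closure (E i) → i ≠ g → sphere x 1 ∩ ball (x + u) ε ⊆ closure (E i) ∨
      sphere x 1 ∩ ball (x + -u) ε ⊆ closure (E i)) :
    x ∈ closure (E g) ∧ ∀ p ∈ sphere x 1, p ∉ closure (E g) := by
  classical
  have key : ∀ i, ∃ δ > 0, x ∈ closure (E i) → i ≠ g →
      ∀ v, (v = I * u ∨ v = -(I * u)) → ∀ z ∈ Sec x v δ, z ∉ closure (E i) := by
    intro i
    by_cases hi : x ∈ closure (E i) ∧ i ≠ g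
    · rcases h i hi.1 hi.2 with ha | ha
      · obtain ⟨δ, hδ, hs⟩ := sec_avoid E hE hB hu hε ha
        exact ⟨δ, hδ, fun _ _ => hs⟩
      · obtain ⟨δ, hδ, hs⟩ := sec_avoid E hE hB (by simpa using hu) hε ha
        refine ⟨δ, hδ, fun _ _ v hv => hs v ?_⟩
        rcases hv with rfl | rfl
        · right; ring
        · left; ring
    · exact ⟨1, one_pos, fun a b => (hi ⟨a, b⟩).elim⟩
  choose δ hδ hsec using key
  obtain ⟨m, -, hm⟩ := Finset.univ.exists_min_image δ Finset.univ_nonempty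
  obtain ⟨ρ, hρ, hloc⟩ := local_colours E x
  set δ' := min (δ m) ρ with hδ'
  have hδ'0 : 0 < δ' := lt_min (hδ m) hρ
  have hsub : ∀ v, (v = I * u ∨ v = -(I * u)) → ∀ z ∈ Sec x v δ', z ∈ closure (E g) := by
    intro v hv z hz
    obtain ⟨i, hi⟩ := hcl z
    by_contra hzg
    have hxi : x ∈ closure (E i) :=
      hloc z (mem_ball.2 (hz.1.trans_le (min_le_right _ _))) i hi
    exact hsec i hxi (fun e => hzg (e ▸ hi)) v hv z
      (sec_mono ((min_le_left _ _).trans (hm i (Finset.mem_univ _))) hz) hi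
  have hsubE : ∀ v, (v = I * u ∨ v = -(I * u)) → Sec x v δ' ⊆ E g := fun v hv =>
    hR g ▸ interior_maximal (hsub v hv) (isOpen_sec _ _ _)
  refine ⟨?_, fun p hp => absent E hE hB hδ'0 (hsubE _ (Or.inl rfl)) (hsubE _ (Or.inr rfl))
    (by simp [hu]) (by rw [← dist_eq_norm]; exact mem_sphere.1 hp)⟩
  obtain ⟨z, hz⟩ := sec_nonempty x (show ‖I * u‖ = 1 by simp [hu]) hδ'0
  exact hloc z (mem_ball.2 (hz.1.trans_le (min_le_right _ _))) g (hsub _ (Or.inl rfl) z hz)

include hE hB hR hcl in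
/-- An arc with exactly one colour has it absent at the centre. -/
lemma label_two {x q : ℂ} (hq : q ∈ sphere x 1) {i : Fin 5} (hi : x ∈ closure (E i))
    (h : ∀ j, q ∈ closure (E j) → j = i) : False :=
  not_closure E hE hB (single E hR hcl h) (mem_sphere.1 hq) hi

include hE hB hR hcl in
/-- Linked pairs and absent colours force the circle into two closures. -/
lemma cover_two {x : ℂ} {r s : Fin 5}
    (hx : ∀ i, i ≠ r → i ≠ s → x ∈ closure (E i) ∨ ∀ p ∈ sphere x 1, p ∉ closure (E i))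
    (hlink : ∀ i j, i ≠ j → i ≠ r → i ≠ s → j ≠ r → j ≠ s → x ∈ closure (E i) →
      x ∈ closure (E j) → (∃ p ∈ sphere x 1, p ∈ closure (E i)) →
      (∃ p ∈ sphere x 1, p ∈ closure (E j)) → Linked (fun i => closure (E i)) x i j)
    (hthree : ∀ q ∈ sphere x 1, ∀ ε > 0, ∀ i j k, i ≠ j → i ≠ k → j ≠ k →
      i ≠ r → i ≠ s → j ≠ r → j ≠ s → k ≠ r → k ≠ s →
      (∀ m, (m = i ∨ m = j ∨ m = k) → sphere x 1 ∩ ball q ε ⊆ closure (E m)) → False) :
    sphere x 1 ⊆ closure (E r) ∪ closure (E s) := by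
  intro p hp
  by_contra hpn
  rw [mem_union, not_or] at hpn
  obtain ⟨ε, hε, hloc⟩ := local_colours E p
  obtain ⟨q, hq, ε', hε', -, hgen⟩ := generic E hp hε
  have hne : ∀ i, q ∈ closure (E i) → i ≠ r ∧ i ≠ s ∧ x ∈ closure (E i) := fun i hi => by
    have h1 : i ≠ r := fun e => hpn.1 (e ▸ hloc q hq.2 i hi)
    have h2 : i ≠ s := fun e => hpn.2 (e ▸ hloc q hq.2 i hi)
    exact ⟨h1, h2, (hx i h1 h2).resolve_right fun h => h q hq.1 hi⟩
  obtain ⟨εq, hεq, hlocq⟩ := local_colours E q
  obtain ⟨i, hi⟩ := hcl q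
  by_cases hj : ∃ j, j ≠ i ∧ q ∈ closure (E j)
  · obtain ⟨j, hji, hj⟩ := hj
    obtain ⟨i1, i2, i3⟩ := hne i hi
    obtain ⟨j1, j2, j3⟩ := hne j hj
    by_cases hk : ∃ k, k ≠ i ∧ k ≠ j ∧ q ∈ closure (E k)
    · obtain ⟨k, hki, hkj, hk⟩ := hk
      obtain ⟨k1, k2, -⟩ := hne k hk
      refine hthree q hq.1 ε' hε' i j k hji.symm hki.symm hkj.symm i1 i2 j1 j2 k1 k2 ?_
      rintro m (rfl | rfl | rfl) z hz
      exacts [(hgen z hz _).2 hi, (hgen z hz _).2 hj, (hgen z hz _).2 hk]
    · refine no_pair_arc E hE hB hcl (mem_sphere.1 hq.1) hεq (i := i) (j := j)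
        (fun z hz k hzk => ?_)
        (hlink i j hji.symm i1 i2 j1 j2 i3 j3 ⟨q, hq.1, hi⟩ ⟨q, hq.1, hj⟩)
      by_contra hh
      push Not at hh
      exact hk ⟨k, hh.1, hh.2, hlocq z hz k hzk⟩
  · exact label_two E hE hB hR hcl hq.1 (hne i hi).2.2 fun j hj' =>
      by_contra fun h => hj ⟨j, h, hj'⟩

include hE hB in
/-- The six corners of a hexagon on a circle covered by two closures lie in both. -/
lemma rot_orbit {v : ℂ} {d e : Fin 5} (hcov : sphere v 1 ⊆ closure (E d) ∪ closure (E e)) :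
    ∃ u : ℂ, ‖u‖ = 1 ∧
      ∀ k : ℕ, v + om ^ k * u ∈ closure (E d) ∧ v + om ^ k * u ∈ closure (E e) := by
  set O : Fin 5 → Set ℂ := fun i => sphere v 1 \ closure (E i) with hO
  have hcomm : sphere v 1 ⊆ closure (E e) ∪ closure (E d) := by rwa [union_comm]
  have flip : ∀ d' e', sphere v 1 ⊆ closure (E d') ∪ closure (E e') →
      MapsTo (fun p => v + om * (p - v)) (O e') (O d') := by
    intro d' e' hc p hp
    obtain ⟨hr, hr1, hr2⟩ := rot_facts v p hp.1
    obtain ⟨ε, hε, hsub⟩ := Metric.isOpen_iff.1 isClosed_closure.isOpen_compl p hp.2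
    exact ⟨hr, arc_sweep E hE hB hp.1 hε
      (fun z hz => (hc hz.1).resolve_right (hsub hz.2)) hr1 hr2⟩
  have hOcov : sphere v 1 ⊆ closure (O d) ∪ closure (O e) := by
    intro p hp
    by_contra hpn
    rw [mem_union, not_or] at hpn
    obtain ⟨ε, hε, hsub⟩ := Metric.isOpen_iff.1
      (isClosed_closure.union isClosed_closure).isOpen_compl p
      (show p ∈ (closure (O d) ∪ closure (O e))ᶜ by simp [hpn])
    have both : ∀ i, i = d ∨ i = e → sphere v 1 ∩ ball p ε ⊆ closure (E i) := by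
      intro i hi z hz
      by_contra hzi
      have hz' := hsub hz.2
      rw [mem_compl_iff, mem_union, not_or] at hz'
      rcases hi with rfl | rfl
      · exact hz'.1 (subset_closure ⟨hz.1, hzi⟩)
      · exact hz'.2 (subset_closure ⟨hz.1, hzi⟩)
    obtain ⟨hr, hr1, hr2⟩ := rot_facts v p hp
    rcases hcov hr with h | h
    · exact arc_sweep E hE hB hp hε (both d (Or.inl rfl)) hr1 hr2 h
    · exact arc_sweep E hE hB hp hε (both e (Or.inr rfl)) hr1 hr2 h
  have hne : ∀ i, (sphere v 1 ∩ closure (O i)).Nonempty := by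
    intro i
    by_contra hn
    refine not_one E hE hB (x := v) (e := i) fun p hp => by_contra fun hpi => ?_
    exact hn ⟨p, hp, subset_closure ⟨hp, hpi⟩⟩
  have hpre : IsPreconnected (sphere v (1 : ℝ)) :=
    isPreconnected_sphere (by rw [Complex.rank_real_complex]; norm_num) v 1
  obtain ⟨w, hw, hwd, hwe⟩ := isPreconnected_closed_iff.1 hpre _ _ isClosed_closure
    isClosed_closure hOcov (hne d) (hne e)
  have hrc : Continuous fun p => v + om * (p - v) := by fun_prop
  have hsubE : ∀ i j, sphere v 1 ⊆ closure (E i) ∪ closure (E j) →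
      closure (O j) ⊆ closure (E i) := fun i j hc =>
    closure_minimal (fun p hp => (hc hp.1).resolve_right hp.2) isClosed_closure
  have inv : ∀ k : ℕ, v + om ^ k * (w - v) ∈ closure (O d) ∩ closure (O e) := by
    intro k
    induction k with
    | zero => simpa using And.intro hwd hwe
    | succ k ih =>
      rw [show v + om ^ (k + 1) * (w - v) = v + om * (v + om ^ k * (w - v) - v) by ring]
      exact ⟨map_mem_closure (f := fun p => v + om * (p - v)) hrc ih.2 (flip d e hcov),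
        map_mem_closure (f := fun p => v + om * (p - v)) hrc ih.1 (flip e d hcomm)⟩
  exact ⟨w - v, by rw [← dist_eq_norm]; exact mem_sphere.1 hw,
    fun k => ⟨hsubE d e hcov (inv k).2, hsubE e d hcomm (inv k).1⟩⟩

include hE hB hR hcl in
/-- A point with its circle in two closures has two of the other colours unlinked. -/
theorem pipe {x : ℂ} {r s a b c : Fin 5} (hall : ∀ i, i = r ∨ i = s ∨ i = a ∨ i = b ∨ i = c)
    (hfive : ∀ w, (∀ i, w ∈ closure (E i)) → ∃ g, ∀ p ∈ sphere w 1, p ∉ closure (E g))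
    (hcov : sphere x 1 ⊆ closure (E r) ∪ closure (E s))
    (hxa : x ∈ closure (E a)) (hxb : x ∈ closure (E b))
    (hab : Linked (fun i => closure (E i)) x a b)
    (hc : (x ∈ closure (E c) ∧ Linked (fun i => closure (E i)) x a c ∧
      Linked (fun i => closure (E i)) x b c) ∨ ∀ p ∈ sphere x 1, p ∉ closure (E c)) : False := by
  obtain ⟨u, hu, horb⟩ := rot_orbit E hE hB hcov
  have hu0 : u ≠ 0 := fun e => by simp [e] at hu
  set W : ℕ → ℂ := fun k => x + om ^ k * u with hW
  have hWn : ∀ k, ‖om ^ k * u‖ = 1 := fun k => by simp [norm_om, hu]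
  have hWs : ∀ k, W k ∈ sphere x 1 := fun k => by simp [hW, norm_om, hu]
  have hWW : ∀ k, dist (W (k + 1)) (W k) = 1 := fun k => by
    rw [dist_eq_norm, show W (k + 1) - W k = (om - 1) * (om ^ k * u) by simp only [hW]; ring,
      norm_mul, norm_om_sub_one, hWn, one_mul]
  have per : ∀ k, ∃ i : Fin 3, ∃ ε > 0, sphere (W k) 1 ∩ ball (W (k + 1)) ε ⊆
      closure (E (![a, a, b] i)) ∪ closure (E (![b, c, c] i)) ∧
      ((i = 0) ∨ (x ∈ closure (E c) ∧ Linked (fun i => closure (E i)) x a c ∧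
        Linked (fun i => closure (E i)) x b c)) := by
    intro k
    obtain ⟨ρ, hρ, hother⟩ :=
      other_colour E hE hB hR hcl (hWn k) hcov (horb k).1 (horb k).2
    have eW : x + om * (om ^ k * u) = W (k + 1) := by simp only [hW]; ring
    rw [eW] at hother
    obtain ⟨ε', hε', hloc⟩ := local_colours E (W (k + 1))
    set ε := min ε' ρ with hεd
    have hε : 0 < ε := lt_min hε' hρ
    have hS : ∀ p ∈ sphere (W k) 1 ∩ ball (W (k + 1)) ε, ∃ i, (i = a ∨ i = b ∨ i = c) ∧
        p ∈ closure (E i) ∧ W (k + 1) ∈ closure (E i) := by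
      intro p hp
      obtain ⟨i, hir, his, hi⟩ := hother p ⟨hp.1, ball_subset_ball (min_le_right _ _) hp.2⟩
      exact ⟨i, ((hall i).resolve_left hir).resolve_left his, hi,
        hloc p (ball_subset_ball (min_le_left _ _) hp.2) i hi⟩
    by_cases hca : W (k + 1) ∈ closure (E c)
    · have hc' := hc.resolve_right fun h => h _ (hWs _) hca
      by_cases hA : W (k + 1) ∈ closure (E a)
      · by_cases hB' : W (k + 1) ∈ closure (E b)
        · exfalso
          have hfull : ∀ i, W (k + 1) ∈ closure (E i) := fun i => by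
            rcases hall i with rfl | rfl | rfl | rfl | rfl
            exacts [(horb _).1, (horb _).2, hA, hB', hca]
          obtain ⟨g, hg⟩ := hfive _ hfull
          have hxw : x ∈ sphere (W (k + 1)) 1 := by
            rw [mem_sphere, dist_comm]; exact mem_sphere.1 (hWs _)
          have hww : W k ∈ sphere (W (k + 1)) 1 := by
            rw [mem_sphere, dist_comm]; exact hWW k
          rcases hall g with rfl | rfl | rfl | rfl | rfl
          exacts [hg _ hww (horb k).1, hg _ hww (horb k).2, hg _ hxw hxa, hg _ hxw hxb,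
            hg _ hxw hc'.1]
        · refine ⟨1, ε, hε, fun p hp => ?_, Or.inr hc'⟩
          obtain ⟨i, hi | hi | hi, hpi, hwi⟩ := hS p hp
          · exact Or.inl (hi ▸ hpi)
          · exact absurd (hi ▸ hwi) hB'
          · exact Or.inr (hi ▸ hpi)
      · refine ⟨2, ε, hε, fun p hp => ?_, Or.inr hc'⟩
        obtain ⟨i, hi | hi | hi, hpi, hwi⟩ := hS p hp
        · exact absurd (hi ▸ hwi) hA
        · exact Or.inl (hi ▸ hpi)
        · exact Or.inr (hi ▸ hpi)
    · refine ⟨0, ε, hε, fun p hp => ?_, Or.inl rfl⟩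
      obtain ⟨i, hi | hi | hi, hpi, hwi⟩ := hS p hp
      · exact Or.inl (hi ▸ hpi)
      · exact Or.inr (hi ▸ hpi)
      · exact absurd (hi ▸ hwi) hca
  choose idx ε hε harc hok using per
  obtain ⟨i, j, hij, he⟩ : ∃ i j : Fin 4, i < j ∧ idx i = idx j := by
    obtain ⟨i, j, hne, he⟩ := Fintype.exists_ne_map_eq_of_card_lt (fun k : Fin 4 => idx k) (by simp)
    rcases lt_or_gt_of_ne hne with h | h
    · exact ⟨i, j, h, he⟩
    · exact ⟨j, i, h, he.symm⟩
  have tri : ∀ k, dist (W (k + 1)) x = 1 ∧ dist (W k) x = 1 ∧ dist (W (k + 1)) (W k) = 1 :=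
    fun k => ⟨mem_sphere.1 (hWs _), mem_sphere.1 (hWs _), hWW k⟩
  have hne : W ((i : ℕ) + 1) ≠ W ((j : ℕ) + 1) := fun e => by
    simp only [hW, add_right_inj] at e
    refine om_pow_ne hu0 i j hij (mul_left_cancel₀ (show om ≠ 0 from fun e => by
      simpa [e] using norm_om) ?_)
    linear_combination e
  refine two_centres E hE hB hne (tri i) (tri j) (hε i) (hε j) (harc i) (he ▸ harc j) ?_
  have hok := hok i
  generalize idx i = m at hok ⊢
  rcases hok with h | h
  · subst h; exact hab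
  · fin_cases m
    exacts [hab, h.2.1, h.2.2]

end Vale.Agent.P032
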