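import Vale.Agent.P032.GammaEnd

/-!
No five disjoint regular open sets without unit distances have closures covering the plane.
-/

namespace Vale.Agent.P032

open Metric Set

theorem six (E : Fin 5 → Set ℂ) (hE : ∀ i, IsOpen (E i))
    (hB : ∀ i, ∀ y ∈ E i, ∀ z ∈ E i, dist y z ≠ 1)
    (hR : ∀ i, interior (closure (E i)) = E i)
    (hcl : ∀ x, ∃ i, x ∈ closure (E i))
    (hd : ∀ i j, i ≠ j → Disjoint (E i) (E j)) : False := by
  obtain ⟨x, h3, hns⟩ := exists_unstarred (fun i => closure (E i)) (fun i => isClosed_closure) hcl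
    fun i x hx => by
      obtain ⟨y, hy, hxy⟩ := Metric.mem_closure_iff.1 hx (1 / 4) (by norm_num)
      exact ⟨y, hxy, fun z hz h => not_closure E hE hB hy (by rwa [dist_comm]) hz⟩
  obtain ⟨a, b, c, d, e, h4⟩ := four_of_nonstar E hE hB hR hcl hd h3 hns
  by_cases h1 : ∃ p ∈ sphere x 1, p ∉ closure (E e) ∧ p ∉ closure (E d)
  · by_cases h2 : ∃ p ∈ sphere x 1, p ∉ closure (E e) ∧ p ∉ closure (E a)
    · obtain ⟨p, hp, hpe, hpd⟩ := h1
      obtain ⟨q₁, hq₁, -⟩ := exists_pure E hE hB hR hcl h4 hp hpe hpd one_pos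
      obtain ⟨p', hp', hpe', hpa'⟩ := h2
      obtain ⟨q₂, hq₂, -⟩ := exists_pure E hE hB hR hcl h4.mirror hp' hpe' hpa' one_pos
      rw [pure_comm E x b a e] at hq₂
      exact gamma E hE hB hR hcl hd h4 hq₁ hq₂
    · push Not at h2
      refine alpha E hE hB hR hcl hd h4 fun p hp hpe => ⟨h2 p hp hpe, ?_⟩
      rcases label_cases E hE hB hR hcl h4 hp hpe with h | h | h
      exacts [Or.inl h.2, Or.inr h.2, Or.inr h.2.2]
  · push Not at h1
    refine alpha E hE hB hR hcl hd h4.mirror fun p hp hpe => ⟨h1 p hp hpe, ?_⟩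
    rcases label_cases E hE hB hR hcl h4 hp hpe with h | h | h
    exacts [Or.inr h.1, Or.inl h.1, Or.inr h.2.1]

end Vale.Agent.P032
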