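import Vale.Agent.P032.Five
import Vale.Agent.P032.Good

/-!
Five regular open sets which avoid distance one and are dense in the plane: some point lies in
four of the closures and its unit circle holds an arc outside all the sets.
-/

namespace Vale.Agent.P032

open Metric Set Complex ComplexConjugate

/-- The point of the unit circle at a given angle. -/
noncomputable def zz (t : ℝ) : ℂ := ⟨Real.cos t, Real.sin t⟩

lemma zz_cont : Continuous zz :=
  Complex.equivRealProdCLM.symm.continuous.comp (Real.continuous_cos.prodMk Real.continuous_sin)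

lemma norm_zz (t : ℝ) : ‖zz t‖ = 1 := by
  rw [Complex.norm_def, Complex.normSq_apply, Real.sqrt_eq_one]
  have := Real.sin_sq_add_cos_sq t
  simp only [zz]
  nlinarith

lemma zz_zero : zz 0 = 1 := Complex.ext (by simp [zz]) (by simp [zz])

lemma om_im : om.im ≠ 0 := by
  simp [om]

/-- Along a unit circle the distance to a point at distance one crosses one strictly. -/
lemma straddle {x p q : ℂ} (hp : ‖p - x‖ = 1) (hq : dist p q = 1)
    (hnc : (conj (p - x) * (q - x)).im ≠ 0) :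
    ∀ δ > 0, ∃ τ, 0 < τ ∧ τ < δ ∧
      (dist q (x + zz τ * (p - x)) - 1) * (dist q (x + zz (-τ) * (p - x)) - 1) < 0 := by
  intro δ hδ
  set D := p - x with hD
  set P := q - x with hP
  set R := (conj D * P).re with hR
  set I := (conj D * P).im with hI
  have hI0 : 0 < |I| := abs_pos.2 hnc
  set τ := min (min (δ / 2) 1) (|I| / (2 * (|R| + 1))) with hτ
  have hR1 : 0 < 2 * (|R| + 1) := by positivity
  have hτ0 : 0 < τ := lt_min (lt_min (half_pos hδ) one_pos) (by positivity)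
  have hτ1 : τ ≤ 1 := (min_le_left _ _).trans (min_le_right _ _)
  have hτI : τ * (2 * (|R| + 1)) ≤ |I| := by
    rw [← le_div_iff₀ hR1]; exact min_le_right _ _
  have hτd : τ < δ := ((min_le_left _ _).trans (min_le_left _ _)).trans_lt (half_lt_self hδ)
  refine ⟨τ, hτ0, hτd, ?_⟩
  have f : ∀ t, dist q (x + zz t * D) ^ 2 =
      1 + 2 * ((1 - Real.cos t) * R - Real.sin t * I) := by
    intro t
    have e1 : dist p q ^ 2 = 1 := by rw [hq]; norm_num
    have e2 : D.re * D.re + D.im * D.im = 1 := by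
      rw [← Complex.normSq_apply, ← Complex.sq_norm, hp]; norm_num
    rw [dist_eq_norm] at e1 ⊢
    rw [show q - (x + zz t * D) = P - zz t * D by rw [hP]; ring]
    rw [show p - q = D - P by rw [hD, hP]; ring] at e1
    rw [Complex.sq_norm, Complex.normSq_apply] at e1 ⊢
    have := Real.sin_sq_add_cos_sq t
    simp only [zz, hR, hI, Complex.sub_re, Complex.sub_im, Complex.mul_re, Complex.mul_im,
      Complex.conj_re, Complex.conj_im] at e1 ⊢
    linear_combination e1 + (D.re * D.re + D.im * D.im) * this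
  have h1 := f τ
  have h2 := f (-τ)
  rw [Real.cos_neg, Real.sin_neg] at h2
  have hc : 1 - Real.cos τ ≤ τ ^ 2 / 2 := by linarith [Real.one_sub_sq_div_two_le_cos (x := τ)]
  have hc0 : 0 ≤ 1 - Real.cos τ := by linarith [Real.cos_le_one τ]
  have hs : τ / 2 ≤ Real.sin τ := by
    nlinarith [Real.sin_gt_sub_cube hτ0, pow_le_one₀ (n := 2) hτ0.le hτ1]
  have key : |(1 - Real.cos τ) * R| < |Real.sin τ * I| := by
    rw [abs_mul, abs_mul, abs_of_nonneg hc0, abs_of_nonneg (by linarith : 0 ≤ Real.sin τ)]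
    have a1 : (1 - Real.cos τ) * |R| ≤ τ ^ 2 / 2 * |R| :=
      mul_le_mul_of_nonneg_right hc (abs_nonneg _)
    have a2 : τ / 2 * |I| ≤ Real.sin τ * |I| := mul_le_mul_of_nonneg_right hs hI0.le
    nlinarith [mul_le_mul_of_nonneg_left hτI hτ0.le, abs_nonneg R]
  set A := dist q (x + zz τ * D)
  set B := dist q (x + zz (-τ) * D)
  have hA : (0 : ℝ) ≤ A := dist_nonneg
  have hB : (0 : ℝ) ≤ B := dist_nonneg
  have e : (A - 1) * (B - 1) * ((A + 1) * (B + 1)) =
      4 * (((1 - Real.cos τ) * R) ^ 2 - (Real.sin τ * I) ^ 2) := by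
    linear_combination (B ^ 2 - 1) * h1 + 2 * ((1 - Real.cos τ) * R - Real.sin τ * I) * h2
  have hlt : ((1 - Real.cos τ) * R) ^ 2 - (Real.sin τ * I) ^ 2 < 0 := by
    linarith [sq_lt_sq.2 key]
  by_contra hge
  push Not at hge
  nlinarith [mul_nonneg hge (by positivity : (0 : ℝ) ≤ (A + 1) * (B + 1))]

variable (E : Fin 5 → Set ℂ) (hE : ∀ i, IsOpen (E i))
  (hB : ∀ i, ∀ y ∈ E i, ∀ z ∈ E i, dist y z ≠ 1)
  (hR : ∀ i, interior (closure (E i)) = E i)
  (hcl : ∀ x, ∃ i, x ∈ closure (E i))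

include hE hB in
/-- A point at distance one from an arc in one closure is outside that closure. -/
lemma arc_sweep {x p q : ℂ} {a : Fin 5} (hp : p ∈ sphere x 1) {ε : ℝ} (hε : 0 < ε)
    (harc : sphere x 1 ∩ ball p ε ⊆ closure (E a)) (hq : dist p q = 1)
    (hnc : (conj (p - x) * (q - x)).im ≠ 0) : q ∉ closure (E a) := by
  intro hqa
  have hp' : ‖p - x‖ = 1 := by rw [← dist_eq_norm]; exact mem_sphere.1 hp
  let T : ℝ → ℂ := fun t => x + zz t * (p - x)
  have hT : Continuous T := continuous_const.add (zz_cont.mul continuous_const)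
  have hT0 : T 0 = p := by simp [T, zz_zero]
  obtain ⟨δ, hδ, hball⟩ := Metric.continuousAt_iff.1 (hT.continuousAt (x := (0 : ℝ))) ε hε
  obtain ⟨τ, hτ, hτδ, hstr⟩ := straddle hp' hq hnc δ hδ
  have ho : IsOpen {y : ℂ | (dist y (T τ) - 1) * (dist y (T (-τ)) - 1) < 0} :=
    isOpen_lt (by fun_prop) continuous_const
  obtain ⟨y, hy1, hy2⟩ := mem_closure_iff.1 hqa _ ho hstr
  rw [mem_ofPred_eq] at hy1
  have hmem : (1 : ℝ) ∈ uIcc (dist y (T (-τ))) (dist y (T τ)) := by
    rw [mem_uIcc]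
    rcases le_total (dist y (T (-τ))) 1 with h | h
    · exact Or.inl ⟨h, le_of_not_gt fun h' => by nlinarith⟩
    · exact Or.inr ⟨le_of_not_gt fun h' => by nlinarith, h⟩
  obtain ⟨t, ht, hyt⟩ := intermediate_value_uIcc (f := fun t => dist y (T t))
    ((continuous_const.dist hT).continuousOn) hmem
  rw [uIcc_of_le (by linarith : -τ ≤ τ)] at ht
  have hts : T t ∈ sphere x 1 := by simp [T, norm_zz, hp']
  have htb : T t ∈ ball p ε := mem_ball.2 (hT0 ▸ hball (by
    rw [Real.dist_eq, sub_zero, abs_lt]; constructor <;> linarith [ht.1, ht.2]))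
  exact not_closure E hE hB hy2 hyt (harc ⟨hts, htb⟩)

lemma local_colours (p : ℂ) :
    ∃ ε > 0, ∀ z ∈ ball p ε, ∀ i, z ∈ closure (E i) → p ∈ closure (E i) := by
  have : (⋃ j ∈ {j | p ∉ closure (E j)}, closure (E j))ᶜ ∈ nhds p := by
    refine IsOpen.mem_nhds ?_ ?_
    · exact ((Set.toFinite _).isClosed_biUnion fun j _ => isClosed_closure).isOpen_compl
    · simp only [mem_compl_iff, mem_iUnion, exists_prop, not_exists, not_and]
      exact fun j hj => hj
  obtain ⟨ε, hε, hsub⟩ := Metric.mem_nhds_iff.1 this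
  exact ⟨ε, hε, fun z hz i hi => by_contra fun hj => hsub hz (mem_biUnion (x := i) hj hi)⟩

include hR hcl in
lemma single {p : ℂ} {i : Fin 5} (h : ∀ j, p ∈ closure (E j) → j = i) : p ∈ E i := by
  obtain ⟨ε, hε, hloc⟩ := local_colours E p
  rw [← hR i]
  refine interior_maximal (fun z hz => ?_) isOpen_ball (mem_ball_self hε)
  obtain ⟨j, hj⟩ := hcl z
  exact h j (hloc z hz j hj) ▸ hj

/-- Every arc of a circle has a point near which the colours are constant along the circle. -/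
lemma generic {x p : ℂ} (hp : p ∈ sphere x 1) {ε : ℝ} (hε : 0 < ε) :
    ∃ q ∈ sphere x 1 ∩ ball p ε, ∃ ε' > 0, ball q ε' ⊆ ball p ε ∧
      ∀ z ∈ sphere x 1 ∩ ball q ε', ∀ i, (z ∈ closure (E i) ↔ q ∈ closure (E i)) := by
  classical
  have hex : ∃ n, ∃ q ∈ sphere x 1 ∩ ball p ε,
      (Finset.univ.filter fun i => q ∈ closure (E i)).card = n :=
    ⟨_, p, ⟨hp, mem_ball_self hε⟩, rfl⟩
  obtain ⟨q, hq, hn⟩ := Nat.find_spec hex
  obtain ⟨ε₁, hε₁, hloc⟩ := local_colours E q
  obtain ⟨ε₂, hε₂, hsub⟩ := Metric.isOpen_iff.1 isOpen_ball q hq.2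
  refine ⟨q, hq, min ε₁ ε₂, lt_min hε₁ hε₂,
    (ball_subset_ball (min_le_right _ _)).trans hsub, fun z hz i => ?_⟩
  have hz1 : z ∈ ball q ε₁ := ball_subset_ball (min_le_left _ _) hz.2
  refine ⟨hloc z hz1 i, fun hqi => by_contra fun hzi => ?_⟩
  have hlt : (Finset.univ.filter fun i => z ∈ closure (E i)).card <
      (Finset.univ.filter fun i => q ∈ closure (E i)).card := by
    refine Finset.card_lt_card ⟨fun j hj => ?_, fun hsub' => hzi ?_⟩
    · simp only [Finset.mem_filter, Finset.mem_univ, true_and] at hj ⊢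
      exact hloc z hz1 j hj
    · have := hsub' (Finset.mem_filter.2 ⟨Finset.mem_univ i, hqi⟩)
      exact (Finset.mem_filter.1 this).2
  rw [hn] at hlt
  exact Nat.find_min hex hlt ⟨z, ⟨hz.1, hsub (ball_subset_ball (min_le_right _ _) hz.2)⟩, rfl⟩

include hE hB in
lemma not_one {x : ℂ} {e : Fin 5} (h : sphere x 1 ⊆ closure (E e)) : False := by
  refine arc_sweep E hE hB (x := x) (p := x + 1) (q := x + om) (by simp) one_pos
    (fun z hz => h hz.1) ?_ ?_ (h (by simp [norm_om]))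
  · rw [dist_eq_norm, show x + 1 - (x + om) = -(om - 1) by ring, norm_neg, norm_om_sub_one]
  · simp [om_im]

include hE hB in
lemma no_four' {x : ℂ} (hD : sphere x 1 ⊆ closure (sphere x 1 ∩ ⋃ i, E i)) {a b c d : Fin 5}
    (h : a ≠ b ∧ a ≠ c ∧ a ≠ d ∧ b ≠ c ∧ b ≠ d ∧ c ≠ d)
    (ha : x ∈ closure (E a)) (hb : x ∈ closure (E b)) (hc : x ∈ closure (E c))
    (hd : x ∈ closure (E d)) : False := by
  have key : ∀ a b c d : Fin 5, a ≠ b ∧ a ≠ c ∧ a ≠ d ∧ b ≠ c ∧ b ≠ d ∧ c ≠ d →
      ∃ e : Fin 5, ∀ i, i ≠ a → i ≠ b → i ≠ c → i ≠ d → i = e := by decide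
  obtain ⟨e, he⟩ := key a b c d h
  refine not_one E hE hB (e := e) (hD.trans (closure_mono ?_))
  rintro p ⟨hp, hp'⟩
  obtain ⟨i, hi⟩ := mem_iUnion.1 hp'
  have := he i (fun k => colour_ne E hE hB ⟨hp, hi⟩ (k ▸ ha))
    (fun k => colour_ne E hE hB ⟨hp, hi⟩ (k ▸ hb))
    (fun k => colour_ne E hE hB ⟨hp, hi⟩ (k ▸ hc))
    (fun k => colour_ne E hE hB ⟨hp, hi⟩ (k ▸ hd))
  exact this ▸ hi

include hE hB hcl in
/-- An arc on which just two colours meet is not around a point joined by both their closures. -/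
lemma no_pair_arc {v q : ℂ} {i j : Fin 5} (hqv : dist q v = 1) {ε : ℝ} (hε : 0 < ε)
    (hball : ∀ z ∈ ball q ε, ∀ k, z ∈ closure (E k) → k = i ∨ k = j)
    (hK : ∀ η > 0, ∃ C, IsPreconnected C ∧
      C ⊆ closure (E i) ∩ closure (E j) ∩ closedBall v η ∧ C.Nontrivial) : False := by
  obtain ⟨C, hC, hsub, p₁, hp₁, p₂, hp₂, hne⟩ := hK (ε / 4) (by linarith)
  have hp₁v : dist p₁ v ≤ ε / 4 := mem_closedBall.1 (hsub hp₁).2
  set u := q - v with hu
  have hu1 : ‖u‖ = 1 := by rw [hu, ← dist_eq_norm]; exact hqv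
  -- a point near `q` at distance one from the first point only
  obtain ⟨c, hc1, hc2, hcq⟩ : ∃ c, dist c p₁ = 1 ∧ dist c p₂ ≠ 1 ∧ dist c q < ε / 2 := by
    obtain ⟨τ, hτ, hτ1, hτb⟩ : ∃ τ : ℝ, 0 < τ ∧ τ ≤ 1 ∧
        ∀ t ∈ Set.Icc (-τ) τ, dist (p₁ + zz t * u) (p₁ + u) < ε / 4 := by
      have hc : Continuous fun t => p₁ + zz t * u :=
        continuous_const.add (zz_cont.mul continuous_const)
      obtain ⟨δ, hδ, hb⟩ :=
        Metric.continuousAt_iff.1 (hc.continuousAt (x := (0 : ℝ))) (ε / 4) (by linarith)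
      refine ⟨min (δ / 2) 1, lt_min (half_pos hδ) one_pos, min_le_right _ _, fun t ht => ?_⟩
      have := hb (x := t) (by
        rw [Real.dist_eq, sub_zero, abs_lt]
        have := min_le_left (δ / 2) (1 : ℝ)
        constructor <;> linarith [ht.1, ht.2])
      simpa [zz_zero] using this
    have hnear : ∀ t ∈ Set.Icc (-τ) τ, dist (p₁ + zz t * u) q < ε / 2 := fun t ht => by
      have : dist (p₁ + u) q = dist p₁ v := by
        rw [dist_eq_norm, dist_eq_norm, show p₁ + u - q = p₁ - v by rw [hu]; ring]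
      linarith [dist_triangle (p₁ + zz t * u) (p₁ + u) q, hτb t ht]
    by_contra hno
    push Not at hno
    have hone : ∀ t ∈ Set.Icc (-τ) τ, dist (p₁ + zz t * u) p₂ = 1 := fun t ht => by
      by_contra h2
      exact absurd (hnear t ht)
        (not_lt.2 (hno _ (by simp [dist_eq_norm, norm_zz, hu1]) h2))
    have e0 := hone 0 ⟨by linarith, hτ.le⟩
    have e1 := hone τ ⟨by linarith, le_rfl⟩
    have e2 := hone (-τ) ⟨le_rfl, by linarith⟩
    set D := p₁ - p₂ with hD
    have g : ∀ t, dist (p₁ + zz t * u) p₂ = 1 →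
        2 * (Real.cos t * (conj D * u).re - Real.sin t * (conj D * u).im) + ‖D‖ ^ 2 = 0 := by
      intro t ht
      have e : ‖zz t * u + D‖ ^ 2 = 1 := by
        rw [show zz t * u + D = p₁ + zz t * u - p₂ by rw [hD]; ring, ← dist_eq_norm, ht]
        norm_num
      have eu : u.re * u.re + u.im * u.im = 1 := by
        rw [← Complex.normSq_apply, ← Complex.sq_norm, hu1]; norm_num
      rw [Complex.sq_norm, Complex.normSq_apply] at e ⊢
      have := Real.sin_sq_add_cos_sq t
      simp only [zz, Complex.add_re, Complex.add_im, Complex.mul_re, Complex.mul_im,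
        Complex.conj_re, Complex.conj_im] at e ⊢
      linear_combination e - (u.re * u.re + u.im * u.im) * this - eu
    have g0 := g 0 e0
    have g1 := g τ e1
    have g2 := g (-τ) e2
    rw [Real.cos_neg, Real.sin_neg] at g2
    rw [Real.cos_zero, Real.sin_zero] at g0
    have hcos : Real.cos τ < 1 := by
      refine lt_of_le_of_ne (Real.cos_le_one τ) fun h => ?_
      have := (Real.cos_eq_one_iff_of_lt_of_lt (by linarith [Real.two_le_pi])
        (by linarith [Real.two_le_pi])).1 h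
      linarith
    have hre : (conj D * u).re = 0 := by nlinarith
    rw [hre] at g0
    have : ‖D‖ = 0 := by nlinarith [norm_nonneg D]
    exact hne (sub_eq_zero.1 (norm_eq_zero.1 this))
  -- move it so that the two points are strictly on different sides
  obtain ⟨σ, hσ, hσb⟩ : ∃ σ : ℝ, 0 < σ ∧ ∀ s, |s| ≤ σ →
      dist (p₁ + (1 + s : ℝ) • (c - p₁)) q < ε ∧
      (dist (p₁ + (1 + s : ℝ) • (c - p₁)) p₂ - 1) * (dist c p₂ - 1) > 0 := by
    have hc : Continuous fun s : ℝ => p₁ + (1 + s) • (c - p₁) := by fun_prop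
    have ho : IsOpen {s : ℝ | dist (p₁ + (1 + s) • (c - p₁)) q < ε ∧
        (dist (p₁ + (1 + s) • (c - p₁)) p₂ - 1) * (dist c p₂ - 1) > 0} := by
      rw [ofPred_and]
      exact (isOpen_lt (by fun_prop) continuous_const).inter
        (isOpen_lt continuous_const (by fun_prop))
    obtain ⟨σ, hσ, hsub'⟩ := Metric.isOpen_iff.1 ho 0 (by
      simp only [mem_ofPred_eq, add_zero, one_smul, add_sub_cancel]
      exact ⟨by linarith, mul_self_pos.2 (sub_ne_zero.2 hc2)⟩)
    exact ⟨σ / 2, half_pos hσ, fun s hs => hsub' (by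
      rw [mem_ball, Real.dist_eq, sub_zero]; linarith)⟩
  have key : ∃ c', dist c' q < ε ∧ (dist c' p₁ - 1) * (dist c' p₂ - 1) < 0 := by
    have hn : ∀ s : ℝ, |s| ≤ 1 → dist (p₁ + (1 + s) • (c - p₁)) p₁ = 1 + s := fun s hs => by
      rw [dist_eq_norm, add_sub_cancel_left, norm_smul, ← dist_eq_norm, hc1, mul_one,
        Real.norm_eq_abs, abs_of_nonneg (by linarith [(abs_le.1 hs).1])]
    set s := min σ 1 with hs
    have hs0 : 0 < s := lt_min hσ one_pos
    rcases lt_or_gt_of_ne hc2 with h | h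
    · refine ⟨_, (hσb s (by rw [abs_of_pos hs0]; exact min_le_left _ _)).1, ?_⟩
      have h2 := (hσb s (by rw [abs_of_pos hs0]; exact min_le_left _ _)).2
      rw [hn s (by rw [abs_of_pos hs0]; exact min_le_right _ _)]
      nlinarith
    · refine ⟨_, (hσb (-s) (by rw [abs_neg, abs_of_pos hs0]; exact min_le_left _ _)).1, ?_⟩
      have h2 := (hσb (-s) (by rw [abs_neg, abs_of_pos hs0]; exact min_le_left _ _)).2
      rw [hn (-s) (by rw [abs_neg, abs_of_pos hs0]; exact min_le_right _ _)]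
      nlinarith
  obtain ⟨c', hc'q, hc'⟩ := key
  obtain ⟨k, hk⟩ := hcl c'
  obtain ⟨y, ⟨hyb, hy⟩, hyk⟩ := mem_closure_iff.1 hk
    (ball q ε ∩ {y | (dist y p₁ - 1) * (dist y p₂ - 1) < 0})
    (isOpen_ball.inter (isOpen_lt (by fun_prop) continuous_const)) ⟨hc'q, hc'⟩
  rw [mem_ofPred_eq] at hy
  obtain ⟨p, hp, hyp⟩ : ∃ p ∈ C, dist y p = 1 := by
    rcases le_total (dist y p₁) 1 with h | h
    · exact hC.intermediate_value hp₁ hp₂ (f := fun p => dist y p)
        (Continuous.continuousOn (by fun_prop)) ⟨h, le_of_not_gt fun h' => by nlinarith⟩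
    · exact hC.intermediate_value hp₂ hp₁ (f := fun p => dist y p)
        (Continuous.continuousOn (by fun_prop)) ⟨le_of_not_gt fun h' => by nlinarith, h⟩
  refine not_closure E hE hB hyk hyp ?_
  rcases hball y hyb k (subset_closure hyk) with rfl | rfl
  exacts [(hsub hp).1.1, (hsub hp).1.2]

/-- Four distinct colours do not share a point. -/
def NoFour (E : Fin 5 → Set ℂ) : Prop :=
  ∀ x a b c d, a ≠ b → a ≠ c → a ≠ d → b ≠ c → b ≠ d → c ≠ d →
    x ∈ closure (E a) → x ∈ closure (E b) → x ∈ closure (E c) → x ∈ closure (E d) → False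

include hE hB hcl in
lemma no_triple_arc (hN : NoFour E) {v q : ℂ} {i j k : Fin 5} (hqv : q ∈ sphere v 1) {ε : ℝ}
    (hε : 0 < ε) (hj : j ≠ i) (hki : k ≠ i) (hkj : k ≠ j)
    (harc : ∀ m, m = i ∨ m = j ∨ m = k → sphere v 1 ∩ ball q ε ⊆ closure (E m))
    (hvi : v ∈ closure (E i)) (hvj : v ∈ closure (E j)) (hvk : v ∈ closure (E k)) : False := by
  obtain ⟨ρ, hρ, hlocv⟩ := local_colours E v
  have hc : Continuous fun t => q + zz t * (v - q) :=
    continuous_const.add (zz_cont.mul continuous_const)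
  obtain ⟨δ, hδ, hb⟩ := Metric.continuousAt_iff.1 (hc.continuousAt (x := (0 : ℝ))) ρ hρ
  set τ := min (δ / 2) 1 with hτ
  have hτ0 : 0 < τ := lt_min (half_pos hδ) one_pos
  set y := q + zz τ * (v - q) with hy
  have hyv : y ∈ ball v ρ := by
    have := hb (x := τ) (by
      rw [Real.dist_eq, sub_zero, abs_of_pos hτ0]
      linarith [min_le_left (δ / 2) (1 : ℝ)])
    simpa [zz_zero, mem_ball, y] using this
  have hq : ‖q - v‖ = 1 := by rw [← dist_eq_norm]; exact mem_sphere.1 hqv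
  have h1 : dist q y = 1 := by
    rw [hy, dist_eq_norm, sub_add_cancel_left, norm_neg, norm_mul, norm_zz, one_mul, norm_sub_rev,
      hq]
  have h2 : (conj (q - v) * (y - v)).im ≠ 0 := by
    have e : y - v = (q - v) * (1 - zz τ) := by rw [hy]; ring
    rw [e, ← mul_assoc, mul_comm (conj (q - v)), Complex.mul_conj, Complex.im_ofReal_mul,
      Complex.normSq_eq_norm_sq, hq]
    have hs : 0 < Real.sin τ := Real.sin_pos_of_pos_of_lt_pi hτ0
      (by linarith [Real.two_le_pi, min_le_right (δ / 2) (1 : ℝ)])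
    simp [zz, hs.ne']
  have hno : ∀ m, m = i ∨ m = j ∨ m = k → y ∉ closure (E m) := fun m hm =>
    arc_sweep E hE hB hqv hε (harc m hm) h1 h2
  obtain ⟨l, hl⟩ := hcl y
  exact hN v i j k l hj.symm hki.symm (fun h => hno i (Or.inl rfl) (h ▸ hl)) hkj.symm
    (fun h => hno j (Or.inr (Or.inl rfl)) (h ▸ hl))
    (fun h => hno k (Or.inr (Or.inr rfl)) (h ▸ hl)) hvi hvj hvk (hlocv y hyv l hl)

include hE hB hR hcl in
lemma circle_two (hN : NoFour E) {v : ℂ} {d e : Fin 5}
    (hv3 : ∀ i, i ≠ d → i ≠ e → v ∈ closure (E i))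
    (hK : ∀ p q, v ∈ closure (E p) → v ∈ closure (E q) → p ≠ q → ∀ η > 0, ∃ C,
      IsPreconnected C ∧ C ⊆ closure (E p) ∩ closure (E q) ∩ closedBall v η ∧ C.Nontrivial) :
    sphere v 1 ⊆ closure (E d) ∪ closure (E e) := by
  intro p hp
  by_contra hpde
  rw [mem_union, not_or] at hpde
  obtain ⟨ε, hε, hloc⟩ := local_colours E p
  obtain ⟨q, hq, ε', hε', -, hgen⟩ := generic E hp hε
  obtain ⟨εq, hεq, hlocq⟩ := local_colours E q
  have hq3 : ∀ i, q ∈ closure (E i) → v ∈ closure (E i) := fun i hi =>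
    hv3 i (fun h => hpde.1 (h ▸ hloc q hq.2 i hi)) (fun h => hpde.2 (h ▸ hloc q hq.2 i hi))
  obtain ⟨i, hi⟩ := hcl q
  by_cases hj : ∃ j, j ≠ i ∧ q ∈ closure (E j)
  · obtain ⟨j, hji, hj⟩ := hj
    by_cases hk : ∃ k, k ≠ i ∧ k ≠ j ∧ q ∈ closure (E k)
    · obtain ⟨k, hki, hkj, hk⟩ := hk
      refine no_triple_arc E hE hB hcl hN hq.1 hε' hji hki hkj ?_ (hq3 i hi) (hq3 j hj) (hq3 k hk)
      rintro m (rfl | rfl | rfl) z hz
      exacts [(hgen z hz _).2 hi, (hgen z hz _).2 hj, (hgen z hz _).2 hk]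
    · refine no_pair_arc E hE hB hcl (mem_sphere.1 hq.1) hεq (i := i) (j := j)
        (fun z hz k hzk => ?_) (hK i j (hq3 i hi) (hq3 j hj) hji.symm)
      by_contra hh
      push Not at hh
      exact hk ⟨k, hh.1, hh.2, hlocq z hz k hzk⟩
  · have hqi : q ∈ E i := single E hR hcl fun j hj' => by_contra fun h => hj ⟨j, h, hj'⟩
    exact not_closure E hE hB hqi (mem_sphere.1 hq.1) (hq3 i hi)

lemma rot_facts (v : ℂ) : ∀ p ∈ sphere v 1, v + om * (p - v) ∈ sphere v 1 ∧
    dist p (v + om * (p - v)) = 1 ∧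
    (conj (p - v) * (v + om * (p - v) - v)).im ≠ 0 := by
  intro p hp
  have h1 : ‖p - v‖ = 1 := by rw [← dist_eq_norm]; exact mem_sphere.1 hp
  refine ⟨by simp [norm_om, h1], ?_, ?_⟩
  · rw [dist_eq_norm, show p - (v + om * (p - v)) = -((om - 1) * (p - v)) by ring, norm_neg,
      norm_mul, norm_om_sub_one, h1, one_mul]
  · rw [add_sub_cancel_left, mul_comm om, ← mul_assoc, mul_comm (conj (p - v)), Complex.mul_conj,
      Complex.normSq_eq_norm_sq, h1]
    simp [om_im]

include hE hB in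
lemma rot_swap {v : ℂ} {d e : Fin 5} (hcov : sphere v 1 ⊆ closure (E d) ∪ closure (E e)) :
    ∃ w ∈ sphere v 1,
      (w ∈ closure (E d) ∧ w ∈ closure (E e)) ∧
      (v + om * (w - v) ∈ closure (E d) ∧ v + om * (w - v) ∈ closure (E e)) := by
  set O : Fin 5 → Set ℂ := fun i => sphere v 1 \ closure (E i) with hO
  have hcomm : sphere v 1 ⊆ closure (E e) ∪ closure (E d) := by rwa [union_comm]
  have flip : ∀ d' e', sphere v 1 ⊆ closure (E d') ∪ closure (E e') →
      MapsTo (fun p => v + om * (p - v)) (O e') (O d') := by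
    intro d' e' hc p hp
    obtain ⟨hr, hr1, hr2⟩ := rot_facts v p hp.1
    obtain ⟨ε, hε, hsub⟩ := Metric.isOpen_iff.1 isClosed_closure.isOpen_compl p hp.2
    exact ⟨hr, arc_sweep E hE hB hp.1 hε
      (fun z hz => (hc hz.1).resolve_right (hsub hz.2)) hr1 hr2⟩
  have hOcov : sphere v 1 ⊆ closure (O d) ∪ closure (O e) := by
    intro p hp
    by_contra hpn
    rw [mem_union, not_or] at hpn
    obtain ⟨ε, hε, hsub⟩ := Metric.isOpen_iff.1
      (isClosed_closure.union isClosed_closure).isOpen_compl p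
      (show p ∈ (closure (O d) ∪ closure (O e))ᶜ by simp [hpn])
    have both : ∀ i, i = d ∨ i = e → sphere v 1 ∩ ball p ε ⊆ closure (E i) := by
      intro i hi z hz
      by_contra hzi
      have hz' := hsub hz.2
      rw [mem_compl_iff, mem_union, not_or] at hz'
      rcases hi with rfl | rfl
      · exact hz'.1 (subset_closure ⟨hz.1, hzi⟩)
      · exact hz'.2 (subset_closure ⟨hz.1, hzi⟩)
    obtain ⟨hr, hr1, hr2⟩ := rot_facts v p hp
    rcases hcov hr with h | h
    · exact arc_sweep E hE hB hp hε (both d (Or.inl rfl)) hr1 hr2 h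
    · exact arc_sweep E hE hB hp hε (both e (Or.inr rfl)) hr1 hr2 h
  have hne : ∀ i, (sphere v 1 ∩ closure (O i)).Nonempty := by
    intro i
    by_contra hn
    refine not_one E hE hB (x := v) (e := i) fun p hp => by_contra fun hpi => ?_
    exact hn ⟨p, hp, subset_closure ⟨hp, hpi⟩⟩
  have hpre : IsPreconnected (sphere v (1 : ℝ)) :=
    isPreconnected_sphere (by rw [Complex.rank_real_complex]; norm_num) v 1
  obtain ⟨w, hw, hwd, hwe⟩ := isPreconnected_closed_iff.1 hpre _ _ isClosed_closure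
    isClosed_closure hOcov (hne d) (hne e)
  have hrc : Continuous fun p => v + om * (p - v) := by fun_prop
  have hsubE : ∀ i j, sphere v 1 ⊆ closure (E i) ∪ closure (E j) →
      closure (O j) ⊆ closure (E i) := fun i j hc =>
    closure_minimal (fun p hp => (hc hp.1).resolve_right hp.2) isClosed_closure
  exact ⟨w, hw, ⟨hsubE d e hcov hwe, hsubE e d hcomm hwd⟩,
    hsubE d e hcov (map_mem_closure (f := fun p => v + om * (p - v)) hrc hwd (flip e d hcomm)),
    hsubE e d hcomm (map_mem_closure (f := fun p => v + om * (p - v)) hrc hwe (flip d e hcov))⟩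

/-- Points near `v + om * u` on the circle around `v + u` have a unit neighbour on the circle
around `v` near `v + om * om * u`. -/
lemma window {v u : ℂ} (hu : ‖u‖ = 1) :
    ∃ ρ > 0, ∀ q ∈ ball (v + om * u) ρ, ∃ p ∈ sphere v 1,
      dist q p = 1 ∧ (conj (q - (v + u)) * (p - (v + u))).im ≠ 0 := by
  have hw2 : ‖v + om * (om * u) - v‖ = 1 := by simp [norm_om, hu]
  have hd21 : dist (v + om * (om * u)) (v + om * u) = 1 := by
    rw [dist_eq_norm, show v + om * (om * u) - (v + om * u) = (om - 1) * (om * u) by ring,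
      norm_mul, norm_om_sub_one, norm_mul, norm_om, hu]
    norm_num
  have hnc : (conj (v + om * (om * u) - v) * (v + om * u - v)).im ≠ 0 := by
    rw [add_sub_cancel_left, add_sub_cancel_left, map_mul, mul_assoc, mul_comm (conj (om * u)),
      Complex.mul_conj, Complex.normSq_eq_norm_sq, norm_mul, norm_om, hu]
    simp [om_im]
  have hcz := zz_cont
  have hc : Continuous fun z : ℂ × ℝ =>
      (conj (z.1 - (v + u)) * (v + zz z.2 * (om * (om * u)) - (v + u))).im := by fun_prop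
  have h0 : (conj (v + om * u - (v + u)) *
      (v + zz 0 * (om * (om * u)) - (v + u))).im ≠ 0 := by
    rw [zz_zero, one_mul, show v + om * u - (v + u) = (om - 1) * u by ring,
      show v + om * (om * u) - (v + u) = (om + 1) * ((om - 1) * u) by ring, mul_comm (om + 1),
      ← mul_assoc, mul_comm (conj _), Complex.mul_conj, Complex.normSq_eq_norm_sq, norm_mul,
      norm_om_sub_one, hu]
    simp [om_im]
  obtain ⟨δ, hδ, hnz⟩ :=
    Metric.isOpen_iff.1 (isOpen_ne_fun hc continuous_const) (v + om * u, (0 : ℝ)) h0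
  obtain ⟨τ, hτ, hτδ, hstr⟩ := straddle (x := v) (q := v + om * u) hw2 hd21 hnc δ hδ
  rw [add_sub_cancel_left] at hstr
  have ho : IsOpen {q : ℂ | (dist q (v + zz τ * (om * (om * u))) - 1) *
      (dist q (v + zz (-τ) * (om * (om * u))) - 1) < 0} :=
    isOpen_lt (by fun_prop) continuous_const
  obtain ⟨ρ, hρ, hsub⟩ := Metric.isOpen_iff.1 ho _ hstr
  refine ⟨min ρ δ, lt_min hρ hδ, fun q hq => ?_⟩
  have h2 : (dist q (v + zz τ * (om * (om * u))) - 1) *
      (dist q (v + zz (-τ) * (om * (om * u))) - 1) < 0 :=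
    hsub (ball_subset_ball (min_le_left _ _) hq)
  have hmem : (1 : ℝ) ∈ uIcc (dist q (v + zz (-τ) * (om * (om * u))))
      (dist q (v + zz τ * (om * (om * u)))) := by
    rw [mem_uIcc]
    rcases le_total (dist q (v + zz (-τ) * (om * (om * u)))) 1 with h | h
    · exact Or.inl ⟨h, le_of_not_gt fun h' => by nlinarith⟩
    · exact Or.inr ⟨le_of_not_gt fun h' => by nlinarith, h⟩
  obtain ⟨t, ht, hqt⟩ := intermediate_value_uIcc
    (f := fun t => dist q (v + zz t * (om * (om * u)))) (Continuous.continuousOn (by fun_prop)) hmem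
  rw [uIcc_of_le (by linarith : -τ ≤ τ)] at ht
  refine ⟨v + zz t * (om * (om * u)), by simp [norm_zz, norm_om, hu], hqt, ?_⟩
  have hmem' : (q, t) ∈ ball (v + om * u, (0 : ℝ)) δ := by
    rw [mem_ball, Prod.dist_eq, max_lt_iff]
    refine ⟨(mem_ball.1 hq).trans_le (min_le_right _ _), ?_⟩
    rw [Real.dist_eq, sub_zero, abs_lt]
    constructor <;> linarith [ht.1, ht.2]
  exact hnz hmem' 

include hE hB hR hcl in
lemma other_colour {v u : ℂ} (hu : ‖u‖ = 1) {d e : Fin 5}
    (hcov : sphere v 1 ⊆ closure (E d) ∪ closure (E e))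
    (hwd : v + u ∈ closure (E d)) (hwe : v + u ∈ closure (E e)) :
    ∃ ρ > 0, ∀ p ∈ sphere (v + u) 1 ∩ ball (v + om * u) ρ,
      ∃ i, i ≠ d ∧ i ≠ e ∧ p ∈ closure (E i) := by
  obtain ⟨ρ, hρ, hgood⟩ := window (v := v) hu
  refine ⟨ρ, hρ, ?_⟩
  rintro p ⟨hp, hpb⟩
  by_contra hno
  push Not at hno
  obtain ⟨εp, hεp, hlocp⟩ := local_colours E p
  obtain ⟨ε₂, hε₂, hsub₂⟩ := Metric.isOpen_iff.1 isOpen_ball p hpb
  obtain ⟨q, hq, ε', hε', -, hgen⟩ := generic E hp (lt_min hεp hε₂)
  have honly : ∀ i, q ∈ closure (E i) → i = d ∨ i = e := fun i hi => by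
    by_contra hh
    push Not at hh
    exact hno i hh.1 hh.2 (hlocp q (ball_subset_ball (min_le_left _ _) hq.2) i hi)
  obtain ⟨i, hi⟩ := hcl q
  by_cases hj : ∃ j, j ≠ i ∧ q ∈ closure (E j)
  · obtain ⟨j, hji, hj⟩ := hj
    have hboth : q ∈ closure (E d) ∧ q ∈ closure (E e) := by
      rcases honly i hi with rfl | rfl <;> rcases honly j hj with rfl | rfl
      exacts [absurd rfl hji, ⟨hi, hj⟩, ⟨hj, hi⟩, absurd rfl hji]
    obtain ⟨t, ht, ht1, ht2⟩ :=
      hgood q (hsub₂ (ball_subset_ball (min_le_right _ _) hq.2))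
    rcases hcov ht with h | h
    · exact arc_sweep E hE hB hq.1 hε' (fun z hz => (hgen z hz d).2 hboth.1) ht1 ht2 h
    · exact arc_sweep E hE hB hq.1 hε' (fun z hz => (hgen z hz e).2 hboth.2) ht1 ht2 h
  · have hqi : q ∈ E i := single E hR hcl fun j hj' => by_contra fun h => hj ⟨j, h, hj'⟩
    refine not_closure E hE hB hqi (mem_sphere.1 hq.1) ?_
    rcases honly i hi with rfl | rfl
    exacts [hwd, hwe]

include hE hB hR hcl in
theorem wide (hN : NoFour E) : False := by
  obtain ⟨v, ⟨a, b, c, hab, hbc, hac, hva, hvb, hvc⟩, hK⟩ := exists_good (fun i => closure (E i))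
    (fun i => isClosed_closure) hcl (fun i x hx => by
      obtain ⟨y, hy, hxy⟩ := Metric.mem_closure_iff.1 hx (1 / 4) (by norm_num)
      exact ⟨y, hxy, fun z hz h => not_closure E hE hB hy (by rwa [dist_comm]) hz⟩) hN
  have split : ∀ a b c : Fin 5, a ≠ b → b ≠ c → a ≠ c → ∃ d e : Fin 5, d ≠ e ∧
      ∀ i, i = a ∨ i = b ∨ i = c ∨ i = d ∨ i = e := by decide
  obtain ⟨d, e, hde, hall⟩ := split a b c hab hbc hac
  have hv3 : ∀ i, i ≠ d → i ≠ e → v ∈ closure (E i) := fun i h1 h2 => by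
    rcases hall i with rfl | rfl | rfl | rfl | rfl
    exacts [hva, hvb, hvc, absurd rfl h1, absurd rfl h2]
  have hcov := circle_two E hE hB hR hcl hN hv3 hK
  obtain ⟨w, hw, ⟨hwd, hwe⟩, hw1d, hw1e⟩ := rot_swap E hE hB hcov
  obtain ⟨u, rfl⟩ : ∃ u, w = v + u := ⟨w - v, by ring⟩
  have hu : ‖u‖ = 1 := by simpa [dist_eq_norm] using mem_sphere.1 hw
  rw [add_sub_cancel_left] at hw1d hw1e
  obtain ⟨ρ, hρ, hother⟩ := other_colour E hE hB hR hcl hu hcov hwd hwe
  obtain ⟨ε, hε, hloc⟩ := local_colours E (v + om * u)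
  have hw1w : v + om * u ∈ sphere (v + u) 1 := by
    rw [mem_sphere, dist_eq_norm, show v + om * u - (v + u) = (om - 1) * u by ring, norm_mul,
      norm_om_sub_one, hu, one_mul]
  set ε₁ := min ε ρ with hε₁
  have hε₁0 : 0 < ε₁ := lt_min hε hρ
  obtain ⟨f, hfd, hfe, hf⟩ := hother _ ⟨hw1w, mem_ball_self hρ⟩
  have harc : sphere (v + u) 1 ∩ ball (v + om * u) ε₁ ⊆ closure (E f) := by
    intro p hp
    obtain ⟨i, hid, hie, hi⟩ := hother p ⟨hp.1, ball_subset_ball (min_le_right _ _) hp.2⟩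
    rcases eq_or_ne i f with rfl | hif
    · exact hi
    exact (hN (v + om * u) d e f i hde hfd.symm hid.symm hfe.symm hie.symm hif.symm
      hw1d hw1e hf (hloc p (ball_subset_ball (min_le_left _ _) hp.2) i hi)).elim
  refine arc_sweep E hE hB hw1w hε₁0 harc ?_ ?_ (hv3 f hfd hfe)
  · rw [dist_eq_norm, add_sub_cancel_left, norm_mul, norm_om, hu, one_mul]
  · rw [sub_add_cancel_left, show v + om * u - (v + u) = (om - 1) * u by ring,
      map_mul, mul_assoc, mul_neg, mul_comm (conj u), Complex.mul_conj, Complex.normSq_eq_norm_sq,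
      hu]
    simp [om_im]

end Vale.Agent.P032
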